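import Vale.Agent.P197.MathlibUsed
import Vale.Agent.P197.Defs

set_option linter.all false

section

section

/-!
# Covering lemma for Young diagrams of size `m (m + 1) / 2`

If `ν` has `m (m + 1) / 2` cells, then `ν` or its transpose contains a Young diagram `ν₂` with
`(m - 2) (m - 1) / 2` cells such that all columns of the skew shape `ν / ν₂` have height `≤ 4`.
-/

namespace Saxl

open Finset

/-- Remove a cell which is maximal among the cells outside `μ`. -/
theorem exists_remove (μ ν : YoungDiagram) (h : μ ≤ ν) (hlt : μ.card < ν.card) :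
    ∃ ξ : YoungDiagram, μ ≤ ξ ∧ ξ ≤ ν ∧ ξ.card + 1 = ν.card := by
  classical
  have hne : (ν.cells \ μ.cells).Nonempty := by
    rw [Finset.sdiff_nonempty]
    intro hsub
    exact absurd (Finset.card_le_card hsub) (not_le.mpr hlt)
  obtain ⟨x, hx, hmax⟩ := Finset.exists_maximal hne
  rw [Finset.mem_sdiff] at hx
  refine ⟨⟨ν.cells.erase x, ?_⟩, ?_, ?_, ?_⟩
  · intro a b hba ha
    have ha' : a ∈ ν.cells ∧ a ≠ x := by simpa using ha
    have hb : b ∈ ν.cells := ν.isLowerSet hba ha'.1
    have hbx : b ≠ x := by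
      rintro rfl
      have haμ : a ∉ μ.cells := fun haμ => hx.2 (μ.isLowerSet hba haμ)
      have := hmax (Finset.mem_sdiff.mpr ⟨ha'.1, haμ⟩) hba
      exact ha'.2 (le_antisymm this hba)
    have hb' : b ∈ ν := hb
    simpa using (⟨hb', hbx⟩ : b ∈ ν ∧ ¬ b = x)
  · intro y hy
    have hyν : y ∈ ν.cells := h hy
    have hyx : y ≠ x := by
      rintro rfl
      exact hx.2 hy
    change y ∈ ν.cells.erase x
    exact Finset.mem_erase.mpr ⟨hyx, hyν⟩
  · intro y hy
    exact (Finset.mem_erase.mp hy).2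
  · exact Finset.card_erase_add_one hx.1

/-- Interpolation between two Young diagrams. -/
theorem exists_between (μ ν : YoungDiagram) (h : μ ≤ ν) (c : ℕ) (h1 : μ.card ≤ c)
    (h2 : c ≤ ν.card) : ∃ ξ : YoungDiagram, μ ≤ ξ ∧ ξ ≤ ν ∧ ξ.card = c := by
  obtain ⟨k, hk⟩ := Nat.exists_eq_add_of_le h2
  induction k generalizing ν with
  | zero => exact ⟨ν, h, le_rfl, by omega⟩
  | succ k ih =>
    obtain ⟨ξ, hμξ, hξν, hcard⟩ := exists_remove μ ν h (by omega)
    obtain ⟨ζ, h3, h4, h5⟩ := ih ξ hμξ (by omega) (by omega)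
    exact ⟨ζ, h3, h4.trans hξν, h5⟩

/-- The diagram formed by the rows with index `≥ k`, shifted up by `k`. -/
def shiftUp (k : ℕ) (ν : YoungDiagram) : YoungDiagram where
  cells := (ν.cells.filter (fun c => k ≤ c.1)).image (fun c => (c.1 - k, c.2))
  isLowerSet := by
    intro a b hba ha
    simp only [Finset.coe_image, Finset.coe_filter, Set.mem_image, Set.mem_ofPred_eq] at ha ⊢
    obtain ⟨c, ⟨hc, hck⟩, rfl⟩ := ha
    refine ⟨(b.1 + k, b.2), ⟨?_, by simp⟩, by simp⟩
    refine ν.isLowerSet (a := c) ?_ hc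
    have h1 : b.1 ≤ c.1 - k := hba.1
    have h2 : b.2 ≤ c.2 := hba.2
    exact ⟨by change b.1 + k ≤ c.1; omega, h2⟩

theorem mem_shiftUp {k : ℕ} {ν : YoungDiagram} {c : ℕ × ℕ} :
    c ∈ shiftUp k ν ↔ (c.1 + k, c.2) ∈ ν := by
  change c ∈ (ν.cells.filter (fun c => k ≤ c.1)).image (fun c => (c.1 - k, c.2)) ↔ _
  simp only [Finset.mem_image, Finset.mem_filter, YoungDiagram.mem_cells]
  constructor
  · rintro ⟨d, ⟨hd, hk⟩, rfl⟩
    have : (d.1 - k + k, d.2) = d := by
      rw [Nat.sub_add_cancel hk]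
    simpa only [this] using hd
  · intro h
    exact ⟨(c.1 + k, c.2), ⟨h, by simp only [le_add_iff_nonneg_left, zero_le]⟩, by simp only [add_tsub_cancel_right, Prod.mk.eta]⟩

theorem shiftUp_le (k : ℕ) (ν : YoungDiagram) : shiftUp k ν ≤ ν := by
  intro c hc
  have := mem_shiftUp.mp hc
  exact ν.up_left_mem (Nat.le_add_right c.1 k) le_rfl this

theorem card_shiftUp (k : ℕ) (ν : YoungDiagram) :
    (shiftUp k ν).card = (ν.cells.filter (fun c => k ≤ c.1)).card := by
  change ((ν.cells.filter (fun c => k ≤ c.1)).image (fun c => (c.1 - k, c.2))).card = _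
  apply Finset.card_image_of_injOn
  intro a ha b hb hab
  simp only [Finset.coe_filter, Set.mem_ofPred_eq] at ha hb
  simp only [Prod.mk.injEq] at hab
  exact Prod.ext (by omega) hab.2

theorem colLen_le_of_shiftUp_le {k : ℕ} {ν ξ : YoungDiagram} (h : shiftUp k ν ≤ ξ) (j : ℕ) :
    ν.colLen j ≤ ξ.colLen j + k := by
  by_contra hcon
  push Not at hcon
  have h1 : (ξ.colLen j + k, j) ∈ ν := YoungDiagram.mem_iff_lt_colLen.mpr hcon
  have h2 : (ξ.colLen j, j) ∈ shiftUp k ν := mem_shiftUp.mpr h1
  have h3 : (ξ.colLen j, j) ∈ ξ := h h2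
  exact lt_irrefl _ (YoungDiagram.mem_iff_lt_colLen.mp h3)

/-- Number of cells in the first four rows. -/
def top (ν : YoungDiagram) : ℕ := (ν.cells.filter (fun c => c.1 < 4)).card

/-- Number of cells in the first four columns. -/
def left (ν : YoungDiagram) : ℕ := (ν.cells.filter (fun c => c.2 < 4)).card

theorem top_transpose (ν : YoungDiagram) : top ν.transpose = left ν := by
  unfold top left
  refine Finset.card_bij' (fun c _ => c.swap) (fun c _ => c.swap) ?_ ?_ ?_ ?_
  · intro c hc
    simp only [Finset.mem_filter, YoungDiagram.mem_cells, YoungDiagram.mem_transpose] at hc ⊢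
    exact ⟨hc.1, hc.2⟩
  · intro c hc
    simp only [Finset.mem_filter, YoungDiagram.mem_cells, YoungDiagram.mem_transpose] at hc ⊢
    exact ⟨by simpa using hc.1, hc.2⟩
  · intro c _
    simp
  · intro c _
    simp

theorem card_transpose (ν : YoungDiagram) : ν.transpose.card = ν.card := by
  refine Finset.card_bij' (fun c _ => c.swap) (fun c _ => c.swap) ?_ ?_ ?_ ?_
  · intro c hc
    have : c ∈ ν.transpose := hc
    exact YoungDiagram.mem_transpose.mp this
  · intro c hc
    have : c ∈ ν := hc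
    change c.swap ∈ ν.transpose
    rw [YoungDiagram.mem_transpose]
    simpa using this
  · intro c _
    simp
  · intro c _
    simp

theorem exists_of_top (m : ℕ) (hm : 2 ≤ m) (ν : YoungDiagram) (hν : ν.card = m * (m + 1) / 2)
    (h : 2 * m - 1 ≤ top ν) :
    ∃ ν₂ : YoungDiagram, ν₂ ≤ ν ∧ ν₂.card = (m - 2) * (m - 1) / 2 ∧
      ∀ j, ν.colLen j ≤ ν₂.colLen j + 4 := by
  have hsplit : top ν + (ν.cells.filter (fun c => 4 ≤ c.1)).card = ν.card := by
    have := Finset.card_filter_add_card_filter_not (s := ν.cells) (fun c => c.1 < 4)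
    have h' : ν.card = #ν.cells := rfl
    unfold top
    rw [h', ← this]
    congr 2
    ext c
    simp only [mem_filter, YoungDiagram.mem_cells, not_lt]
  have harith : (m - 2) * (m - 1) / 2 + (2 * m - 1) = m * (m + 1) / 2 := by
    obtain ⟨k, rfl⟩ := Nat.exists_eq_add_of_le hm
    have e1 : (2 + k - 2) = k := by omega
    have e2 : (2 + k - 1) = k + 1 := by omega
    rw [e1, e2]
    have e3 : (2 + k) * (2 + k + 1) = k * (k + 1) + 2 * (2 * (2 + k) - 1) := by
      have : 2 * (2 + k) - 1 = 2 * k + 3 := by (clear * - hm e1 e2; omega)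
      rw [this]; ring
    rw [e3, Nat.add_mul_div_left _ _ (by norm_num)]
  have hcard : (shiftUp 4 ν).card ≤ (m - 2) * (m - 1) / 2 := by
    rw [card_shiftUp]
    omega
  obtain ⟨ξ, h1, h2, h3⟩ := exists_between (shiftUp 4 ν) ν (shiftUp_le 4 ν)
    ((m - 2) * (m - 1) / 2) hcard (by omega)
  exact ⟨ξ, h2, h3, fun j => colLen_le_of_shiftUp_le h1 j⟩

theorem card_le_of_small (ν : YoungDiagram) (x : ℕ) (ht : top ν ≤ 2 * x) (hl : left ν ≤ 2 * x) :
    2 * ν.card < (x + 1) * (x + 2) ∨ ν.card = top ν ∨ ν.card = left ν := by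
  classical
  -- `S` : cells outside the first four rows and columns
  set T := ν.cells.filter (fun c => c.1 < 4) with hT
  set L := ν.cells.filter (fun c => c.2 < 4) with hL
  set S := ν.cells.filter (fun c => 4 ≤ c.1 ∧ 4 ≤ c.2) with hS
  have hTc : T.card = top ν := rfl
  have hLc : L.card = left ν := rfl
  have hcover : ν.card ≤ (T ∪ L).card + S.card := by
    have hsub : ν.cells ⊆ (T ∪ L) ∪ S := by
      intro c hc
      simp only [hT, hL, hS, Finset.mem_union, Finset.mem_filter]
      rcases lt_or_ge c.1 4 with h1 | h1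
      · exact Or.inl (Or.inl ⟨hc, h1⟩)
      · rcases lt_or_ge c.2 4 with h2 | h2
        · exact Or.inl (Or.inr ⟨hc, h2⟩)
        · exact Or.inr ⟨hc, h1, h2⟩
    exact (Finset.card_le_card hsub).trans (Finset.card_union_le _ _)
  have hunion : (T ∪ L).card + (T ∩ L).card = T.card + L.card := Finset.card_union_add_card_inter T L
  by_cases h44 : (4, 4) ∈ ν
  · left
    have hr : 5 ≤ ν.rowLen 4 := YoungDiagram.mem_iff_lt_rowLen.mp h44
    have hq : 5 ≤ ν.colLen 4 := YoungDiagram.mem_iff_lt_colLen.mp h44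
    have hTL : 16 ≤ (T ∩ L).card := by
      have hsub : (Finset.range 4 ×ˢ Finset.range 4) ⊆ T ∩ L := by
        intro c hc
        simp only [Finset.mem_product, Finset.mem_range] at hc
        simp only [hT, hL, Finset.mem_inter, Finset.mem_filter]
        have : c ∈ ν.cells := ν.up_left_mem (i2 := 4) (j2 := 4) (by omega) (by omega) h44
        exact ⟨⟨this, hc.1⟩, ⟨this, hc.2⟩⟩
      have := Finset.card_le_card hsub
      simpa only [ge_iff_le, card_product, card_range, Nat.reduceMul] using this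
    have hrT : 4 * ν.rowLen 4 ≤ T.card := by
      have hsub : (Finset.range 4 ×ˢ Finset.range (ν.rowLen 4)) ⊆ T := by
        intro c hc
        simp only [Finset.mem_product, Finset.mem_range] at hc
        simp only [hT, Finset.mem_filter]
        refine ⟨?_, hc.1⟩
        have : c ∈ ν := YoungDiagram.mem_iff_lt_rowLen.mpr
          (lt_of_lt_of_le hc.2 (ν.rowLen_anti c.1 4 (by omega)))
        exact this
      have := Finset.card_le_card hsub
      simpa only [ge_iff_le, card_product, card_range] using this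
    have hqL : 4 * ν.colLen 4 ≤ L.card := by
      have hsub : (Finset.range (ν.colLen 4) ×ˢ Finset.range 4) ⊆ L := by
        intro c hc
        simp only [Finset.mem_product, Finset.mem_range] at hc
        simp only [hL, Finset.mem_filter]
        refine ⟨?_, hc.2⟩
        have : c ∈ ν := YoungDiagram.mem_iff_lt_colLen.mpr
          (lt_of_lt_of_le hc.1 (ν.colLen_anti c.2 4 (by omega)))
        exact this
      have := Finset.card_le_card hsub
      simp only [Finset.card_product, Finset.card_range] at this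
      (clear * - this; omega)
    have hSc : S.card ≤ (ν.colLen 4 - 4) * (ν.rowLen 4 - 4) := by
      have hsub : S ⊆ (Finset.Ico 4 (ν.colLen 4)) ×ˢ (Finset.Ico 4 (ν.rowLen 4)) := by
        intro c hc
        simp only [hS, Finset.mem_filter] at hc
        have hcν : c ∈ ν := hc.1
        have h1 : c.2 < ν.rowLen c.1 := YoungDiagram.mem_iff_lt_rowLen.mp hcν
        have h2 : c.1 < ν.colLen c.2 := YoungDiagram.mem_iff_lt_colLen.mp hcν
        have h3 := ν.rowLen_anti 4 c.1 hc.2.1
        have h4 := ν.colLen_anti 4 c.2 hc.2.2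
        simp only [Finset.mem_product, Finset.mem_Ico]
        omega
      have := Finset.card_le_card hsub
      simpa only [ge_iff_le, card_product, Nat.card_Ico] using this
    obtain ⟨r, hr'⟩ := Nat.exists_eq_add_of_le hr
    obtain ⟨q, hq'⟩ := Nat.exists_eq_add_of_le hq
    have e1 : ν.rowLen 4 - 4 = r + 1 := by omega
    have e2 : ν.colLen 4 - 4 = q + 1 := by omega
    rw [e1, e2] at hSc
    have h5 : 2 * (r + 5) ≤ x := by omega
    have h6 : 2 * (q + 5) ≤ x := by omega
    obtain ⟨y, hy⟩ := Nat.exists_eq_add_of_le h5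
    obtain ⟨w, hw⟩ := Nat.exists_eq_add_of_le h6
    have h7 : ν.card ≤ 4 * x - 16 + (q + 1) * (r + 1) := by omega
    have h8 : 16 ≤ 4 * x := by omega
    have h9 : 2 * ν.card ≤ 8 * x - 32 + 2 * ((q + 1) * (r + 1)) := by omega
    have h10 : 4 * ((q + 1) * (r + 1)) ≤ (x - 8) * (x - 8) := by
      have a1 : 2 * (q + 1) ≤ x - 8 := by omega
      have a2 : 2 * (r + 1) ≤ x - 8 := by (clear * - hr hr' e1 e2 h5 hy hw h8; omega)
      calc 4 * ((q + 1) * (r + 1)) = (2 * (q + 1)) * (2 * (r + 1)) := by ring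
        _ ≤ (x - 8) * (x - 8) := Nat.mul_le_mul a1 a2
    obtain ⟨z, hz⟩ := Nat.exists_eq_add_of_le (show 8 ≤ x by omega)
    subst hz
    have e3 : 8 + z - 8 = z := by (clear * - e1 e2 hy hw; omega)
    rw [e3] at h10
    have e4 : 8 * (8 + z) - 32 = 8 * z + 32 := by (clear * - e1 e2 hy hw e3; omega)
    rw [e4] at h9
    linarith
  · have hS0 : S = ∅ := by
      rw [Finset.eq_empty_iff_forall_notMem]
      intro c hc
      simp only [hS, Finset.mem_filter] at hc
      exact h44 (ν.up_left_mem (i2 := c.1) (j2 := c.2) hc.2.1 hc.2.2 hc.1)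
    rw [hS0, Finset.card_empty, add_zero] at hcover
    by_cases h04 : (0, 4) ∈ ν
    · by_cases h40 : (4, 0) ∈ ν
      · left
        have hTL : 7 ≤ (T ∩ L).card := by
          have hsub : ((Finset.range 4).image (fun j => ((0 : ℕ), j)) ∪
              (Finset.range 3).image (fun i => (i + 1, (0 : ℕ)))) ⊆ T ∩ L := by
            intro c hc
            simp only [Finset.mem_union, Finset.mem_image, Finset.mem_range] at hc
            simp only [hT, hL, Finset.mem_inter, Finset.mem_filter]
            rcases hc with ⟨j, hj, rfl⟩ | ⟨i, hi, rfl⟩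
            · have : ((0 : ℕ), j) ∈ ν.cells :=
                ν.up_left_mem (i2 := 0) (j2 := 4) le_rfl (by omega) h04
              exact ⟨⟨this, by norm_num⟩, ⟨this, hj⟩⟩
            · have : (i + 1, (0 : ℕ)) ∈ ν.cells :=
                ν.up_left_mem (i2 := 4) (j2 := 0) (by omega) le_rfl h40
              exact ⟨⟨this, by change i + 1 < 4; omega⟩, ⟨this, by norm_num⟩⟩
          have h7 : ((Finset.range 4).image (fun j => ((0 : ℕ), j)) ∪
              (Finset.range 3).image (fun i => (i + 1, (0 : ℕ)))).card = 7 := by decide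
          rw [← h7]
          exact Finset.card_le_card hsub
        have h9 : ν.card + 7 ≤ 4 * x := by omega
        nlinarith [sq_nonneg ((x : ℤ) - 2), sq_nonneg ((x : ℤ) - 3)]
      · right; left
        unfold top
        change ν.cells.card = _
        congr 1
        ext c
        simp only [Finset.mem_filter, iff_self_and]
        intro hc
        by_contra hcon
        push Not at hcon
        exact h40 (ν.up_left_mem (i2 := c.1) (j2 := c.2) hcon (Nat.zero_le _) hc)
    · right; right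
      unfold left
      change ν.cells.card = _
      congr 1
      ext c
      simp only [Finset.mem_filter, iff_self_and]
      intro hc
      by_contra hcon
      push Not at hcon
      exact h04 (ν.up_left_mem (i2 := c.1) (j2 := c.2) (Nat.zero_le _) hcon hc)

/-- **Covering lemma.** A Young diagram with `m (m + 1) / 2` cells, or its transpose, contains a
Young diagram with `(m - 2) (m - 1) / 2` cells such that the columns of the difference have at
most four cells. -/
theorem exists_sub (m : ℕ) (hm : 2 ≤ m) (ν : YoungDiagram) (hν : ν.card = m * (m + 1) / 2) :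
    (∃ ν₂ : YoungDiagram, ν₂ ≤ ν ∧ ν₂.card = (m - 2) * (m - 1) / 2 ∧
      ∀ j, ν.colLen j ≤ ν₂.colLen j + 4) ∨
    (∃ ν₂ : YoungDiagram, ν₂ ≤ ν.transpose ∧ ν₂.card = (m - 2) * (m - 1) / 2 ∧
      ∀ j, ν.transpose.colLen j ≤ ν₂.colLen j + 4) := by
  by_cases h1 : 2 * m - 1 ≤ top ν
  · exact Or.inl (exists_of_top m hm ν hν h1)
  by_cases h2 : 2 * m - 1 ≤ left ν
  · right
    refine exists_of_top m hm ν.transpose ?_ ?_
    · rw [card_transpose]; exact hν
    · rw [top_transpose]; exact h2
  exfalso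
  obtain ⟨k, rfl⟩ := Nat.exists_eq_add_of_le hm
  have h3 : 2 * ν.card = (2 + k) * (2 + k + 1) := by
    rw [hν]
    exact Nat.mul_div_cancel' (even_iff_two_dvd.mp (Nat.even_mul_succ_self (2 + k)))
  have h4 : (2 + k) * (2 + k + 1) = k * k + 5 * k + 6 := by ring
  have h5 : 0 ≤ k * k := Nat.zero_le _
  rcases card_le_of_small ν (k + 1) (by omega) (by omega) with h | h | h
  · have : (k + 1 + 1) * (k + 1 + 2) = (2 + k) * (2 + k + 1) := by ring
    (clear * - hν h3 h this; omega)
  · have : 2 * ν.card ≤ 2 * (2 * (k + 1)) := by omega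
    nlinarith only [h3, this]
  · have : 2 * ν.card ≤ 2 * (2 * (k + 1)) := by omega
    nlinarith only [h3, this]

end Saxl
end
end

section

section

open Finset Equiv

namespace Vale.Agent.P197.Quat

abbrev M2 := Matrix (Fin 2) (Fin 2) ℤ

/-- the adjugate of a 2 x 2 matrix. -/
def adj2 (X : M2) : M2 := !![X 1 1, -X 0 1; -X 1 0, X 0 0]

/-- four pairwise orthogonal matrices for the polarized determinant. -/
def qv (k : ℕ) : M2 :=
  if k % 4 = 0 then !![7, 2; 3, 1]
  else if k % 4 = 1 then !![-5, -2; -3, -1]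
  else if k % 4 = 2 then !![5, 1; 1, 0]
  else !![1, 1; -1, 0]

theorem qv_mod (k : ℕ) : qv (k % 4) = qv k := by
  unfold qv
  simp only [Nat.mod_mod]

theorem qv_ortho {a b : ℕ} (h : a % 4 ≠ b % 4) : qv a * adj2 (qv b) = -(qv b * adj2 (qv a)) := by
  rw [← qv_mod a, ← qv_mod b]
  have ha : a % 4 < 4 := Nat.mod_lt _ (by norm_num)
  have hb : b % 4 < 4 := Nat.mod_lt _ (by norm_num)
  generalize a % 4 = a' at *
  generalize b % 4 = b' at *
  interval_cases a' <;> interval_cases b' <;> first | exact absurd rfl h | decide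

theorem qv_ortho' {a b : ℕ} (h : a % 4 ≠ b % 4) : adj2 (qv a) * qv b = -(adj2 (qv b) * qv a) := by
  rw [← qv_mod a, ← qv_mod b]
  have ha : a % 4 < 4 := Nat.mod_lt _ (by norm_num)
  have hb : b % 4 < 4 := Nat.mod_lt _ (by norm_num)
  generalize a % 4 = a' at *
  generalize b % 4 = b' at *
  interval_cases a' <;> interval_cases b' <;> first | exact absurd rfl h | decide

theorem qv_triple (a b c : ℕ) : ∃ d : ℕ, qv a * adj2 (qv b) * qv c = qv d ∨
    qv a * adj2 (qv b) * qv c = -(qv d) := by
  rw [← qv_mod a, ← qv_mod b, ← qv_mod c]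
  have ha : a % 4 < 4 := Nat.mod_lt _ (by norm_num)
  have hb : b % 4 < 4 := Nat.mod_lt _ (by norm_num)
  have hc : c % 4 < 4 := Nat.mod_lt _ (by norm_num)
  generalize a % 4 = a' at *
  generalize b % 4 = b' at *
  generalize c % 4 = c' at *
  have key : ∀ a b c : Fin 4, ∃ d : Fin 4, qv a * adj2 (qv b) * qv c = qv d ∨
    qv a * adj2 (qv b) * qv c = -(qv d) := by decide
  obtain ⟨d, hd⟩ := key ⟨a', ha⟩ ⟨b', hb⟩ ⟨c', hc⟩
  exact ⟨d, hd⟩

theorem qv_00 (d : ℕ) : (qv d) 0 0 ≠ 0 := by
  rw [← qv_mod d]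
  have hd : d % 4 < 4 := Nat.mod_lt _ (by norm_num)
  generalize d % 4 = d' at *
  interval_cases d' <;> decide

end Vale.Agent.P197.Quat
end
end

section

section

open Finset Equiv

namespace Vale.Agent.P197.Quat

/-- bracket with letters (1,0) positive. -/
def brA (a b : Fin 2) : ℤ := (if a = 1 ∧ b = 0 then 1 else 0) - (if a = 0 ∧ b = 1 then 1 else 0)

/-- bracket with letters (0,1) positive. -/
def brB (a b : Fin 2) : ℤ := (if a = 0 ∧ b = 1 then 1 else 0) - (if a = 1 ∧ b = 0 then 1 else 0)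

theorem adj2_apply (X : M2) (b c : Fin 2) :
    adj2 X b c = ∑ a1 : Fin 2, ∑ b1 : Fin 2, brB b b1 * X a1 b1 * brA a1 c := by
  fin_cases b <;> fin_cases c <;> simp [adj2, brA, brB, Fin.sum_univ_two]

/-- alternating word X0 * adj X1 * X2 * ... * X(2n). -/
def word : (n : ℕ) → (ℕ → M2) → M2
  | 0, X => X 0
  | n + 1, X => X 0 * adj2 (X 1) * word n (fun k => X (k + 2))

/-- open first word: brackets (1,2),(3,4),... -/
def EA (n : ℕ) (u : Fin (2 * n + 1) → Fin 2) : ℤ :=
  ∏ l : Fin n, brA (u ⟨2 * l + 1, by omega⟩) (u ⟨2 * l + 2, by omega⟩)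

/-- open second word: brackets (0,1),(2,3),... -/
def EB (n : ℕ) (u : Fin (2 * n + 1) → Fin 2) : ℤ :=
  ∏ l : Fin n, brB (u ⟨2 * l, by omega⟩) (u ⟨2 * l + 1, by omega⟩)

theorem sum_cons {n : ℕ} (f : (Fin (n + 1) → Fin 2) → ℤ) :
    ∑ u, f u = ∑ a : Fin 2, ∑ v : Fin n → Fin 2, f (Fin.cons a v) := by
  rw [← Fintype.sum_prod_type']
  exact (Fintype.sum_equiv (Fin.consEquiv fun _ => Fin 2) _ _ (fun x => rfl)).symm

theorem sum_cons2 {n : ℕ} (f : (Fin (n + 1 + 1) → Fin 2) → ℤ) :
    ∑ u, f u = ∑ a : Fin 2, ∑ b : Fin 2, ∑ v : Fin n → Fin 2, f (Fin.cons a (Fin.cons b v)) := by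
  rw [sum_cons]
  simp_rw [sum_cons (n := n)]

theorem EA_succ (n : ℕ) (a0 a1 : Fin 2) (v : Fin (2 * n + 1) → Fin 2) :
    EA (n + 1) (Fin.cons (n := 2 * n + 1 + 1) (α := fun _ => Fin 2) a0 (Fin.cons a1 v)) =
      brA a1 (v 0) * EA n v := by
  unfold EA
  rw [Fin.prod_univ_succ]
  rfl

theorem EB_succ (n : ℕ) (b0 b1 : Fin 2) (v : Fin (2 * n + 1) → Fin 2) :
    EB (n + 1) (Fin.cons (n := 2 * n + 1 + 1) (α := fun _ => Fin 2) b0 (Fin.cons b1 v)) =
      brB b0 b1 * EB n v := by
  unfold EB
  rw [Fin.prod_univ_succ]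
  rfl

/-- the summand. -/
def sm (n : ℕ) (X : ℕ → M2) (a b : Fin 2) (u u' : Fin (2 * n + 1) → Fin 2) : ℤ :=
  (if u 0 = a then 1 else 0) * EA n u * ((if u' (Fin.last _) = b then 1 else 0) * EB n u') *
      ∏ k : Fin (2 * n + 1), X k (u k) (u' k)

theorem sm_succ (n : ℕ) (X : ℕ → M2) (a b a0 a1 b0 b1 : Fin 2) (v v' : Fin (2 * n + 1) → Fin 2) :
    sm (n + 1) X a b (Fin.cons (n := 2 * n + 1 + 1) (α := fun _ => Fin 2) a0 (Fin.cons a1 v))
      (Fin.cons (n := 2 * n + 1 + 1) (α := fun _ => Fin 2) b0 (Fin.cons b1 v'))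
    = (if a0 = a then 1 else 0) * (X 0 a0 b0 * (brB b0 b1 * X 1 a1 b1 * brA a1 (v 0))) *
          (EA n v * ((if v' (Fin.last _) = b then 1 else 0) * EB n v') *
            ∏ k : Fin (2 * n + 1), X (k + 2) (v k) (v' k)) := by
  unfold sm
  rw [EA_succ, EB_succ]
  have h3 : ∏ k : Fin (2 * (n + 1) + 1),
      X k ((Fin.cons (n := 2 * n + 1 + 1) (α := fun _ => Fin 2) a0 (Fin.cons a1 v)) k)
            ((Fin.cons (n := 2 * n + 1 + 1) (α := fun _ => Fin 2) b0 (Fin.cons b1 v')) k)
      = X 0 a0 b0 * (X 1 a1 b1 * ∏ k : Fin (2 * n + 1), X (k + 2) (v k) (v' k)) := by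
    change ∏ k : Fin (2 * n + 1 + 1 + 1),
      X k ((Fin.cons (n := 2 * n + 1 + 1) (α := fun _ => Fin 2) a0 (Fin.cons a1 v)) k)
            ((Fin.cons (n := 2 * n + 1 + 1) (α := fun _ => Fin 2) b0 (Fin.cons b1 v')) k) = _
    rw [Fin.prod_univ_succ]
    simp only [Fin.cons_zero, Fin.cons_succ]
    rw [Fin.prod_univ_succ]
    simp only [Fin.cons_zero, Fin.cons_succ]
    rfl
  have h4 : (Fin.cons (n := 2 * n + 1 + 1) (α := fun _ => Fin 2) b0 (Fin.cons b1 v')) (Fin.last _)
      = v' (Fin.last _) := rfl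
  have h5 : (Fin.cons (n := 2 * n + 1 + 1) (α := fun _ => Fin 2) a0 (Fin.cons a1 v)) 0 = a0 := rfl
  rw [h3]
  have e1 : (Fin.cons (n := 2 * n + 1 + 1) (α := fun _ => Fin 2) b0 (Fin.cons b1 v') :
      Fin (2 * (n + 1) + 1) → Fin 2) (Fin.last (2 * (n + 1))) = v' (Fin.last _) := h4
  have e2 : (Fin.cons (n := 2 * n + 1 + 1) (α := fun _ => Fin 2) a0 (Fin.cons a1 v) :
      Fin (2 * (n + 1) + 1) → Fin 2) 0 = a0 := h5
  rw [e1, e2]
  ring

/-- the transfer sum. -/
def TT (n : ℕ) (X : ℕ → M2) (a b : Fin 2) : ℤ :=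
  ∑ u : Fin (2 * n + 1) → Fin 2, ∑ u' : Fin (2 * n + 1) → Fin 2, sm n X a b u u'

theorem TT_succ (n : ℕ) (X : ℕ → M2) (a b : Fin 2) :
    TT (n + 1) X a b = ∑ c : Fin 2, (∑ b0 : Fin 2, X 0 a b0 *
        (∑ a1 : Fin 2, ∑ b1 : Fin 2, brB b0 b1 * X 1 a1 b1 * brA a1 c)) *
        TT n (fun k => X (k + 2)) c b := by
  have e0 : TT (n + 1) X a b = ∑ u : Fin (2 * n + 1 + 1 + 1) → Fin 2,
      ∑ u' : Fin (2 * n + 1 + 1 + 1) → Fin 2, sm (n + 1) X a b u u' := rfl
  rw [e0, sum_cons2]
  simp_rw [sum_cons2 (n := 2 * n + 1), sm_succ]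
  have e1 : ∀ c : Fin 2, TT n (fun k => X (k + 2)) c b =
      ∑ v : Fin (2 * n + 1) → Fin 2, ∑ v' : Fin (2 * n + 1) → Fin 2,
        (if v 0 = c then 1 else 0) * (EA n v * ((if v' (Fin.last _) = b then 1 else 0) * EB n v') *
            ∏ k : Fin (2 * n + 1), X (k + 2) (v k) (v' k)) := by
    intro c
    unfold TT sm
    refine Finset.sum_congr rfl fun v _ => Finset.sum_congr rfl fun v' _ => ?_
    ring
  simp_rw [e1]
  set G : (Fin (2 * n + 1) → Fin 2) → (Fin (2 * n + 1) → Fin 2) → ℤ := fun v v' =>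
    (EA n v * ((if v' (Fin.last _) = b then 1 else 0) * EB n v') *
            ∏ k : Fin (2 * n + 1), X (k + 2) (v k) (v' k)) with hG
  change ∑ a0 : Fin 2, ∑ a1 : Fin 2, ∑ v : Fin (2 * n + 1) → Fin 2, ∑ b0 : Fin 2, ∑ b1 : Fin 2,
      ∑ v' : Fin (2 * n + 1) → Fin 2, (if a0 = a then 1 else 0) *
        (X 0 a0 b0 * (brB b0 b1 * X 1 a1 b1 * brA a1 (v 0))) * G v v' =
      ∑ c : Fin 2, (∑ b0 : Fin 2, X 0 a b0 *
        (∑ a1 : Fin 2, ∑ b1 : Fin 2, brB b0 b1 * X 1 a1 b1 * brA a1 c)) *
        ∑ v : Fin (2 * n + 1) → Fin 2, ∑ v' : Fin (2 * n + 1) → Fin 2,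
          (if v 0 = c then 1 else 0) * G v v'
  have e2 : ∀ v : Fin (2 * n + 1) → Fin 2, ∀ a0 a1 : Fin 2,
      ∑ b0 : Fin 2, ∑ b1 : Fin 2, ∑ v' : Fin (2 * n + 1) → Fin 2, (if a0 = a then 1 else 0) *
        (X 0 a0 b0 * (brB b0 b1 * X 1 a1 b1 * brA a1 (v 0))) * G v v' =
      (if a0 = a then 1 else 0) * (∑ b0 : Fin 2, X 0 a0 b0 *
        (∑ b1 : Fin 2, brB b0 b1 * X 1 a1 b1 * brA a1 (v 0))) * ∑ v' : Fin (2 * n + 1) → Fin 2, G v v' := by
    intro v a0 a1
    simp only [← Finset.mul_sum, ← Finset.sum_mul]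
  simp_rw [e2]
  have e3 : ∀ a1 : Fin 2, ∑ a0 : Fin 2, ∑ v : Fin (2 * n + 1) → Fin 2,
      (if a0 = a then 1 else 0) * (∑ b0 : Fin 2, X 0 a0 b0 *
        (∑ b1 : Fin 2, brB b0 b1 * X 1 a1 b1 * brA a1 (v 0))) * ∑ v' : Fin (2 * n + 1) → Fin 2, G v v' =
      ∑ v : Fin (2 * n + 1) → Fin 2, (∑ b0 : Fin 2, X 0 a b0 *
        (∑ b1 : Fin 2, brB b0 b1 * X 1 a1 b1 * brA a1 (v 0))) * ∑ v' : Fin (2 * n + 1) → Fin 2, G v v' := by
    intro a1
    rw [Finset.sum_comm]
    refine Finset.sum_congr rfl fun v _ => ?_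
    simp only [Fin.sum_univ_two, Fin.isValue, ite_mul, one_mul, zero_mul, sum_ite_eq', mem_univ, ↓reduceIte]
  rw [Finset.sum_comm]
  simp_rw [e3]
  rw [Finset.sum_comm]
  have e4 : ∀ c : Fin 2, (∑ b0 : Fin 2, X 0 a b0 *
        (∑ a1 : Fin 2, ∑ b1 : Fin 2, brB b0 b1 * X 1 a1 b1 * brA a1 c)) *
        ∑ v : Fin (2 * n + 1) → Fin 2, ∑ v' : Fin (2 * n + 1) → Fin 2,
          (if v 0 = c then 1 else 0) * G v v' =
      ∑ v : Fin (2 * n + 1) → Fin 2, (if v 0 = c then 1 else 0) * ((∑ b0 : Fin 2, X 0 a b0 *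
        (∑ a1 : Fin 2, ∑ b1 : Fin 2, brB b0 b1 * X 1 a1 b1 * brA a1 (v 0))) *
          ∑ v' : Fin (2 * n + 1) → Fin 2, G v v') := by
    intro c
    rw [Finset.mul_sum]
    refine Finset.sum_congr rfl fun v _ => ?_
    by_cases hv : v 0 = c
    · subst hv
      simp only [Fin.sum_univ_two, Fin.isValue, ↓reduceIte, one_mul]
    · simp only [Fin.sum_univ_two, Fin.isValue, hv, ↓reduceIte, zero_mul, sum_const_zero, mul_zero]
  simp_rw [e4]
  conv_rhs => rw [Finset.sum_comm]
  refine Finset.sum_congr rfl fun v _ => ?_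
  rw [← Finset.sum_mul, ← Finset.sum_mul]
  simp only [Finset.sum_ite_eq, Finset.mem_univ, if_true, one_mul]
  congr 1
  rw [Finset.sum_comm]
  refine Finset.sum_congr rfl fun b0 _ => ?_
  rw [Finset.mul_sum]

theorem TT_eq (n : ℕ) : ∀ (X : ℕ → M2) (a b : Fin 2), TT n X a b = word n X a b := by
  induction n with
  | zero =>
    intro X a b
    unfold TT sm EA EB
    simp only [word]
    rw [sum_cons]
    simp_rw [sum_cons (n := 0)]
    fin_cases a <;> fin_cases b <;> simp
  | succ n ih =>
    intro X a b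
    rw [TT_succ]
    simp only [word, Matrix.mul_apply, adj2_apply, ih]

end Vale.Agent.P197.Quat
end
end

section

section

open Finset Equiv

namespace Vale.Agent.P197.Quat

/-- factor at position k. -/
def fac (k : ℕ) (X : M2) : M2 := if k % 2 = 0 then X else adj2 X

/-- alternating product of the first n matrices. -/
def wprod : ℕ → (ℕ → M2) → M2
  | 0, _ => 1
  | n + 1, X => wprod n X * fac n (X n)

theorem wprod_congr {n : ℕ} {X Y : ℕ → M2} (h : ∀ k < n, X k = Y k) : wprod n X = wprod n Y := by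
  induction n with
  | zero => rfl
  | succ n ih =>
    simp only [wprod]
    rw [ih fun k hk => h k (by omega), h n (by omega)]

theorem wprod_add_two (n : ℕ) (X : ℕ → M2) :
    wprod (n + 2) X = X 0 * adj2 (X 1) * wprod n (fun k => X (k + 2)) := by
  induction n with
  | zero => simp only [wprod, fac, Nat.zero_mod, ↓reduceIte, one_mul, Nat.mod_succ, one_ne_zero, mul_one]
  | succ n ih =>
    have h1 : wprod (n + 1 + 2) X = wprod (n + 2) X * fac (n + 2) (X (n + 2)) := rfl
    have h2 : wprod (n + 1) (fun k => X (k + 2)) = wprod n (fun k => X (k + 2)) * fac n (X (n + 2)) :=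
      rfl
    have h3 : fac (n + 2) (X (n + 2)) = fac n (X (n + 2)) := by
      unfold fac
      rw [Nat.add_mod_right]
    rw [h1, h2, ih, h3, Matrix.mul_assoc]

theorem word_eq (n : ℕ) : ∀ X : ℕ → M2, word n X = wprod (2 * n + 1) X := by
  induction n with
  | zero =>
    intro X
    simp only [word, wprod, fac, Nat.zero_mod, ↓reduceIte, one_mul]
  | succ n ih =>
    intro X
    have h : wprod (2 * (n + 1) + 1) X = wprod (2 * n + 1 + 2) X := rfl
    rw [h, wprod_add_two, word, ih]

theorem wprod_swap {n k : ℕ} (hk : k + 1 < n) (X : ℕ → M2)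
    (h : fac k (X (k + 1)) * fac (k + 1) (X k) = -(fac k (X k) * fac (k + 1) (X (k + 1)))) :
    wprod n (X ∘ swap k (k + 1)) = -wprod n X := by
  induction n with
  | zero => omega
  | succ n ih =>
    rcases Nat.lt_or_ge (k + 1) n with h1 | h1
    · simp only [wprod]
      rw [ih h1]
      have h2 : (X ∘ swap k (k + 1)) n = X n := by
        simp only [Function.comp_apply]
        rw [swap_apply_of_ne_of_ne (by omega) (by omega)]
      rw [h2, neg_mul]
    · have h2 : n = k + 1 := by omega
      subst h2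
      have e1 : wprod (k + 1 + 1) (X ∘ swap k (k + 1)) =
          wprod k (X ∘ swap k (k + 1)) * fac k ((X ∘ swap k (k + 1)) k) *
            fac (k + 1) ((X ∘ swap k (k + 1)) (k + 1)) := rfl
      have e2 : wprod (k + 1 + 1) X = wprod k X * fac k (X k) * fac (k + 1) (X (k + 1)) := rfl
      have e3 : wprod k (X ∘ swap k (k + 1)) = wprod k X := by
        apply wprod_congr
        intro l hl
        simp only [Function.comp_apply]
        rw [swap_apply_of_ne_of_ne (by omega) (by omega)]
      have e4 : (X ∘ swap k (k + 1)) k = X (k + 1) := by simp only [Function.comp_apply, swap_apply_left]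
      have e5 : (X ∘ swap k (k + 1)) (k + 1) = X k := by simp
      rw [e1, e2, e3, e4, e5, Matrix.mul_assoc, h, Matrix.mul_neg, Matrix.mul_assoc]

theorem fac_ortho (k : ℕ) {a b : ℕ} (h : a % 4 ≠ b % 4) :
    fac k (qv b) * fac (k + 1) (qv a) = -(fac k (qv a) * fac (k + 1) (qv b)) := by
  unfold fac
  rcases Nat.mod_two_eq_zero_or_one k with hk | hk
  · have hk1 : (k + 1) % 2 = 1 := by (clear * - hk; omega)
    simp only [hk, hk1, if_true, one_ne_zero, if_false]
    exact qv_ortho (Ne.symm h)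
  · have hk1 : (k + 1) % 2 = 0 := by (clear * - hk; omega)
    simp only [hk, hk1, if_true, one_ne_zero, if_false]
    exact qv_ortho' (Ne.symm h)

theorem wprod_qv (n : ℕ) (r : ℕ → ℕ) : ∃ d : ℕ, wprod (2 * n + 1) (fun k => qv (r k)) = qv d ∨
    wprod (2 * n + 1) (fun k => qv (r k)) = -(qv d) := by
  induction n with
  | zero =>
    refine ⟨r 0, Or.inl ?_⟩
    simp [wprod, fac]
  | succ n ih =>
    obtain ⟨d, hd⟩ := ih
    have e : wprod (2 * (n + 1) + 1) (fun k => qv (r k)) =
        wprod (2 * n + 1) (fun k => qv (r k)) * adj2 (qv (r (2 * n + 1))) * qv (r (2 * n + 2)) := by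
      have e1 : wprod (2 * (n + 1) + 1) (fun k => qv (r k)) =
        wprod (2 * n + 1) (fun k => qv (r k)) * fac (2 * n + 1) (qv (r (2 * n + 1))) *
          fac (2 * n + 2) (qv (r (2 * n + 2))) := rfl
      rw [e1]
      unfold fac
      have h1 : (2 * n + 1) % 2 = 1 := by omega
      have h2 : (2 * n + 2) % 2 = 0 := by omega
      simp only [h1, h2, one_ne_zero, if_false, if_true]
    obtain ⟨d', hd'⟩ := qv_triple d (r (2 * n + 1)) (r (2 * n + 2))
    refine ⟨d', ?_⟩
    rw [e]
    rcases hd with hd | hd <;> rw [hd]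
    · exact hd'
    · rw [neg_mul, neg_mul]
      rcases hd' with hd' | hd'
      · right
        rw [hd']
      · left
        rw [hd', neg_neg]

theorem wprod_qv_ne (n : ℕ) (r : ℕ → ℕ) : wprod (2 * n + 1) (fun k => qv (r k)) 0 0 ≠ 0 := by
  obtain ⟨d, hd | hd⟩ := wprod_qv n r
  · rw [hd]
    exact qv_00 d
  · rw [hd, Matrix.neg_apply]
    exact neg_ne_zero.2 (qv_00 d)

/-- extend a function on Fin N by zero. -/
def ext0 {N : ℕ} (r : Fin N → ℕ) (k : ℕ) : ℕ := if h : k < N then r ⟨k, h⟩ else 0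

theorem ext0_swap {N : ℕ} (r : Fin N → ℕ) (k : ℕ) (hk : k + 1 < N) :
    (fun l => ext0 (r ∘ swap (⟨k, by omega⟩ : Fin N) ⟨k + 1, hk⟩) l) =
      (fun l => ext0 r l) ∘ swap k (k + 1) := by
  funext l
  simp only [Function.comp_apply]
  rcases eq_or_ne l k with h1 | h1
  · subst h1
    rw [swap_apply_left]
    unfold ext0
    rw [dif_pos (show l < N by omega), dif_pos hk]
    simp
  · rcases eq_or_ne l (k + 1) with h2 | h2
    · subst h2
      rw [swap_apply_right]
      unfold ext0
      rw [dif_pos hk, dif_pos (show k < N by omega)]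
      simp
    · rw [swap_apply_of_ne_of_ne h1 h2]
      unfold ext0
      by_cases hl : l < N
      · rw [dif_pos hl, dif_pos hl]
        simp only [Function.comp_apply]
        rw [swap_apply_of_ne_of_ne]
        · intro h
          exact h1 (by simpa using congrArg Fin.val h)
        · intro h
          exact h2 (by simpa using congrArg Fin.val h)
      · rw [dif_neg hl, dif_neg hl]

theorem wprod_perm {N : ℕ} (r c : Fin N → ℕ) (hc : Monotone c)
    (hrc : ∀ a b, c a = c b → r a % 4 = r b % 4 → a = b) (π : Perm (Fin N))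
    (hπ : ∀ x, c (π x) = c x) :
    wprod N (fun k => qv (ext0 (r ∘ π) k)) =
      ((Perm.sign π : ℤˣ) : ℤ) • wprod N (fun k => qv (ext0 r k)) := by
  -- induction on a defect measure
  suffices H : ∀ d : ℕ, ∀ π : Perm (Fin N), (∀ x, c (π x) = c x) →
      N ^ 3 - ∑ k : Fin N, (k : ℕ) * (π k : ℕ) = d →
      wprod N (fun k => qv (ext0 (r ∘ π) k)) =
      ((Perm.sign π : ℤˣ) : ℤ) • wprod N (fun k => qv (ext0 r k)) from H _ π hπ rfl
  intro d
  induction d using Nat.strong_induction_on with
  | _ d ih =>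
    intro π hπ hd
    by_cases hdesc : ∃ k : ℕ, ∃ hk : k + 1 < N, π ⟨k + 1, hk⟩ < π ⟨k, by omega⟩
    · obtain ⟨k, hk, hlt⟩ := hdesc
      set x : Fin N := ⟨k, by omega⟩ with hx
      set y : Fin N := ⟨k + 1, hk⟩ with hy
      have hxy : x ≠ y := by
        intro h
        have := congrArg Fin.val h
        simp [hx, hy] at this
      have hxley : x ≤ y := by
        rw [Fin.le_def]
        simp [hx, hy]
      have hcxy : c x = c y := by
        apply le_antisymm (hc hxley)
        rw [← hπ x, ← hπ y]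
        exact hc hlt.le
      set π' : Perm (Fin N) := π * swap x y with hπ'
      have hπ'c : ∀ z, c (π' z) = c z := by
        intro z
        rw [hπ', Perm.mul_apply, hπ]
        rcases eq_or_ne z x with h1 | h1
        · rw [h1, swap_apply_left, hcxy]
        · rcases eq_or_ne z y with h2 | h2
          · rw [h2, swap_apply_right, hcxy]
          · rw [swap_apply_of_ne_of_ne h1 h2]
      -- the measure decreases
      have hsum : ∑ k : Fin N, (k : ℕ) * (π k : ℕ) < ∑ k : Fin N, (k : ℕ) * (π' k : ℕ) := by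
        have e1 : ∑ k : Fin N, (k : ℕ) * (π' k : ℕ) = ∑ k : Fin N, ((swap x y k : Fin N) : ℕ) * (π k : ℕ) := by
          refine Fintype.sum_equiv (swap x y) _ _ fun z => ?_
          rw [hπ', Perm.mul_apply, swap_apply_self]
        rw [e1]
        have e2 : ∀ f : Fin N → ℕ, ∑ k, f k = f x + (f y + ∑ k ∈ (univ.erase x).erase y, f k) := by
          intro f
          rw [← Finset.add_sum_erase univ f (Finset.mem_univ x)]
          rw [← Finset.add_sum_erase (univ.erase x) f (Finset.mem_erase.2 ⟨hxy.symm, Finset.mem_univ y⟩)]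
        rw [e2, e2 (fun k => ((swap x y k : Fin N) : ℕ) * (π k : ℕ))]
        have e3 : ∑ k ∈ (univ.erase x).erase y, (k : ℕ) * (π k : ℕ) =
            ∑ k ∈ (univ.erase x).erase y, ((swap x y k : Fin N) : ℕ) * (π k : ℕ) := by
          refine Finset.sum_congr rfl fun z hz => ?_
          rw [Finset.mem_erase, Finset.mem_erase] at hz
          rw [swap_apply_of_ne_of_ne hz.2.1 hz.1]
        rw [e3]
        simp only [swap_apply_left, swap_apply_right]
        have h1 : (x : ℕ) = k := rfl
        have h2 : (y : ℕ) = k + 1 := rfl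
        have h3 : (π y : ℕ) < (π x : ℕ) := hlt
        rw [h1, h2]
        have h4 : (k + 1) * (π y : ℕ) = k * (π y : ℕ) + (π y : ℕ) := by ring
        have h5 : (k + 1) * (π x : ℕ) = k * (π x : ℕ) + (π x : ℕ) := by ring
        omega
      have hbound : ∑ k : Fin N, (k : ℕ) * (π' k : ℕ) ≤ N ^ 3 := by
        calc ∑ k : Fin N, (k : ℕ) * (π' k : ℕ) ≤ ∑ _k : Fin N, N * N :=
              Finset.sum_le_sum fun k _ => Nat.mul_le_mul k.2.le (π' k).2.le
          _ = N ^ 3 := by
              rw [Finset.sum_const, Finset.card_univ, Fintype.card_fin, smul_eq_mul]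
              ring
      have hih := ih (N ^ 3 - ∑ k : Fin N, (k : ℕ) * (π' k : ℕ)) (by omega) π' hπ'c rfl
      have hcomp : (r ∘ π') = (r ∘ π) ∘ swap x y := rfl
      have hsw : (fun k => qv (ext0 (r ∘ π') k)) = (fun k => qv (ext0 (r ∘ π) k)) ∘ swap k (k + 1) := by
        have h1 := ext0_swap (r ∘ π) k hk
        rw [hcomp]
        funext l
        have h2 := congrFun h1 l
        simp only [Function.comp_apply] at h2 ⊢
        rw [← h2]
      have hmod : (r ∘ π) x % 4 ≠ (r ∘ π) y % 4 := by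
        intro h
        have h1 := hrc (π x) (π y) (by rw [hπ, hπ, hcxy]) h
        exact hxy (π.injective h1)
      have e4 : ext0 (r ∘ π) k = (r ∘ π) x := by
        unfold ext0
        rw [dif_pos (show k < N by omega)]
      have e5 : ext0 (r ∘ π) (k + 1) = (r ∘ π) y := by
        unfold ext0
        rw [dif_pos hk]
      have hneg : wprod N (fun k => qv (ext0 (r ∘ π') k)) = -wprod N (fun k => qv (ext0 (r ∘ π) k)) := by
        rw [hsw]
        apply wprod_swap hk
        rw [e4, e5]
        exact fac_ortho k hmod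
      have hsign : ((Perm.sign π' : ℤˣ) : ℤ) = -((Perm.sign π : ℤˣ) : ℤ) := by
        rw [hπ', Perm.sign_mul, Perm.sign_swap hxy]
        simp only [mul_neg, mul_one, Units.val_neg]
      rw [hneg, hsign, neg_smul] at hih
      exact neg_injective hih
    · push Not at hdesc
      have hpi : π = 1 := by
        rcases Nat.eq_zero_or_pos N with h0 | h0
        · subst h0
          exact Subsingleton.elim _ _
        · obtain ⟨n, rfl⟩ : ∃ n, N = n + 1 := ⟨N - 1, by omega⟩
          have hmono : StrictMono π := by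
            rw [Fin.strictMono_iff_lt_succ]
            intro i
            have h1 := hdesc i.val (by omega)
            have h2 : π (Fin.castSucc i) ≠ π i.succ := by
              intro h
              have := congrArg Fin.val (π.injective h)
              simp at this
            exact lt_of_le_of_ne h1 h2
          have h3 : (π : Fin (n + 1) → Fin (n + 1)) = id :=
            (hmono.range_inj strictMono_id).1 (by simp [π.surjective.range_eq])
          exact Equiv.ext fun x => congrFun h3 x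
      subst hpi
      simp only [Perm.coe_one, CompTriple.comp_eq, Perm.sign_one, Units.val_one, one_smul]

end Vale.Agent.P197.Quat
end
end

section

section

/-!
# P197: factorisation of the skew symmetriser sum along a block decomposition
-/

namespace Vale.Agent.P197

open Equiv Finset

section OccFactor

variable {X : Type*} [Fintype X] [DecidableEq X]

omit [Fintype X] [DecidableEq X] in
theorem app_inv (f : Perm X) (x : X) : f (f⁻¹ x) = x := f.apply_symm_apply x

omit [Fintype X] [DecidableEq X] in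
theorem inv_app (f : Perm X) (x : X) : f⁻¹ (f x) = x := f.symm_apply_apply x

omit [Fintype X] in
/-- A set on which `φ` is negative and off which `φ` is nonnegative is the only set of its
size minimising the sum of `φ`. -/
theorem eq_of_sum_eq (L L' : Finset X) (φ : X → ℤ) (h1 : ∀ x ∈ L, φ x < 0)
    (h2 : ∀ x, x ∉ L → 0 ≤ φ x) (hc : L'.card = L.card)
    (hs : ∑ x ∈ L', φ x = ∑ x ∈ L, φ x) : L' = L := by
  classical
  have e1 : ∑ x ∈ L', φ x = ∑ x ∈ L' ∩ L, φ x + ∑ x ∈ L' \ L, φ x :=
    (Finset.sum_inter_add_sum_sdiff L' L φ).symm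
  have e2 : ∑ x ∈ L, φ x = ∑ x ∈ L ∩ L', φ x + ∑ x ∈ L \ L', φ x :=
    (Finset.sum_inter_add_sum_sdiff L L' φ).symm
  have e3 : ∑ x ∈ L' \ L, φ x = ∑ x ∈ L \ L', φ x := by
    rw [Finset.inter_comm L L'] at e2
    linarith only [hs, e1, e2]
  have e4 : 0 ≤ ∑ x ∈ L' \ L, φ x :=
    Finset.sum_nonneg (fun x hx => h2 x (Finset.mem_sdiff.1 hx).2)
  have e5 : L \ L' = ∅ := by
    by_contra hne
    have hne' : (L \ L').Nonempty := Finset.nonempty_iff_ne_empty.2 hne
    have : ∑ x ∈ L \ L', φ x < 0 :=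
      Finset.sum_neg (fun x hx => h1 x (Finset.mem_sdiff.1 hx).1) hne'
    linarith only [e3, e4, this]
  have e6 : L ⊆ L' := Finset.sdiff_eq_empty_iff_subset.1 e5
  exact (Finset.eq_of_subset_of_card_le e6 (le_of_eq hc)).symm

/-- If `ρ` preserves rows, `π` preserves columns and `ρ π` preserves the block decomposition
(`¬ P` being a lower part of the diagram), then both do. -/
theorem preserve_of_mul (P : X → Prop) (rl cl : X → ℕ) (bd : ℕ → ℕ)
    (hB : ∀ x, ¬ P x ↔ rl x < bd (cl x)) (ρ π : Perm X)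
    (hρ : ∀ x, rl (ρ x) = rl x) (hπ : ∀ x, cl (π x) = cl x)
    (h : ∀ x, P ((ρ * π) x) ↔ P x) :
    (∀ x, P (ρ x) ↔ P x) ∧ (∀ x, P (π x) ↔ P x) := by
  classical
  set L : Finset X := univ.filter (fun x => ¬ P x) with hL
  set L' : Finset X := L.image π with hL'
  have hL'2 : L' = L.image (ρ⁻¹ : Perm X) := by
    ext y
    simp only [hL', Finset.mem_image, hL, Finset.mem_filter, Finset.mem_univ, true_and]
    constructor
    · rintro ⟨x, hx, rfl⟩
      refine ⟨ρ (π x), ?_, by simp⟩
      have := h x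
      rw [Perm.mul_apply] at this
      rw [this]
      exact hx
    · rintro ⟨x, hx, rfl⟩
      refine ⟨π⁻¹ (ρ⁻¹ x), ?_, by simp⟩
      have := h (π⁻¹ (ρ⁻¹ x))
      rw [Perm.mul_apply, app_inv, app_inv] at this
      rw [← this]
      exact hx
  have key : L' = L := by
    refine eq_of_sum_eq L L' (fun x => (rl x : ℤ) - bd (cl x)) ?_ ?_ ?_ ?_
    · intro x hx
      have : rl x < bd (cl x) := (hB x).1 (Finset.mem_filter.1 hx).2
      have h' : (rl x : ℤ) < bd (cl x) := by exact_mod_cast this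
      linarith
    · intro x hx
      have : ¬ rl x < bd (cl x) := by
        intro hlt
        exact hx (Finset.mem_filter.2 ⟨Finset.mem_univ _, (hB x).2 hlt⟩)
      have h' : (bd (cl x) : ℤ) ≤ rl x := by exact_mod_cast not_lt.1 this
      linarith
    · rw [hL']
      exact Finset.card_image_of_injective _ π.injective
    · rw [Finset.sum_sub_distrib, Finset.sum_sub_distrib]
      congr 1
      · rw [hL'2, Finset.sum_image (fun a _ b _ hab => (ρ⁻¹ : Perm X).injective hab)]
        refine Finset.sum_congr rfl (fun x _ => ?_)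
        have := hρ (ρ⁻¹ x)
        rw [app_inv] at this
        rw [this]
      · rw [hL', Finset.sum_image (fun a _ b _ hab => π.injective hab)]
        refine Finset.sum_congr rfl (fun x _ => ?_)
        rw [hπ x]
  have hπP : ∀ x, P (π x) ↔ P x := by
    intro x
    have e : (π x ∈ L') ↔ (π x ∈ L) := by rw [key]
    have e' : (π x ∈ L') ↔ x ∈ L := by
      rw [hL']
      constructor
      · intro hx
        obtain ⟨y, hy, hyx⟩ := Finset.mem_image.1 hx
        rwa [← π.injective hyx]
      · intro hx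
        exact Finset.mem_image_of_mem _ hx
    rw [e'] at e
    simp only [hL, Finset.mem_filter, Finset.mem_univ, true_and] at e
    exact (not_iff_not.1 e).symm
  refine ⟨?_, hπP⟩
  intro x
  have h1 := h (π⁻¹ x)
  have h2 := hπP (π⁻¹ x)
  rw [Perm.mul_apply, app_inv] at h1
  rw [app_inv] at h2
  rw [h1, h2]

omit [Fintype X] [DecidableEq X] in
theorem subtypeCongr_preserve (P : X → Prop) [DecidablePred P] (a : Perm {x // P x})
    (b : Perm {x // ¬ P x}) (x : X) : P (Perm.subtypeCongr a b x) ↔ P x := by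
  by_cases hx : P x
  · rw [Perm.subtypeCongr.left_apply _ _ hx]
    exact ⟨fun _ => hx, fun _ => (a ⟨x, hx⟩).2⟩
  · rw [Perm.subtypeCongr.right_apply _ _ hx]
    exact ⟨fun h => absurd h (b ⟨x, hx⟩).2, fun h => absurd h hx⟩

/-- Summation over the block-preserving elements of a label stabiliser. -/
theorem sum_preserving {ι M : Type*} [DecidableEq ι] [AddCommMonoid M] (P : X → Prop)
    [DecidablePred P] (l : X → ι) (F : Perm X → M) :
    ∑ g ∈ univ.filter (fun g : Perm X => (∀ x, l (g x) = l x) ∧ ∀ x, P (g x) ↔ P x), F g =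
      ∑ a ∈ univ.filter (fun a : Perm {x // P x} => ∀ x, l (a x) = l x),
        ∑ b ∈ univ.filter (fun b : Perm {x // ¬ P x} => ∀ x, l (b x) = l x),
          F (Perm.subtypeCongr a b) := by
  classical
  rw [← Finset.sum_product']
  refine Finset.sum_bij' (i := fun g hg =>
      (g.subtypePerm (p := P) (fun x => (Finset.mem_filter.1 hg).2.2 x),
       g.subtypePerm (p := fun x => ¬ P x)
        (fun x => not_congr ((Finset.mem_filter.1 hg).2.2 x))))
    (j := fun ab _ => Perm.subtypeCongr ab.1 ab.2) ?_ ?_ ?_ ?_ ?_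
  · intro g hg
    have hg' := (Finset.mem_filter.1 hg).2
    rw [Finset.mem_product]
    refine ⟨Finset.mem_filter.2 ⟨Finset.mem_univ _, fun x => ?_⟩,
      Finset.mem_filter.2 ⟨Finset.mem_univ _, fun x => ?_⟩⟩
    · exact hg'.1 x
    · exact hg'.1 x
  · rintro ⟨a, b⟩ hab
    rw [Finset.mem_product] at hab
    have h1 := (Finset.mem_filter.1 hab.1).2
    have h2 := (Finset.mem_filter.1 hab.2).2
    refine Finset.mem_filter.2 ⟨Finset.mem_univ _, fun x => ?_, fun x => ?_⟩
    · by_cases hx : P x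
      · simp only
        rw [Perm.subtypeCongr.left_apply _ _ hx]
        exact h1 ⟨x, hx⟩
      · simp only
        rw [Perm.subtypeCongr.right_apply _ _ hx]
        exact h2 ⟨x, hx⟩
    · exact subtypeCongr_preserve P a b x
  · intro g hg
    ext x
    by_cases hx : P x
    · simp only
      rw [Perm.subtypeCongr.left_apply _ _ hx]
      rfl
    · simp only
      rw [Perm.subtypeCongr.right_apply _ _ hx]
      rfl
  · rintro ⟨a, b⟩ hab
    refine Prod.ext ?_ ?_
    · ext x
      simp only [Perm.subtypePerm_apply, Perm.subtypeCongr.left_apply_subtype, Subtype.coe_eta]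
    · ext x
      simp only [Perm.subtypePerm_apply]
      rw [Perm.subtypeCongr.right_apply _ _ x.2]
  · intro g hg
    congr 1
    ext x
    by_cases hx : P x
    · simp only
      rw [Perm.subtypeCongr.left_apply _ _ hx]
      rfl
    · simp only
      rw [Perm.subtypeCongr.right_apply _ _ hx]
      rfl

omit [Fintype X] [DecidableEq X] in
theorem subtypeCongr_mul (P : X → Prop) [DecidablePred P] (a a' : Perm {x // P x})
    (b b' : Perm {x // ¬ P x}) :
    Perm.subtypeCongr (a * a') (b * b') = Perm.subtypeCongr a b * Perm.subtypeCongr a' b' := by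
  ext x
  rw [Perm.mul_apply]
  by_cases hx : P x
  · rw [Perm.subtypeCongr.left_apply _ _ hx, Perm.subtypeCongr.left_apply _ _ hx,
      Perm.subtypeCongr.left_apply_subtype]
    rfl
  · rw [Perm.subtypeCongr.right_apply _ _ hx, Perm.subtypeCongr.right_apply _ _ hx,
      Perm.subtypeCongr.right_apply_subtype]
    rfl

omit [Fintype X] [DecidableEq X] in
theorem subtypeCongr_inv (P : X → Prop) [DecidablePred P] (a : Perm {x // P x})
    (b : Perm {x // ¬ P x}) :
    (Perm.subtypeCongr a b)⁻¹ = Perm.subtypeCongr a⁻¹ b⁻¹ := by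
  rw [inv_eq_iff_mul_eq_one, ← subtypeCongr_mul, mul_inv_cancel, mul_inv_cancel]
  ext x
  by_cases hx : P x
  · rw [Perm.subtypeCongr.left_apply _ _ hx]
    rfl
  · rw [Perm.subtypeCongr.right_apply _ _ hx]
    rfl

/-- Factorisation of the row-symmetrise, column-antisymmetrise sum of a function `W` on the
permutations of `X` which is supported on block-preserving permutations and multiplicative
there. -/
theorem occ_factor {K : Type*} [CommRing K] (P : X → Prop) [DecidablePred P] (rl cl : X → ℕ) (bd : ℕ → ℕ)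
    (hB : ∀ x, ¬ P x ↔ rl x < bd (cl x)) (W : Perm X → K) (WA : Perm {x // P x} → K)
    (WB : Perm {x // ¬ P x} → K) (hW0 : ∀ g, W g ≠ 0 → ∀ x, P (g x) ↔ P x)
    (hWm : ∀ a b, W (Perm.subtypeCongr a b) = WA a * WB b)
    (hA kA : Perm {x // P x}) (hB' kB : Perm {x // ¬ P x}) :
    ∑ ρ ∈ univ.filter (fun g : Perm X => ∀ x, rl (g x) = rl x),
      ∑ π ∈ univ.filter (fun g : Perm X => ∀ x, cl (g x) = cl x),
        ((Perm.sign π : ℤ) : K) *
          W ((Perm.subtypeCongr hA hB')⁻¹ * ρ * π * Perm.subtypeCongr kA kB) =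
    (∑ ρ ∈ univ.filter (fun g : Perm {x // P x} => ∀ x, rl (g x) = rl x),
      ∑ π ∈ univ.filter (fun g : Perm {x // P x} => ∀ x, cl (g x) = cl x),
        ((Perm.sign π : ℤ) : K) * WA (hA⁻¹ * ρ * π * kA)) *
    (∑ ρ ∈ univ.filter (fun g : Perm {x // ¬ P x} => ∀ x, rl (g x) = rl x),
      ∑ π ∈ univ.filter (fun g : Perm {x // ¬ P x} => ∀ x, cl (g x) = cl x),
        ((Perm.sign π : ℤ) : K) * WB (hB'⁻¹ * ρ * π * kB)) := by
  classical
  rw [← Finset.sum_product']
  have step1 : ∑ p ∈ (univ.filter (fun g : Perm X => ∀ x, rl (g x) = rl x)) ×ˢ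
        (univ.filter (fun g : Perm X => ∀ x, cl (g x) = cl x)),
        ((Perm.sign p.2 : ℤ) : K) *
          W ((Perm.subtypeCongr hA hB')⁻¹ * p.1 * p.2 * Perm.subtypeCongr kA kB) =
      ∑ p ∈ (univ.filter (fun g : Perm X => (∀ x, rl (g x) = rl x) ∧ ∀ x, P (g x) ↔ P x)) ×ˢ
        (univ.filter (fun g : Perm X => (∀ x, cl (g x) = cl x) ∧ ∀ x, P (g x) ↔ P x)),
        ((Perm.sign p.2 : ℤ) : K) *
          W ((Perm.subtypeCongr hA hB')⁻¹ * p.1 * p.2 * Perm.subtypeCongr kA kB) := by
    symm
    refine Finset.sum_subset ?_ ?_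
    · intro p hp
      rw [Finset.mem_product] at hp ⊢
      exact ⟨Finset.mem_filter.2 ⟨Finset.mem_univ _, (Finset.mem_filter.1 hp.1).2.1⟩,
        Finset.mem_filter.2 ⟨Finset.mem_univ _, (Finset.mem_filter.1 hp.2).2.1⟩⟩
    · intro p hp hnp
      by_contra hne
      apply hnp
      have hW := hW0 _ (right_ne_zero_of_mul hne)
      rw [Finset.mem_product] at hp
      have h1 := (Finset.mem_filter.1 hp.1).2
      have h2 := (Finset.mem_filter.1 hp.2).2
      have h3 : ∀ x, P ((p.1 * p.2) x) ↔ P x := by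
        intro x
        have e1 := hW ((Perm.subtypeCongr kA kB)⁻¹ x)
        have e2 : ((Perm.subtypeCongr hA hB')⁻¹ * p.1 * p.2 * Perm.subtypeCongr kA kB)
            ((Perm.subtypeCongr kA kB)⁻¹ x) =
            (Perm.subtypeCongr hA⁻¹ hB'⁻¹) ((p.1 * p.2) x) := by
          rw [← subtypeCongr_inv, Perm.mul_apply, app_inv, mul_assoc, Perm.mul_apply]
        rw [e2, subtypeCongr_preserve P, subtypeCongr_inv, subtypeCongr_preserve P] at e1
        exact e1
      obtain ⟨h4, h5⟩ := preserve_of_mul P rl cl bd hB p.1 p.2 h1 h2 h3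
      rw [Finset.mem_product]
      exact ⟨Finset.mem_filter.2 ⟨Finset.mem_univ _, h1, h4⟩,
        Finset.mem_filter.2 ⟨Finset.mem_univ _, h2, h5⟩⟩
  rw [step1, Finset.sum_product, sum_preserving P rl, Finset.sum_mul_sum]
  refine Finset.sum_congr rfl (fun a _ => Finset.sum_congr rfl (fun b _ => ?_))
  rw [sum_preserving P cl, Finset.sum_mul_sum]
  refine Finset.sum_congr rfl (fun c _ => Finset.sum_congr rfl (fun d _ => ?_))
  rw [Perm.sign_subtypeCongr, subtypeCongr_inv, ← subtypeCongr_mul, ← subtypeCongr_mul,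
    ← subtypeCongr_mul, hWm]
  push_cast
  ring

end OccFactor

end Vale.Agent.P197
end
end

section

section

/-!
# P197 (Saxl), module M4: the two-row generation lemma

For a finite set `A` of odd size, two involutions `μ`, `μ'` with exactly one fixed point each,
and such that the group generated by them is transitive, the vectors `e(μ)` and `e(μ')`
(column antisymmetrizations of a two-letter word) have the property that
`(g e(μ)) ⊗ (g' e(μ))` lies in the `ℤ`-span of the vectors `(k e(μ)) ⊗ (k e(μ'))`.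
-/

set_option linter.unusedSectionVars false

namespace Vale.Agent.P197.Kappa

open Equiv Equiv.Perm Finset

variable {A : Type*} [Fintype A] [DecidableEq A]

/-- `μ` is an involution with exactly one fixed point `v`. -/
structure NearMatching (μ : Perm A) (v : A) : Prop where
  invol : ∀ x, μ (μ x) = x
  fix : ∀ x, μ x = x ↔ x = v

namespace NearMatching

variable {μ : Perm A} {v : A}

theorem mul_self (h : NearMatching μ v) : μ * μ = 1 := by
  ext x; simp only [Perm.coe_mul, Function.comp_apply, h.invol, Perm.coe_one, id_eq]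

theorem inv_eq (h : NearMatching μ v) : μ⁻¹ = μ := by
  rw [inv_eq_iff_mul_eq_one]; exact h.mul_self

theorem fixed (h : NearMatching μ v) : μ v = v := (h.fix v).2 rfl

theorem conj (h : NearMatching μ v) (g : Perm A) : NearMatching (g * μ * g⁻¹) (g v) := by
  refine ⟨fun x => by simp only [Perm.coe_mul, Perm.coe_inv, Function.comp_apply, symm_apply_apply, h.invol, apply_symm_apply], fun x => ?_⟩
  constructor
  · intro hx
    have : μ (g⁻¹ x) = g⁻¹ x := by
      apply g.injective
      simpa only [Perm.coe_inv, apply_symm_apply, Perm.coe_mul, Function.comp_apply] using hx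
    have := (h.fix _).1 this
    rw [← this]; simp
  · rintro rfl
    simp [h.fixed]

end NearMatching

/-- orbit of `v'` under `μ * μ'` -/
def Orb (μ μ' : Perm A) (v' x : A) : Prop := ∃ n : ℤ, ((μ * μ') ^ n) v' = x

theorem Orb.base (μ μ' : Perm A) (v' : A) : Orb μ μ' v' v' := ⟨0, by simp only [zpow_ofNat, pow_zero, Perm.coe_one, id_eq]⟩

theorem conj_pow {μ μ' : Perm A} {v v' : A} (h : NearMatching μ v) (h' : NearMatching μ' v')
    (n : ℤ) : μ' * (μ * μ') ^ n = (μ * μ') ^ (-n) * μ' := by
  have h1 : μ' * (μ * μ') * μ'⁻¹ = (μ * μ')⁻¹ := by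
    rw [mul_inv_rev, h.inv_eq, h'.inv_eq]
    have := h'.mul_self
    calc μ' * (μ * μ') * μ' = μ' * μ * (μ' * μ') := by group
      _ = μ' * μ := by rw [this, mul_one]
  have h2 : μ' * (μ * μ') ^ n * μ'⁻¹ = (μ * μ') ^ (-n) := by
    rw [← conj_zpow, h1, inv_zpow, zpow_neg]
  rw [← h2]; group

theorem Orb.closed' {μ μ' : Perm A} {v v' : A} (h : NearMatching μ v) (h' : NearMatching μ' v')
    {x : A} (hx : Orb μ μ' v' x) : Orb μ μ' v' (μ' x) := by
  obtain ⟨n, rfl⟩ := hx
  refine ⟨-n, ?_⟩
  have := conj_pow h h' n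
  have := congrArg (fun f : Perm A => f v') this
  simp only [Perm.mul_apply] at this
  rw [this, h'.fixed]

theorem Orb.closed {μ μ' : Perm A} {v v' : A} (h : NearMatching μ v) (h' : NearMatching μ' v')
    {x : A} (hx : Orb μ μ' v' x) : Orb μ μ' v' (μ x) := by
  have h1 := Orb.closed' h h' hx
  obtain ⟨n, hn⟩ := h1
  refine ⟨1 + n, ?_⟩
  rw [zpow_add, zpow_one, Perm.mul_apply, hn, Perm.mul_apply, h'.invol]

theorem Orb.minimal {μ μ' : Perm A} {v v' : A} (h : NearMatching μ v) (h' : NearMatching μ' v')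
    (S : A → Prop) (h0 : S v') (h1 : ∀ x, Orb μ μ' v' x → S x → S (μ x))
    (h2 : ∀ x, Orb μ μ' v' x → S x → S (μ' x)) {x : A} (hx : Orb μ μ' v' x) : S x := by
  obtain ⟨n, rfl⟩ := hx
  induction n using Int.induction_on with
  | zero => simpa only [zpow_ofNat, pow_zero, Perm.coe_one, id_eq] using h0
  | succ i ih =>
    rw [add_comm, zpow_add, zpow_one, Perm.mul_apply, Perm.mul_apply]
    exact h1 _ (Orb.closed' h h' ⟨_, rfl⟩) (h2 _ ⟨_, rfl⟩ ih)
  | pred i ih =>
    have : (μ * μ')⁻¹ = μ' * μ := by rw [mul_inv_rev, h.inv_eq, h'.inv_eq]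
    rw [sub_eq_add_neg, add_comm, zpow_add, zpow_neg_one, Perm.mul_apply, this, Perm.mul_apply]
    exact h2 _ (Orb.closed h h' ⟨_, rfl⟩) (h1 _ ⟨_, rfl⟩ ih)

/-- parity: the fixed point of `μ` is in the orbit -/
theorem Orb.fixed_mem {μ μ' : Perm A} {v v' : A} (h : NearMatching μ v) (h' : NearMatching μ' v') :
    Orb μ μ' v' v := by
  classical
  by_contra hv
  set O : Finset A := univ.filter (fun x => Orb μ μ' v' x) with hO
  have s1 : ∑ _x ∈ O, (1 : ZMod 2) = 0 := by
    refine Finset.sum_involution (fun a _ => μ a) (fun a _ => by decide) (fun a ha _ => ?_)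
      (fun a ha => ?_) (fun a _ => h.invol a)
    · intro hc
      rw [h.fix] at hc
      subst hc
      simp only [hO, mem_filter, mem_univ, true_and] at ha
      exact hv ha
    · simp only [hO, mem_filter, mem_univ, true_and] at ha ⊢
      exact Orb.closed h h' ha
  have s2 : ∑ _x ∈ O.erase v', (1 : ZMod 2) = 0 := by
    refine Finset.sum_involution (fun a _ => μ' a) (fun a _ => by decide) (fun a ha _ => ?_)
      (fun a ha => ?_) (fun a _ => h'.invol a)
    · intro hc
      rw [h'.fix] at hc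
      subst hc
      simp at ha
    · simp only [hO, mem_erase, mem_filter, mem_univ, true_and] at ha ⊢
      refine ⟨fun hc => ha.1 ?_, Orb.closed' h h' ha.2⟩
      have : μ' (μ' a) = μ' v' := by rw [hc]
      rwa [h'.invol, h'.fixed] at this
  have hmem : v' ∈ O := by simp only [hO, mem_filter, mem_univ, base, and_self]
  rw [← Finset.add_sum_erase _ _ hmem, s2] at s1
  revert s1; decide

/-- transitive pairs are conjugate -/
theorem exists_conj {μ μ' ν ν' : Perm A} {v v' u u' : A}
    (h : NearMatching μ v) (h' : NearMatching μ' v')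
    (k : NearMatching ν u) (k' : NearMatching ν' u')
    (ht : ∀ x, Orb μ μ' v' x) (kt : ∀ x, Orb ν ν' u' x) :
    ∃ g : Perm A, g * μ * g⁻¹ = ν ∧ g * μ' * g⁻¹ = ν' := by
  classical
  have c1 : (μ * μ').IsCycleOn (univ : Finset A) := by
    refine ⟨?_, ?_⟩
    · simpa only [Perm.coe_mul, coe_univ, Set.bijOn_univ, Multiset.bijective_iff_map_univ_eq_univ,     Function.comp_apply] using (μ * μ').bijective.bijOn_univ
    · intro x _ y _
      obtain ⟨a, rfl⟩ := ht x
      obtain ⟨b, rfl⟩ := ht y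
      exact ⟨b - a, by rw [← Perm.mul_apply, ← zpow_add]; simp⟩
  have c2 : (ν * ν').IsCycleOn (univ : Finset A) := by
    refine ⟨?_, ?_⟩
    · simpa only [Perm.coe_mul, coe_univ, Set.bijOn_univ, Multiset.bijective_iff_map_univ_eq_univ,     Function.comp_apply] using (ν * ν').bijective.bijOn_univ
    · intro x _ y _
      obtain ⟨a, rfl⟩ := kt x
      obtain ⟨b, rfl⟩ := kt y
      exact ⟨b - a, by rw [← Perm.mul_apply, ← zpow_add]; simp⟩
  choose n hn using ht
  have key : ∀ a b : ℤ, ((μ * μ') ^ a) v' = ((μ * μ') ^ b) v' ↔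
      ((ν * ν') ^ a) u' = ((ν * ν') ^ b) u' := by
    intro a b
    rw [c1.zpow_apply_eq_zpow_apply (mem_univ _), c2.zpow_apply_eq_zpow_apply (mem_univ _)]
  let f : A → A := fun x => ((ν * ν') ^ (n x)) u'
  have hf : ∀ a : ℤ, f (((μ * μ') ^ a) v') = ((ν * ν') ^ a) u' := by
    intro a
    have := hn (((μ * μ') ^ a) v')
    exact (key _ _).1 this
  have finj : Function.Injective f := by
    intro x y hxy
    have := (key _ _).2 hxy
    rwa [hn, hn] at this
  let g : Perm A := Equiv.ofBijective f (Finite.injective_iff_bijective.1 finj)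
  have hg : ∀ x, g x = f x := fun x => rfl
  have e2 : ∀ x, g (μ' x) = ν' (g x) := by
    intro x
    rw [hg, hg]
    have hx := hn x
    have h1 : μ' x = ((μ * μ') ^ (-(n x))) v' := by
      conv_lhs => rw [← hx]
      have := congrArg (fun f : Perm A => f v') (conj_pow h h' (n x))
      simp only [Perm.mul_apply] at this
      rw [this, h'.fixed]
    rw [h1, hf]
    have := congrArg (fun f : Perm A => f u') (conj_pow k k' (n x))
    simp only [Perm.mul_apply] at this
    rw [k'.fixed] at this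
    rw [← this]
  have e3 : ∀ x, g ((μ * μ') x) = (ν * ν') (g x) := by
    intro x
    rw [hg, hg]
    have hx := hn x
    have h1 : (μ * μ') x = ((μ * μ') ^ (1 + n x)) v' := by
      rw [zpow_add, zpow_one, Perm.mul_apply ((μ * μ')), hx]
    rw [h1, hf, zpow_add, zpow_one, Perm.mul_apply (ν * ν')]
  have e1 : ∀ x, g (μ x) = ν (g x) := by
    intro x
    have := e3 (μ' x)
    rw [Perm.mul_apply, h'.invol, e2, Perm.mul_apply, k'.invol] at this
    exact this
  refine ⟨g, ?_, ?_⟩
  · ext x; simp only [Perm.mul_apply, Perm.coe_inv, e1, apply_symm_apply]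
  · ext x; simp only [Perm.mul_apply, Perm.coe_inv, e2, apply_symm_apply]

/-- in a transitive pair, the two matchings are conjugate -/
theorem exists_conj_self {μ μ' : Perm A} {v v' : A}
    (h : NearMatching μ v) (h' : NearMatching μ' v') (ht : ∀ x, Orb μ μ' v' x) :
    ∃ g : Perm A, g * μ * g⁻¹ = μ' := by
  have ht2 : ∀ x, Orb μ' μ v x := by
    intro x
    refine Orb.minimal h h' (fun x => Orb μ' μ v x) (Orb.fixed_mem h' h) (fun x _ hx => ?_)
      (fun x _ hx => ?_) (ht x)
    · exact Orb.closed' h' h hx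
    · exact Orb.closed h' h hx
  obtain ⟨g, hg, _⟩ := exists_conj h h' h' h ht ht2
  exact ⟨g, hg⟩

section vectors

variable {M : Type*} [AddCommGroup M] (ρ : Representation ℤ (Perm A) M)

/-- the column group of `μ` -/
def colGroup (μ : Perm A) : Finset (Perm A) :=
  univ.filter (fun π => ∀ x, π x = x ∨ π x = μ x)

/-- the polytabloid -/
noncomputable def ee (μ : Perm A) (w : M) : M :=
  ∑ π ∈ colGroup μ, ((Perm.sign π : ℤˣ) : ℤ) • ρ π w

theorem mem_colGroup {μ π : Perm A} : π ∈ colGroup μ ↔ ∀ x, π x = x ∨ π x = μ x := by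
  simp only [colGroup, mem_filter, mem_univ, true_and]

theorem colGroup_mul {μ : Perm A} (hμ : ∀ x, μ (μ x) = x) {π σ : Perm A}
    (h1 : π ∈ colGroup μ) (h2 : σ ∈ colGroup μ) :
    π * σ ∈ colGroup μ := by
  rw [mem_colGroup] at *
  intro x
  rw [Perm.mul_apply]
  rcases h2 x with h | h <;> rw [h]
  · exact h1 x
  · rcases h1 (μ x) with h' | h' <;> rw [h']
    · right; rfl
    · left; exact hμ x

theorem colGroup_inv {μ : Perm A} (hμ : ∀ x, μ (μ x) = x) {π : Perm A}
    (h1 : π ∈ colGroup μ) : π⁻¹ ∈ colGroup μ := by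
  rw [mem_colGroup] at *
  intro x
  rcases h1 (π⁻¹ x) with h | h
  · left
    simpa only [Perm.coe_inv, apply_symm_apply] using h.symm
  · right
    have : x = μ (π⁻¹ x) := by simpa using h
    rw [this, hμ]
    congr 1
    rw [← this]

theorem colGroup_conj {μ : Perm A} (g : Perm A) {π : Perm A} :
    g * π * g⁻¹ ∈ colGroup (g * μ * g⁻¹) ↔ π ∈ colGroup μ := by
  rw [mem_colGroup, mem_colGroup]
  constructor
  · intro h x
    have := h (g x)
    simpa only [Perm.coe_mul, Perm.coe_inv, Function.comp_apply, symm_apply_apply,     EmbeddingLike.apply_eq_iff_eq] using this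
  · intro h x
    have := h (g⁻¹ x)
    rw [Perm.mul_apply, Perm.mul_apply, Perm.mul_apply, Perm.mul_apply]
    rcases this with h | h
    · left; rw [h]; exact Equiv.apply_symm_apply g x
    · right; rw [h]

/-- action of the column group on `ee` -/
theorem rho_ee_of_mem {μ : Perm A} (hμ : ∀ x, μ (μ x) = x) (w : M) {σ : Perm A}
    (hσ : σ ∈ colGroup μ) :
    ee ρ μ (ρ σ w) = ((Perm.sign σ : ℤˣ) : ℤ) • ee ρ μ w := by
  classical
  unfold ee
  rw [Finset.smul_sum]
  refine Finset.sum_bij' (fun π _ => π * σ) (fun π _ => π * σ⁻¹) ?_ ?_ ?_ ?_ ?_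
  · intro π hπ; exact colGroup_mul hμ hπ hσ
  · intro π hπ; exact colGroup_mul hμ hπ (colGroup_inv hμ hσ)
  · intro π _; simp
  · intro π _; simp
  · intro π _
    have e0 : ρ (π * σ) w = ρ π (ρ σ w) := by rw [map_mul]; rfl
    rw [e0, smul_smul]
    congr 1
    rw [Perm.sign_mul]
    have : ((Perm.sign σ : ℤˣ) : ℤ) * ((Perm.sign σ : ℤˣ) : ℤ) = 1 := by
      rw [← Units.val_mul, Int.units_mul_self]; rfl
    push_cast
    rw [mul_left_comm, this, mul_one]

theorem rho_ee_conj (μ : Perm A) (w : M) (g : Perm A) :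
    ρ g (ee ρ μ w) = ee ρ (g * μ * g⁻¹) (ρ g w) := by
  classical
  unfold ee
  rw [map_sum]
  refine Finset.sum_bij' (fun π _ => g * π * g⁻¹) (fun π _ => g⁻¹ * π * g) ?_ ?_ ?_ ?_ ?_
  · intro π hπ; exact (colGroup_conj g).2 hπ
  · intro π hπ
    rw [← colGroup_conj g]
    convert hπ using 1
    group
  · intro π _; group
  · intro π _; group
  · intro π _
    have e0 : ρ (g * π * g⁻¹) (ρ g w) = ρ g (ρ π w) := by
      have : ρ g (ρ π w) = ρ (g * π) w := by rw [map_mul]; rfl
      rw [this]
      have : ρ (g * π * g⁻¹) (ρ g w) = ρ (g * π * g⁻¹ * g) w := by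
        rw [map_mul ρ (g * π * g⁻¹) g]; rfl
      rw [this]
      congr 2
      group
    have e1 : Perm.sign (g * π * g⁻¹) = Perm.sign π := by
      rw [Perm.sign_mul, Perm.sign_mul, Perm.sign_inv, mul_comm (Perm.sign g), mul_assoc,
        Int.units_mul_self, mul_one]
    rw [map_smul, e0, e1]

/-- data of a two-letter word separating the edges of `μ` -/
structure Sep (μ : Perm A) (v : A) (s : A → ℕ) : Prop where
  near : NearMatching μ v
  le : ∀ x, s x = 0 ∨ s x = 1
  ne : ∀ x, x ≠ v → s (μ x) ≠ s x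
  zero : s v = 0

/-- two separating words for the same matching differ by a column permutation -/
theorem Sep.exists_col {μ : Perm A} {v : A} {s t : A → ℕ} (hs : Sep μ v s) (ht : Sep μ v t) :
    ∃ π ∈ colGroup μ, t = s ∘ π := by
  classical
  let f : A → A := fun x => if t x = s x then x else μ x
  have hst : ∀ x, t x ≠ s x → t (μ x) ≠ s (μ x) := by
    intro x hx
    have hxv : x ≠ v := by
      rintro rfl
      exact hx (by rw [hs.zero, ht.zero])
    have h1 := hs.ne x hxv
    have h2 := ht.ne x hxv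
    have a1 := hs.le x
    have a2 := ht.le x
    have a3 := hs.le (μ x)
    have a4 := ht.le (μ x)
    omega
  have hst2 : ∀ x, t x = s x → t (μ x) = s (μ x) := by
    intro x hx
    by_contra hc
    have := hst (μ x) hc
    rw [hs.near.invol] at this
    exact this hx
  have finv : ∀ x, f (f x) = x := by
    intro x
    by_cases h : t x = s x
    · simp [f, h]
    · have h' := hst x h
      simp only [f, if_neg h, if_neg h', hs.near.invol]
  let π : Perm A := ⟨f, f, finv, finv⟩
  refine ⟨π, ?_, ?_⟩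
  · rw [mem_colGroup]
    intro x
    show f x = x ∨ f x = μ x
    by_cases h : t x = s x
    · left; simp [f, h]
    · right; simp [f, h]
  · funext x
    show t x = s (f x)
    by_cases h : t x = s x
    · simp [f, h]
    · have hxv : x ≠ v := by
        rintro rfl
        exact h (by rw [hs.zero, ht.zero])
      simp only [f, if_neg h]
      have h1 := hs.ne x hxv
      have a1 := hs.le x
      have a2 := ht.le x
      have a3 := hs.le (μ x)
      omega

variable {s : A → ℕ} {w : M}

/-- the key: `ee` for the same matching, with different separating words, agree up to sign -/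
theorem rho_ee_eq_of_conj_eq {μ ν : Perm A} {v u : A} (hs : Sep μ v s)
    (hw : ∀ g : Perm A, s ∘ g = s → ρ g w = w) {g : Perm A}
    (hg : g * μ * g⁻¹ = ν) (ht : Sep ν u s) :
    ρ g (ee ρ μ w) = ee ρ ν w ∨ ρ g (ee ρ μ w) = - ee ρ ν w := by
  classical
  have hu : g v = u := by
    have h1 : ν (g v) = g v := by rw [← hg]; simp only [Perm.coe_mul, Perm.coe_inv, Function.comp_apply, symm_apply_apply, hs.near.fixed]
    exact (ht.near.fix _).1 h1
  have ht2 : Sep ν u (s ∘ (g⁻¹ : Perm A)) := by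
    refine ⟨ht.near, fun x => hs.le _, fun x hx => ?_, ?_⟩
    · have : (g⁻¹ : Perm A) (ν x) = μ (g⁻¹ x) := by rw [← hg]; simp only [Perm.coe_mul, Perm.coe_inv, Function.comp_apply, symm_apply_apply]
      simp only [Function.comp_apply, this]
      apply hs.ne
      intro hc
      apply hx
      rw [← hu, ← hc]; simp
    · simp only [Function.comp_apply, ← hu]
      simp [hs.zero]
  obtain ⟨π, hπ, hπ2⟩ := ht.exists_col ht2
  -- s ∘ g⁻¹ = s ∘ π, so s ∘ (π * g) = s
  have h1 : s ∘ (π * g : Perm A) = s := by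
    funext x
    have := congrFun hπ2 (g x)
    simp only [Function.comp_apply] at this
    simp only [Function.comp_apply, Perm.mul_apply]
    rw [← this]; simp
  have h2 := hw _ h1
  have h3 : ρ g w = ρ π⁻¹ w := by
    conv_rhs => rw [← h2]
    rw [← Module.End.mul_apply, ← map_mul]
    congr 2
    group
  rw [rho_ee_conj, hg, h3, rho_ee_of_mem ρ ht.near.invol w (colGroup_inv ht.near.invol hπ)]
  rcases Int.units_eq_one_or (Perm.sign π⁻¹) with h | h
  · left; rw [h]; simp
  · right; rw [h]; simp only [Units.val_neg, Units.val_one, Int.reduceNeg, neg_smul, one_smul]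

/-- exchange relation, first form -/
theorem exchange_aux {μ : Perm A} {v a b : A} (hs : Sep μ v s)
    (hw : ∀ g : Perm A, s ∘ g = s → ρ g w = w) (hab : μ a = b) (hav : a ≠ v)
    (ha : s a = 0) :
    ee ρ μ w = ρ (swap a v) (ee ρ μ w) + ρ (swap b v) (ee ρ μ w) := by
  classical
  have hba : μ b = a := by rw [← hab, hs.near.invol]
  have hne : a ≠ b := by
    intro h
    apply hav
    rw [← hs.near.fix, hab, h]
  have hbv : b ≠ v := by
    intro h
    apply hav
    have := hs.near.fixed
    rw [← h, hba] at this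
    rw [this, h]
  have hb : s b = 1 := by
    have h1 := hs.ne a hav
    have h2 := hs.le b
    rw [hab] at h1
    omega
  set τ : Perm A := swap a b with hτ
  have hτmem : τ ∈ colGroup μ := by
    rw [mem_colGroup]
    intro x
    by_cases hxa : x = a
    · right; rw [hxa, hτ, swap_apply_left, hab]
    · by_cases hxb : x = b
      · right; rw [hxb, hτ, swap_apply_right, hba]
      · left; exact swap_apply_of_ne_of_ne hxa hxb
  -- decomposition of the sum
  have hdec : ∀ F : Perm A → M, ∑ π ∈ colGroup μ, F π =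
      ∑ π ∈ (colGroup μ).filter (fun π => π a = a), (F π + F (π * τ)) := by
    intro F
    rw [← Finset.sum_filter_add_sum_filter_not (colGroup μ) (fun π => π a = a), sum_add_distrib]
    congr 1
    refine Finset.sum_bij' (fun π _ => π * τ) (fun π _ => π * τ) ?_ ?_ ?_ ?_ ?_
    · intro π hπ
      rw [mem_filter] at hπ ⊢
      refine ⟨colGroup_mul hs.near.invol hπ.1 hτmem, ?_⟩
      have h1 := mem_colGroup.1 hπ.1 a
      have h2 : π a = b := by
        rcases h1 with h | h
        · exact absurd h hπ.2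
        · rw [h, hab]
      have h3 := mem_colGroup.1 hπ.1 b
      rw [Perm.mul_apply, hτ, swap_apply_left]
      rcases h3 with h | h
      · exact absurd (π.injective (h2.trans h.symm)) hne
      · rw [h, hba]
    · intro π hπ
      rw [mem_filter] at hπ ⊢
      refine ⟨colGroup_mul hs.near.invol hπ.1 hτmem, ?_⟩
      rw [Perm.mul_apply, hτ, swap_apply_left]
      intro h
      exact hne (π.injective (hπ.2.trans h.symm))
    · intro π _; simp only [hτ, mul_assoc, swap_mul_self, mul_one]
    · intro π _; simp only [hτ, mul_assoc, swap_mul_self, mul_one]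
    · intro π _; simp [hτ, mul_assoc]
  have hsgn : ∀ π : Perm A, ((Perm.sign (π * τ) : ℤˣ) : ℤ) = - ((Perm.sign π : ℤˣ) : ℤ) := by
    intro π
    rw [Perm.sign_mul, hτ, Perm.sign_swap hne]; simp
  -- the value of ee
  have hee : ee ρ μ w = ∑ π ∈ (colGroup μ).filter (fun π => π a = a),
      ((Perm.sign π : ℤˣ) : ℤ) • ρ π (w - ρ τ w) := by
    unfold ee
    rw [hdec]
    refine Finset.sum_congr rfl (fun π _ => ?_)
    rw [hsgn, map_mul, Module.End.mul_apply, map_sub, smul_sub, neg_smul, sub_eq_add_neg]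
  -- commutation
  have hfix : ∀ π ∈ (colGroup μ).filter (fun π => π a = a), π a = a ∧ π b = b ∧ π v = v := by
    intro π hπ
    rw [mem_filter] at hπ
    refine ⟨hπ.2, ?_, ?_⟩
    · rcases mem_colGroup.1 hπ.1 b with h | h
      · exact h
      · rw [hba] at h
        exact absurd (π.injective (hπ.2.trans h.symm)) hne
    · rcases mem_colGroup.1 hπ.1 v with h | h
      · exact h
      · rw [h, hs.near.fixed]
  have hcomm : ∀ (π : Perm A) (c : A), π c = c → π v = v → swap c v * π = π * swap c v := by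
    intro π c h1 h2
    have := Equiv.swap_mul_eq_mul_swap π c v
    rw [this]
    have e1 : π⁻¹ c = c := by rw [Perm.inv_eq_iff_eq]; exact h1.symm
    have e2 : π⁻¹ v = v := by rw [Perm.inv_eq_iff_eq]; exact h2.symm
    rw [e1, e2]
  have hact : ∀ c : A, (c = a ∨ c = b) → ρ (swap c v) (ee ρ μ w) =
      ∑ π ∈ (colGroup μ).filter (fun π => π a = a),
      ((Perm.sign π : ℤˣ) : ℤ) • ρ π (ρ (swap c v) (w - ρ τ w)) := by
    intro c hc
    rw [hee, map_sum]
    refine Finset.sum_congr rfl (fun π hπ => ?_)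
    obtain ⟨h1, h2, h3⟩ := hfix π hπ
    have h4 : π c = c := by rcases hc with rfl | rfl <;> assumption
    rw [map_smul, ← Module.End.mul_apply, ← Module.End.mul_apply, ← map_mul, ← map_mul,
      hcomm π c h4 h3]
  rw [hact a (Or.inl rfl), hact b (Or.inr rfl), ← Finset.sum_add_distrib, hee]
  refine Finset.sum_congr rfl (fun π _ => ?_)
  rw [← smul_add, ← map_add]
  congr 2
  -- w - τ w = σ_a (w - τ w) + σ_b (w - τ w)
  have w1 : ρ (swap a v) w = w := by
    apply hw
    funext x
    simp only [Function.comp_apply]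
    by_cases hxa : x = a
    · rw [hxa, swap_apply_left, hs.zero, ha]
    · by_cases hxv : x = v
      · rw [hxv, swap_apply_right, hs.zero, ha]
      · rw [swap_apply_of_ne_of_ne hxa hxv]
  have comb : ∀ p q r : Perm A, p * q = q * r → ρ r w = w → ρ p (ρ q w) = ρ q w := by
    intro p q r h1 h2
    rw [← Module.End.mul_apply, ← map_mul, h1, map_mul, Module.End.mul_apply, h2]
  -- σ_b τ w = τ w
  have w2 : ρ (swap b v) (ρ τ w) = ρ τ w := by
    apply comb _ _ (swap a v) _ w1
    rw [Equiv.swap_mul_eq_mul_swap τ b v]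
    congr 1
    have e1 : τ⁻¹ b = a := by rw [Perm.inv_eq_iff_eq, hτ, swap_apply_left]
    have e2 : τ⁻¹ v = v := by
      rw [Perm.inv_eq_iff_eq, hτ, swap_apply_of_ne_of_ne hav.symm hbv.symm]
    rw [e1, e2]
  -- σ_a τ w = σ_b w
  have w3 : ρ (swap a v) (ρ τ w) = ρ (swap b v) w := by
    have e : swap a v * τ = τ * swap b v := by
      rw [Equiv.swap_mul_eq_mul_swap τ a v]
      congr 1
      have e1 : τ⁻¹ a = b := by rw [Perm.inv_eq_iff_eq, hτ, swap_apply_right]
      have e2 : τ⁻¹ v = v := by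
        rw [Perm.inv_eq_iff_eq, hτ, swap_apply_of_ne_of_ne hav.symm hbv.symm]
      rw [e1, e2]
    have e' : swap a v * τ = swap b v * swap a v := by
      rw [hτ, Equiv.mul_swap_eq_swap_mul (swap a v) a b, swap_apply_left,
        swap_apply_of_ne_of_ne hne.symm hbv, swap_comm v b]
    rw [← Module.End.mul_apply, ← map_mul, e', map_mul, Module.End.mul_apply, w1]
  rw [map_sub, map_sub, w1, w2, w3]
  abel

/-- exchange relation -/
theorem exchange {μ : Perm A} {v a : A} (hs : Sep μ v s)
    (hw : ∀ g : Perm A, s ∘ g = s → ρ g w = w) (hav : a ≠ v) :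
    ee ρ μ w = ρ (swap a v) (ee ρ μ w) + ρ (swap (μ a) v) (ee ρ μ w) := by
  by_cases ha : s a = 0
  · exact exchange_aux ρ hs hw rfl hav ha
  · have h1 := hs.ne a hav
    have h2 := hs.le a
    have h3 := hs.le (μ a)
    have hb : s (μ a) = 0 := by omega
    have hbv : μ a ≠ v := by
      intro h
      apply hav
      have := hs.near.invol a
      rw [h, hs.near.fixed] at this
      exact this.symm
    have := exchange_aux ρ hs hw (a := μ a) (b := a) (hs.near.invol a) hbv hb
    rw [add_comm] at this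
    exact this

/-- growth of the orbit -/
theorem orb_grow {ν ν' : Perm A} {u u' a : A} (k : NearMatching ν u) (k' : NearMatching ν' u')
    (ha : ¬ Orb ν ν' u' a) :
    (∀ x, Orb ν ν' u' x → Orb (swap a u * ν * swap a u) ν' u' x) ∧
      Orb (swap a u * ν * swap a u) ν' u' (ν a) := by
  have hu := Orb.fixed_mem k k'
  have hau : a ≠ u := by rintro rfl; exact ha hu
  have k1 : NearMatching (swap a u * ν * swap a u) a := by
    have := k.conj (swap a u)
    rw [swap_inv, swap_apply_right] at this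
    exact this
  have first : ∀ x, Orb ν ν' u' x → Orb (swap a u * ν * swap a u) ν' u' x := by
    intro x hx
    refine Orb.minimal k k' (fun x => Orb (swap a u * ν * swap a u) ν' u' x)
      (Orb.base _ _ _) (fun y hy hy2 => ?_) (fun y hy hy2 => ?_) hx
    · by_cases hyu : y = u
      · subst hyu
        rw [k.fixed]; exact hy2
      · have h1 : (swap a u * ν * swap a u) y = ν y := by
          have e1 : y ≠ a := by rintro rfl; exact ha hy
          have e2 : ν y ≠ a := by
            intro h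
            exact ha (h ▸ Orb.closed k k' hy)
          have e3 : ν y ≠ u := by
            intro h
            apply hyu
            have := k.invol y
            rw [h, k.fixed] at this
            exact this.symm
          rw [Perm.mul_apply, Perm.mul_apply, swap_apply_of_ne_of_ne e1 hyu,
            swap_apply_of_ne_of_ne e2 e3]
        rw [← h1]
        exact Orb.closed k1 k' hy2
    · exact Orb.closed' k1 k' hy2
  refine ⟨first, ?_⟩
  have h2 : (swap a u * ν * swap a u) u = ν a := by
    have e2 : ν a ≠ a := by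
      intro h
      exact hau ((k.fix a).1 h)
    have e3 : ν a ≠ u := by
      intro h
      apply hau
      have := k.invol a
      rw [h, k.fixed] at this
      exact this.symm
    rw [Perm.mul_apply, Perm.mul_apply, swap_apply_right, swap_apply_of_ne_of_ne e2 e3]
  rw [← h2]
  exact Orb.closed k1 k' (first u hu)

variable {N : Type*} [AddCommMonoid N] [Module ℤ N]

open Classical in
theorem gen_aux {μ μ' : Perm A} {v v' : A} (hs : Sep μ v s) (hs' : Sep μ' v' s)
    (hw : ∀ g : Perm A, s ∘ g = s → ρ g w = w) (ht : ∀ x, Orb μ μ' v' x)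
    (B : M →ₗ[ℤ] M →ₗ[ℤ] N) :
    ∀ (n : ℕ) (g g' : Perm A),
      (univ.filter (fun x => ¬ Orb (g * μ * g⁻¹) (g' * μ' * g'⁻¹) (g' v') x)).card ≤ n →
      B (ρ g (ee ρ μ w)) (ρ g' (ee ρ μ' w)) ∈
        Submodule.span ℤ (Set.range fun k : Perm A => B (ρ k (ee ρ μ w)) (ρ k (ee ρ μ' w))) := by
  classical
  intro n
  induction n with
  | zero =>
    intro g g' hcard
    have hall : ∀ x, Orb (g * μ * g⁻¹) (g' * μ' * g'⁻¹) (g' v') x := by
      intro x
      by_contra hx
      have : x ∈ univ.filter (fun x => ¬ Orb (g * μ * g⁻¹) (g' * μ' * g'⁻¹) (g' v') x) := by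
        simp only [mem_filter, mem_univ, hx, not_false_eq_true, and_self]
      have := Finset.card_pos.2 ⟨x, this⟩
      omega
    obtain ⟨k, hk, hk'⟩ := exists_conj hs.near hs'.near (hs.near.conj g) (hs'.near.conj g') ht hall
    have key : ∀ (θ : Perm A) (t : A) (hθ : Sep θ t s) (q : Perm A),
        k * θ * k⁻¹ = q * θ * q⁻¹ →
        ρ q (ee ρ θ w) = ρ k (ee ρ θ w) ∨ ρ q (ee ρ θ w) = - ρ k (ee ρ θ w) := by
      intro θ t hθ q hq
      have e1 : (k⁻¹ * q) * θ * (k⁻¹ * q)⁻¹ = θ := by
        have : (k⁻¹ * q) * θ * (k⁻¹ * q)⁻¹ = k⁻¹ * (q * θ * q⁻¹) * k := by group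
        rw [this, ← hq]; group
      have e2 : ρ q (ee ρ θ w) = ρ k (ρ (k⁻¹ * q) (ee ρ θ w)) := by
        rw [← Module.End.mul_apply, ← map_mul]
        congr 2
        group
      rcases rho_ee_eq_of_conj_eq ρ hθ hw e1 hθ with h | h
      · left; rw [e2, h]
      · right; rw [e2, h, map_neg]
    have hmem : B (ρ k (ee ρ μ w)) (ρ k (ee ρ μ' w)) ∈
        Submodule.span ℤ (Set.range fun k : Perm A => B (ρ k (ee ρ μ w)) (ρ k (ee ρ μ' w))) :=
      Submodule.subset_span ⟨k, rfl⟩
    rcases key μ v hs g hk with h1 | h1 <;> rcases key μ' v' hs' g' hk' with h2 | h2 <;>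
      rw [h1, h2]
    · exact hmem
    · rw [← neg_one_smul ℤ (ρ k (ee ρ μ' w)), map_smul]; exact Submodule.smul_mem _ _ hmem
    · rw [← neg_one_smul ℤ (ρ k (ee ρ μ w)), map_smul, LinearMap.smul_apply]
      exact Submodule.smul_mem _ _ hmem
    · rw [← neg_one_smul ℤ (ρ k (ee ρ μ w)), ← neg_one_smul ℤ (ρ k (ee ρ μ' w)), map_smul,
        map_smul, LinearMap.smul_apply]
      exact Submodule.smul_mem _ _ (Submodule.smul_mem _ _ hmem)
  | succ n ih =>
    intro g g' hcard
    by_cases hall : ∀ x, Orb (g * μ * g⁻¹) (g' * μ' * g'⁻¹) (g' v') x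
    · apply ih
      have : univ.filter (fun x => ¬ Orb (g * μ * g⁻¹) (g' * μ' * g'⁻¹) (g' v') x) = ∅ := by
        ext x; simp only [mem_filter, mem_univ, hall x, not_true_eq_false, and_false, notMem_empty]
      rw [this]; simp
    · push Not at hall
      obtain ⟨a', ha'⟩ := hall
      have k := hs.near.conj g
      have k' := hs'.near.conj g'
      have hb' : ¬ Orb (g * μ * g⁻¹) (g' * μ' * g'⁻¹) (g' v') ((g * μ * g⁻¹) a') := by
        intro h
        apply ha'
        have := Orb.closed k k' h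
        rwa [k.invol] at this
      obtain ⟨a, rfl⟩ : ∃ a, g a = a' := ⟨g⁻¹ a', by simp⟩
      have hgb : (g * μ * g⁻¹) (g a) = g (μ a) := by simp only [Perm.coe_mul, Perm.coe_inv, Function.comp_apply, symm_apply_apply]
      rw [hgb] at hb'
      have hav : a ≠ v := by
        rintro rfl
        exact ha' (Orb.fixed_mem k k')
      -- the two new configurations
      have step : ∀ c : A, ¬ Orb (g * μ * g⁻¹) (g' * μ' * g'⁻¹) (g' v') (g c) →
          ¬ Orb (g * μ * g⁻¹) (g' * μ' * g'⁻¹) (g' v') (g (μ c)) →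
          B (ρ (g * swap c v) (ee ρ μ w)) (ρ g' (ee ρ μ' w)) ∈
          Submodule.span ℤ
            (Set.range fun k : Perm A => B (ρ k (ee ρ μ w)) (ρ k (ee ρ μ' w))) := by
        intro c hc hμc
        apply ih
        have e1 : (g * swap c v) * μ * (g * swap c v)⁻¹ =
            swap (g c) (g v) * (g * μ * g⁻¹) * swap (g c) (g v) := by
          have e : g * swap c v = swap (g c) (g v) * g := mul_swap_eq_swap_mul g c v
          rw [e, mul_inv_rev, swap_inv]
          group
        rw [e1]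
        obtain ⟨h1, h2⟩ := orb_grow k k' hc
        have h3 : (g * μ * g⁻¹) (g c) = g (μ c) := by simp only [Perm.coe_mul, Perm.coe_inv, Function.comp_apply, symm_apply_apply]
        rw [h3] at h2
        refine Nat.le_of_lt_succ (lt_of_lt_of_le (Finset.card_lt_card ?_) hcard)
        rw [Finset.ssubset_iff_of_subset]
        · refine ⟨g (μ c), ?_, ?_⟩
          · simp only [mem_filter, mem_univ, true_and]; exact hμc
          · simp only [mem_filter, mem_univ, true_and, not_not]; exact h2
        · intro x hx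
          simp only [mem_filter, mem_univ, true_and] at hx ⊢
          exact fun h => hx (h1 x h)
      have hex := exchange ρ hs hw hav
      have e3 : ρ g (ee ρ μ w) = ρ (g * swap a v) (ee ρ μ w) +
          ρ (g * swap (μ a) v) (ee ρ μ w) := by
        conv_lhs => rw [hex]
        rw [map_add]
        congr 1
        · rw [map_mul]; rfl
        · rw [map_mul]; rfl
      rw [e3, map_add, LinearMap.add_apply]
      refine Submodule.add_mem _ (step a ha' hb') (step (μ a) hb' ?_)
      rw [hs.near.invol]; exact ha'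

/-- **Generation lemma.** -/
theorem gen {μ μ' : Perm A} {v v' : A} (hs : Sep μ v s) (hs' : Sep μ' v' s)
    (hw : ∀ g : Perm A, s ∘ g = s → ρ g w = w) (ht : ∀ x, Orb μ μ' v' x)
    (B : M →ₗ[ℤ] M →ₗ[ℤ] N) (g g' : Perm A) :
    B (ρ g (ee ρ μ w)) (ρ g' (ee ρ μ w)) ∈
      Submodule.span ℤ (Set.range fun k : Perm A => B (ρ k (ee ρ μ w)) (ρ k (ee ρ μ' w))) := by
  classical
  obtain ⟨h, hh⟩ := exists_conj_self hs.near hs'.near ht
  have h1 := rho_ee_eq_of_conj_eq ρ hs hw hh hs'
  have e1 : ρ g' (ee ρ μ w) = ρ (g' * h⁻¹) (ρ h (ee ρ μ w)) := by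
    rw [← Module.End.mul_apply, ← map_mul]
    congr 2
    group
  have h2 := gen_aux ρ hs hs' hw ht B _ g (g' * h⁻¹) le_rfl
  rcases h1 with h1 | h1
  · rw [e1, h1]; exact h2
  · rw [e1, h1, map_neg, ← neg_one_smul ℤ (ρ (g' * h⁻¹) (ee ρ μ' w)), map_smul]
    exact Submodule.smul_mem _ _ h2

end vectors

end Vale.Agent.P197.Kappa
end
end

section

section

/-!
Basic objects for the proof of Saxl's conjecture (P197).

`IsStair m i j`: the labels `(i, j)` identify `X` with the cells `a + b < m`.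
`r0 m i j x = m - 1 - i x - j x`. `e0 = polyt j r0`, `e1 = polyt i r0`.
Functions on `Perm X`: `Fn b v w h = b (h v) (h w)`; `Perm X` acts by `F ↦ fun h => F (h * g)`.
-/

namespace Vale.Agent.P197

open Equiv Finset

noncomputable section

/-- Functions on words. -/
abbrev WM (X : Type) : Type := (X → ℕ) →₀ ℂ

/-- Bilinear forms on functions on words. -/
abbrev BF (X : Type) : Type := WM X →ₗ[ℂ] WM X →ₗ[ℂ] ℂ

/-- The bilinear form with kernel `y`. -/
def kform {X : Type} (y : (X → ℕ) → (X → ℕ) → ℂ) : BF X :=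
  Finsupp.linearCombination ℂ fun u => Finsupp.linearCombination ℂ fun u' => y u u'

theorem kform_single {X : Type} (y : (X → ℕ) → (X → ℕ) → ℂ) (u u' : X → ℕ) (a a' : ℂ) :
    kform y (Finsupp.single u a) (Finsupp.single u' a') = a * (a' * y u u') := by
  simp [kform]

/-- The function on `Perm X` attached to a bilinear form and two vectors. -/
def Fn {X : Type} (b : BF X) (v w : WM X) : Perm X → ℂ :=
  fun h => b (wordRep X h v) (wordRep X h w)

/-- `X` is identified by `(i, j)` with the cells `a + b < m`. -/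
structure IsStair {X : Type} (m : ℕ) (i j : X → ℕ) : Prop where
  lt : ∀ x, i x + j x < m
  inj : ∀ x y, i x = i y → j x = j y → x = y
  surj : ∀ a b, a + b < m → ∃ x, i x = a ∧ j x = b

/-- `X` is identified by `(i, j)` with the cells `m ≤ a + b + 2`, `a + b < m` (top two levels). -/
structure IsZig {X : Type} (m : ℕ) (i j : X → ℕ) : Prop where
  lt : ∀ x, i x + j x < m
  le : ∀ x, m ≤ i x + j x + 2
  inj : ∀ x y, i x = i y → j x = j y → x = y
  surj : ∀ a b, a + b < m → m ≤ a + b + 2 → ∃ x, i x = a ∧ j x = b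

/-- The third coordinate. -/
def r0 {X : Type} (m : ℕ) (i j : X → ℕ) : X → ℕ := fun x => m - 1 - i x - j x

/-- The polytabloid with columns `j` and rows `r0`. -/
def e0 {X : Type} [Fintype X] [DecidableEq X] (m : ℕ) (i j : X → ℕ) : WM X :=
  polyt j (r0 m i j)

/-- The polytabloid with columns `i` and rows `r0`. -/
def e1 {X : Type} [Fintype X] [DecidableEq X] (m : ℕ) (i j : X → ℕ) : WM X :=
  polyt i (r0 m i j)

/-- `Q` contains all `Fn b (g e0) (g' e0)`, is stable and finitely generated, and is generated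
modulo `2 Q` by the `Fn b (k e0) (k e1)`. -/
structure Good {X : Type} [Fintype X] [DecidableEq X] (m : ℕ) (i j : X → ℕ) (b : BF X)
    (Q : Submodule ℤ (Perm X → ℂ)) : Prop where
  fg : Q.FG
  stable : ∀ (g : Perm X), ∀ F ∈ Q, (fun h => F (h * g)) ∈ Q
  mem : ∀ g g' : Perm X, Fn b (wordRep X g (e0 m i j)) (wordRep X g' (e0 m i j)) ∈ Q
  gen : ∀ F ∈ Q, ∃ F' ∈ Submodule.span ℤ (Set.range fun k : Perm X =>
      Fn b (wordRep X k (e0 m i j)) (wordRep X k (e1 m i j))), ∃ F'' ∈ Q, F = F' + (2 : ℤ) • F''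

/-- `(rl, cl)` is a bijection from `X` onto the finite set of cells `S`. -/
structure IsLabel {X : Type} (S : Finset (ℕ × ℕ)) (rl cl : X → ℕ) : Prop where
  mem : ∀ x, (rl x, cl x) ∈ S
  inj : ∀ x y, rl x = rl y → cl x = cl y → x = y
  surj : ∀ c ∈ S, ∃ x, rl x = c.1 ∧ cl x = c.2

/-- The value at `1` of the row symmetrizer composed with the column antisymmetrizer. -/
def occ {X : Type} [Fintype X] [DecidableEq X] (rl cl : X → ℕ) (F : Perm X → ℂ) : ℂ :=
  ∑ ρ ∈ stab rl, ∑ π ∈ stab cl, ((Perm.sign π : ℤ) : ℂ) * F (ρ * π)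

/-- The inductive statement. -/
def T {X : Type} [Fintype X] [DecidableEq X] (m : ℕ) (i j : X → ℕ) (ν : YoungDiagram) : Prop :=
  ∃ (b : BF X) (Q : Submodule ℤ (Perm X → ℂ)), Good m i j b Q ∧
    ∃ rl cl : X → ℕ, IsLabel ν.cells rl cl ∧ ∃ F ∈ Q, occ rl cl F ≠ 0

/-- Restriction of a word to a subtype. -/
def resW {X : Type} (p : X → Prop) (u : X → ℕ) : {x // p x} → ℕ := fun x => u x.1

/-- The function on `Perm X` supported on the permutations preserving `p`, given there by the
product of a function of the restriction to `p` and a function of the restriction to `¬ p`. -/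
def glueFn {X : Type} [Fintype X] [DecidableEq X] (p : X → Prop) [DecidablePred p]
    (FA : Perm {x // p x} → ℂ) (FB : Perm {x // ¬ p x} → ℂ) : Perm X → ℂ :=
  fun h => if H : ∀ x, p (h x) ↔ p x then
    FA (h.subtypePerm H) * FB (h.subtypePerm fun x => not_congr (H x)) else 0

/-- The kernel of the peeled form: on pairs of words whose entries `0`, `1` are exactly on `p`,
the product of `y` and of `b₂` on the rest shifted down by two. -/
def peelKer {X : Type} [Fintype X] (p : X → Prop) [DecidablePred p]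
    (y : ({x // p x} → ℕ) → ({x // p x} → ℕ) → ℂ) (b₂ : BF {x // ¬ p x}) :
    (X → ℕ) → (X → ℕ) → ℂ :=
  fun u u' => if (∀ x, p x ↔ u x < 2) ∧ (∀ x, p x ↔ u' x < 2) then
    y (resW p u) (resW p u') *
      b₂ (Finsupp.single (fun x => u x.1 - 2) 1) (Finsupp.single (fun x => u' x.1 - 2) 1)
  else 0

section EqLemmas

/-! The following lemmas make the equation lemmas of the definitions above available from this
file. -/

end EqLemmas

end

end Vale.Agent.P197
end
end

section

section

open Finset Equiv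

namespace Vale.Agent.P197.Quat

theorem det_pairs {I : Type*} {n : ℕ} [Fintype I] [DecidableEq I]
    (q : (Fin 2 × Fin n) ⊕ Unit ≃ I) (M : Matrix I I ℤ)
    (h1 : ∀ a b l l', l ≠ l' → M (q (Sum.inl (a, l))) (q (Sum.inl (b, l'))) = 0)
    (h2 : ∀ a l, M (q (Sum.inl (a, l))) (q (Sum.inr ())) = 0)
    (h3 : ∀ a l, M (q (Sum.inr ())) (q (Sum.inl (a, l))) = 0) :
    M.det = (∏ l : Fin n, (M (q (Sum.inl (0, l))) (q (Sum.inl (0, l))) *
        M (q (Sum.inl (1, l))) (q (Sum.inl (1, l))) -
        M (q (Sum.inl (0, l))) (q (Sum.inl (1, l))) *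
        M (q (Sum.inl (1, l))) (q (Sum.inl (0, l))))) *
        M (q (Sum.inr ())) (q (Sum.inr ())) := by
  rw [← Matrix.det_submatrix_equiv_self q M]
  have e : M.submatrix q q = Matrix.fromBlocks
      (Matrix.blockDiagonal fun l : Fin n => Matrix.of fun a b : Fin 2 =>
        M (q (Sum.inl (a, l))) (q (Sum.inl (b, l)))) 0 0
      (Matrix.of fun _ _ : Unit => M (q (Sum.inr ())) (q (Sum.inr ()))) := by
    ext x y
    rcases x with ⟨a, l⟩ | ⟨⟩ <;> rcases y with ⟨b, l'⟩ | ⟨⟩
    · simp only [Matrix.submatrix_apply, Matrix.fromBlocks_apply₁₁, Matrix.blockDiagonal_apply, Matrix.of_apply]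
      by_cases hl : l = l'
      · subst hl
        simp
      · rw [if_neg hl]
        exact h1 a b l l' hl
    · simpa using h2 a l
    · simpa using h3 b l'
    · simp
  rw [e, Matrix.det_fromBlocks_zero₂₁, Matrix.det_blockDiagonal]
  congr 1
  · refine Finset.prod_congr rfl fun l _ => ?_
    rw [Matrix.det_fin_two]
    simp only [Fin.isValue, Matrix.of_apply]
  · simp

/-- column pairs (2l+1, 2l+2), single 0. -/
noncomputable def qA (n : ℕ) : (Fin 2 × Fin n) ⊕ Unit ≃ Fin (2 * n + 1) :=
  Equiv.ofBijective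
    (Sum.elim (fun x => ⟨2 * (x.2 : ℕ) + 1 + (x.1 : ℕ), by have := x.1.2; have := x.2.2; omega⟩)
      (fun _ => ⟨0, by omega⟩)) (by
    rw [Fintype.bijective_iff_injective_and_card]
    constructor
    · rintro (⟨a, l⟩ | ⟨⟩) (⟨b, l'⟩ | ⟨⟩) h
      · have h1 := congrArg Fin.val h
        simp only [Sum.elim_inl] at h1
        have := a.2
        have := b.2
        have hl : l = l' := Fin.ext (by omega)
        have ha : a = b := Fin.ext (by omega)
        rw [hl, ha]
      · have h1 := congrArg Fin.val h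
        simp only [Sum.elim_inl, Sum.elim_inr] at h1
        omega
      · have h1 := congrArg Fin.val h
        simp only [Sum.elim_inl, Sum.elim_inr] at h1
        omega
      · rfl
    · simp)

/-- row pairs (2l, 2l+1), single 2n. -/
noncomputable def qB (n : ℕ) : (Fin 2 × Fin n) ⊕ Unit ≃ Fin (2 * n + 1) :=
  Equiv.ofBijective
    (Sum.elim (fun x => ⟨2 * (x.2 : ℕ) + (x.1 : ℕ), by have := x.1.2; have := x.2.2; omega⟩)
      (fun _ => ⟨2 * n, by omega⟩)) (by
    rw [Fintype.bijective_iff_injective_and_card]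
    constructor
    · rintro (⟨a, l⟩ | ⟨⟩) (⟨b, l'⟩ | ⟨⟩) h
      · have h1 := congrArg Fin.val h
        simp only [Sum.elim_inl] at h1
        have := a.2
        have := b.2
        have hl : l = l' := Fin.ext (by omega)
        have ha : a = b := Fin.ext (by omega)
        rw [hl, ha]
      · have h1 := congrArg Fin.val h
        simp only [Sum.elim_inl, Sum.elim_inr] at h1
        have := a.2
        have := l.2
        omega
      · have h1 := congrArg Fin.val h
        simp only [Sum.elim_inl, Sum.elim_inr] at h1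
        have := b.2
        have := l'.2
        omega
      · rfl
    · simp)

theorem qA_inl (n : ℕ) (a : Fin 2) (l : Fin n) : ((qA n (Sum.inl (a, l))) : ℕ) = 2 * l + 1 + a := rfl
theorem qA_inr (n : ℕ) : ((qA n (Sum.inr ())) : ℕ) = 0 := rfl
theorem qB_inl (n : ℕ) (a : Fin 2) (l : Fin n) : ((qB n (Sum.inl (a, l))) : ℕ) = 2 * l + a := rfl
theorem qB_inr (n : ℕ) : ((qB n (Sum.inr ())) : ℕ) = 2 * n := rfl

/-- base word, with letters k mod 2. -/
def r2 {N : ℕ} (k : Fin N) : Fin 2 := ⟨(k : ℕ) % 2, Nat.mod_lt _ (by norm_num)⟩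

theorem sum_stab_det {I : Type} [Fintype I] [DecidableEq I] (c : I → ℕ) (r u : I → Fin 2) :
    ∑ σ ∈ stab c, ((Perm.sign σ : ℤˣ) : ℤ) * (if r ∘ ⇑(σ⁻¹ : Perm I) = u then 1 else 0) =
      Matrix.det (Matrix.of fun a x : I => if c a = c x ∧ u a = r x then (1 : ℤ) else 0) := by
  rw [Matrix.det_apply']
  unfold stab
  rw [Finset.sum_filter]
  refine Finset.sum_congr rfl fun σ _ => ?_
  have hprod : ∏ i, (Matrix.of fun a x : I => if c a = c x ∧ u a = r x then (1 : ℤ) else 0) (σ i) i
      = if (∀ x, c (σ x) = c x ∧ u (σ x) = r x) then 1 else 0 := by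
    simp only [Matrix.of_apply]
    rw [Finset.prod_boole]
    simp only [mem_univ, forall_const]
  rw [hprod]
  have hiff : (r ∘ ⇑(σ⁻¹ : Perm I) = u) ↔ ∀ x, u (σ x) = r x := by
    constructor
    · rintro rfl x
      simp
    · intro h
      funext x
      have := h (σ⁻¹ x)
      simpa using this.symm
  by_cases hc : ∀ x, c (σ x) = c x
  · rw [if_pos hc]
    by_cases hu : ∀ x, u (σ x) = r x
    · rw [if_pos (hiff.2 hu), if_pos fun x => ⟨hc x, hu x⟩]
      simp
    · rw [if_neg (fun h => hu (hiff.1 h)), if_neg (fun h => hu fun x => (h x).2)]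
      simp
  · rw [if_neg hc, if_neg (fun h => hc fun x => (h x).1), mul_zero]

theorem sum_stab_fun {I : Type} [Fintype I] [DecidableEq I] (c : I → ℕ) (r : I → Fin 2)
    (g : (I → Fin 2) → ℤ) :
    ∑ σ ∈ stab c, ((Perm.sign σ : ℤˣ) : ℤ) * g (r ∘ ⇑(σ⁻¹ : Perm I)) =
      ∑ u : I → Fin 2, Matrix.det (Matrix.of fun a x : I =>
        if c a = c x ∧ u a = r x then (1 : ℤ) else 0) * g u := by
  simp_rw [← sum_stab_det, Finset.sum_mul]
  rw [Finset.sum_comm]
  refine Finset.sum_congr rfl fun σ _ => ?_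
  simp only [Perm.coe_inv, mul_ite, mul_one, mul_zero, ite_mul, zero_mul, sum_ite_eq, mem_univ, ↓reduceIte]

/-- column labels on Fin (2n+1). -/
def cA {N : ℕ} (k : Fin N) : ℕ := ((k : ℕ) + 1) / 2

/-- row labels on Fin (2n+1). -/
def cB {N : ℕ} (k : Fin N) : ℕ := (k : ℕ) / 2

theorem det_A (n : ℕ) (u : Fin (2 * n + 1) → Fin 2) :
    Matrix.det (Matrix.of fun a x : Fin (2 * n + 1) =>
        if cA a = cA x ∧ u a = r2 x then (1 : ℤ) else 0) =
      (if u 0 = 0 then 1 else 0) * EA n u := by
  rw [det_pairs (qA n)]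
  · unfold EA
    rw [mul_comm]
    congr 1
    · have h0 : qA n (Sum.inr ()) = 0 := rfl
      have h1 : r2 (0 : Fin (2 * n + 1)) = 0 := rfl
      simp only [Matrix.of_apply, h0, h1, true_and]
    · refine Finset.prod_congr rfl fun l _ => ?_
      have h0 : qA n (Sum.inl (0, l)) = ⟨2 * l + 1, by omega⟩ := rfl
      have h1 : qA n (Sum.inl (1, l)) = ⟨2 * l + 2, by omega⟩ := rfl
      have e0 : r2 (⟨2 * l + 1, by omega⟩ : Fin (2 * n + 1)) = 1 := by
        unfold r2
        apply Fin.ext
        simp only [Fin.val_one]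
        omega
      have e1 : r2 (⟨2 * l + 2, by omega⟩ : Fin (2 * n + 1)) = 0 := by
        unfold r2
        apply Fin.ext
        simp only [Fin.val_zero]
        omega
      have c0 : cA (⟨2 * l + 1, by (clear * -; omega)⟩ : Fin (2 * n + 1)) = l + 1 := by
        unfold cA
        simp only
        omega
      have c1 : cA (⟨2 * l + 2, by omega⟩ : Fin (2 * n + 1)) = l + 1 := by
        unfold cA
        simp only
        omega
      simp only [h0, Matrix.of_apply, c0, e0, true_and, h1, c1, e1, brA]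
      generalize u ⟨2 * l + 1, by omega⟩ = s
      generalize u ⟨2 * l + 2, by omega⟩ = t
      revert s t
      decide
  · intro a b l l' hl
    simp only [Matrix.of_apply]
    rw [if_neg]
    rintro ⟨h, _⟩
    unfold cA at h
    rw [qA_inl, qA_inl] at h
    apply hl
    apply Fin.ext
    have := a.2
    have := b.2
    omega
  · intro a l
    simp only [Matrix.of_apply]
    rw [if_neg]
    rintro ⟨h, _⟩
    unfold cA at h
    rw [qA_inl, qA_inr] at h
    have := a.2
    (clear * - h; omega)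
  · intro a l
    simp only [Matrix.of_apply]
    rw [if_neg]
    rintro ⟨h, _⟩
    unfold cA at h
    rw [qA_inl, qA_inr] at h
    have := a.2
    omega

theorem det_B (n : ℕ) (u : Fin (2 * n + 1) → Fin 2) :
    Matrix.det (Matrix.of fun a x : Fin (2 * n + 1) =>
        if cB a = cB x ∧ u a = r2 x then (1 : ℤ) else 0) =
      (if u (Fin.last _) = 0 then 1 else 0) * EB n u := by
  rw [det_pairs (qB n)]
  · unfold EB
    rw [mul_comm]
    congr 1
    · have h0 : qB n (Sum.inr ()) = Fin.last _ := rfl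
      have h1 : r2 (Fin.last (2 * n)) = 0 := by
        unfold r2
        apply Fin.ext
        simp
      simp only [Matrix.of_apply, h0, h1, true_and]
    · refine Finset.prod_congr rfl fun l _ => ?_
      have h0 : qB n (Sum.inl (0, l)) = ⟨2 * l, by omega⟩ := rfl
      have h1 : qB n (Sum.inl (1, l)) = ⟨2 * l + 1, by omega⟩ := rfl
      have e0 : r2 (⟨2 * l, by omega⟩ : Fin (2 * n + 1)) = 0 := by
        unfold r2
        apply Fin.ext
        simp only [Fin.val_zero]
        omega
      have e1 : r2 (⟨2 * l + 1, by omega⟩ : Fin (2 * n + 1)) = 1 := by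
        unfold r2
        apply Fin.ext
        simp only [Fin.val_one]
        omega
      have c0 : cB (⟨2 * l, by omega⟩ : Fin (2 * n + 1)) = l := by
        unfold cB
        simp only
        omega
      have c1 : cB (⟨2 * l + 1, by (clear * -; omega)⟩ : Fin (2 * n + 1)) = l := by
        unfold cB
        simp only
        omega
      simp only [Matrix.of_apply, h0, h1, e0, e1, c0, c1, true_and, brB]
      generalize u ⟨2 * l, by omega⟩ = s
      generalize u ⟨2 * l + 1, by omega⟩ = t
      revert s t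
      decide
  · intro a b l l' hl
    simp only [Matrix.of_apply]
    rw [if_neg]
    rintro ⟨h, _⟩
    unfold cB at h
    rw [qB_inl, qB_inl] at h
    apply hl
    apply Fin.ext
    have := a.2
    have := b.2
    omega
  · intro a l
    simp only [Matrix.of_apply]
    rw [if_neg]
    rintro ⟨h, _⟩
    unfold cB at h
    rw [qB_inl, qB_inr] at h
    have := a.2
    have := l.2
    omega
  · intro a l
    simp only [Matrix.of_apply]
    rw [if_neg]
    rintro ⟨h, _⟩
    unfold cB at h
    rw [qB_inl, qB_inr] at h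
    have := a.2
    have := l.2
    omega

/-- The double alternating sum over column and row stabilizers is an entry of the word. -/
theorem double_sum (n : ℕ) (X : ℕ → M2) :
    ∑ σ ∈ stab (cA (N := 2 * n + 1)), ∑ τ ∈ stab (cB (N := 2 * n + 1)),
      ((Perm.sign σ : ℤˣ) : ℤ) * ((Perm.sign τ : ℤˣ) : ℤ) *
        ∏ k : Fin (2 * n + 1), X k (r2 (σ⁻¹ k)) (r2 (τ⁻¹ k)) = wprod (2 * n + 1) X 0 0 := by
  have h1 : ∀ σ : Perm (Fin (2 * n + 1)), ∑ τ ∈ stab (cB (N := 2 * n + 1)),
      ((Perm.sign σ : ℤˣ) : ℤ) * ((Perm.sign τ : ℤˣ) : ℤ) *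
        ∏ k : Fin (2 * n + 1), X k (r2 (σ⁻¹ k)) (r2 (τ⁻¹ k)) =
      ((Perm.sign σ : ℤˣ) : ℤ) * ∑ u' : Fin (2 * n + 1) → Fin 2,
        ((if u' (Fin.last _) = 0 then 1 else 0) * EB n u') *
        ∏ k : Fin (2 * n + 1), X k (r2 (σ⁻¹ k)) (u' k) := by
    intro σ
    have h2 := sum_stab_fun (cB (N := 2 * n + 1)) r2
      (fun u' => ∏ k : Fin (2 * n + 1), X k (r2 (σ⁻¹ k)) (u' k))
    simp_rw [det_B] at h2
    rw [← h2, Finset.mul_sum]
    refine Finset.sum_congr rfl fun τ _ => ?_
    simp only [Function.comp_apply]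
    ring
  rw [Finset.sum_congr rfl fun σ _ => h1 σ]
  have h3 := sum_stab_fun (cA (N := 2 * n + 1)) r2
    (fun u => ∑ u' : Fin (2 * n + 1) → Fin 2,
        ((if u' (Fin.last _) = 0 then 1 else 0) * EB n u') *
        ∏ k : Fin (2 * n + 1), X k (u k) (u' k))
  simp_rw [det_A] at h3
  simp only [Function.comp_apply] at h3
  rw [h3, ← word_eq, ← TT_eq]
  unfold TT sm
  refine Finset.sum_congr rfl fun u _ => ?_
  rw [Finset.mul_sum]
  refine Finset.sum_congr rfl fun u' _ => ?_
  ring

end Vale.Agent.P197.Quat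
end
end

section

section

open Finset Equiv

namespace Vale.Agent.P197.Quat

theorem sum_stab_transport {I A M : Type} [Fintype I] [DecidableEq I] [Fintype A] [DecidableEq A]
    [AddCommMonoid M] (p : I ≃ A) (c : A → ℕ) (c' : I → ℕ)
    (h : ∀ a b, c (p a) = c (p b) ↔ c' a = c' b) (f : Perm A → M) :
    ∑ σ ∈ stab c, f σ = ∑ σ ∈ stab c', f (p.permCongr σ) := by
  symm
  refine Finset.sum_equiv p.permCongr ?_ fun σ _ => rfl
  intro σ
  rw [mem_stab, mem_stab]
  constructor
  · intro hσ x
    have h1 := (h (σ (p.symm x)) (p.symm x)).2 (hσ _)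
    simpa [Equiv.permCongr_apply] using h1
  · intro hσ x
    have h1 := hσ (p x)
    rw [Equiv.permCongr_apply, Equiv.symm_apply_apply] at h1
    exact (h _ _).1 h1

theorem fin_sum_ne (n : ℕ) (r c : Fin (2 * n + 1) → ℕ) (hc : Monotone c)
    (hrc : ∀ a b, c a = c b → r a % 4 = r b % 4 → a = b) :
    ∑ π ∈ stab c, ((Perm.sign π : ℤˣ) : ℤ) *
      ∑ σ ∈ stab (cA (N := 2 * n + 1)), ∑ τ ∈ stab (cB (N := 2 * n + 1)),
      ((Perm.sign σ : ℤˣ) : ℤ) * ((Perm.sign τ : ℤˣ) : ℤ) *
        ∏ k : Fin (2 * n + 1), qv (r (π k)) (r2 (σ⁻¹ k)) (r2 (τ⁻¹ k)) ≠ 0 := by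
  have h1 : ∀ π ∈ stab c, ((Perm.sign π : ℤˣ) : ℤ) *
      ∑ σ ∈ stab (cA (N := 2 * n + 1)), ∑ τ ∈ stab (cB (N := 2 * n + 1)),
      ((Perm.sign σ : ℤˣ) : ℤ) * ((Perm.sign τ : ℤˣ) : ℤ) *
        ∏ k : Fin (2 * n + 1), qv (r (π k)) (r2 (σ⁻¹ k)) (r2 (τ⁻¹ k)) =
      wprod (2 * n + 1) (fun k => qv (ext0 r k)) 0 0 := by
    intro π hπ
    rw [mem_stab] at hπ
    have h2 := double_sum n (fun k => qv (ext0 (r ∘ π) k))
    have h3 : ∀ k : Fin (2 * n + 1), ext0 (r ∘ π) (k : ℕ) = r (π k) := by
      intro k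
      unfold ext0
      rw [dif_pos k.2]
      rfl
    simp only [h3] at h2
    rw [h2, wprod_perm r c hc hrc π hπ, Matrix.smul_apply, smul_eq_mul, ← mul_assoc]
    have h4 : ((Perm.sign π : ℤˣ) : ℤ) * ((Perm.sign π : ℤˣ) : ℤ) = 1 := by
      rw [← Units.val_mul, Int.units_mul_self]
      rfl
    rw [h4, one_mul]
  rw [Finset.sum_congr rfl h1, Finset.sum_const, nsmul_eq_mul]
  apply mul_ne_zero
  · have : (1 : Perm (Fin (2 * n + 1))) ∈ stab c := by
      rw [mem_stab]
      intro x
      rfl
    exact_mod_cast (Finset.card_pos.2 ⟨_, this⟩).ne'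
  · exact wprod_qv_ne n (ext0 r)

/-- kernel factor with natural number letters. -/
def qn (r a b : ℕ) : ℤ := if h : a < 2 ∧ b < 2 then qv r ⟨a, h.1⟩ ⟨b, h.2⟩ else 0

theorem Fn_kform {A : Type} [Fintype A] [DecidableEq A] (y : (A → ℕ) → (A → ℕ) → ℂ)
    (c c' r r' : A → ℕ) (π : Perm A) :
    Fn (kform y) (polyt c r) (polyt c' r') π = ∑ σ ∈ stab c, ∑ τ ∈ stab c',
      ((Perm.sign σ : ℤ) : ℂ) * ((Perm.sign τ : ℤ) : ℂ) *
        y ((r ∘ ⇑(σ⁻¹ : Perm A)) ∘ ⇑(π⁻¹ : Perm A)) ((r' ∘ ⇑(τ⁻¹ : Perm A)) ∘ ⇑(π⁻¹ : Perm A)) := by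
  unfold Fn polyt
  simp only [map_sum, map_smul, wordRep_single, LinearMap.sum_apply, LinearMap.smul_apply,
    kform_single, smul_eq_mul, one_mul]
  simp only [Finset.mul_sum]
  rw [Finset.sum_comm]
  refine Finset.sum_congr rfl fun σ _ => ?_
  refine Finset.sum_congr rfl fun τ _ => ?_
  ring

theorem exists_path {A : Type} [Fintype A] [DecidableEq A] {n : ℕ} {i j : A → ℕ}
    (hz : IsZig (n + 1) i j) : ∃ p : Fin (2 * n + 1) ≃ A, (∀ k, i (p k) = cB k) ∧
      (∀ k, j (p k) = n - cA k) := by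
  have hex : ∀ k : Fin (2 * n + 1), ∃ x : A, i x = cB k ∧ j x = n - cA k := by
    intro k
    apply hz.surj
    · unfold cA cB
      have := k.2
      omega
    · unfold cA cB
      have := k.2
      omega
  choose f hf using hex
  have hinj : Function.Injective f := by
    intro a b hab
    have h1 := (hf a).1
    have h2 := (hf a).2
    rw [hab] at h1 h2
    have h3 := (hf b).1
    have h4 := (hf b).2
    rw [h3] at h1
    rw [h4] at h2
    unfold cA at h2
    unfold cB at h1
    apply Fin.ext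
    have := a.2
    have := b.2
    (clear * - h1 h2; omega)
  have hsurj : Function.Surjective f := by
    intro x
    have h1 := hz.lt x
    have h2 := hz.le x
    rcases Nat.lt_or_ge (i x + j x) n with h3 | h3
    · -- i + j = n - 1, position 2 i + 1
      have hlt : 2 * i x + 1 < 2 * n + 1 := by (clear * - h1 h2 h3; omega)
      refine ⟨⟨2 * i x + 1, hlt⟩, ?_⟩
      apply hz.inj
      · rw [(hf _).1]
        unfold cB
        simp only
        (clear * -; omega)
      · rw [(hf _).2]
        unfold cA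
        simp only
        (clear * - h1 h2 h3; omega)
    · have hlt : 2 * i x < 2 * n + 1 := by (clear * - h1 h2 h3; omega)
      refine ⟨⟨2 * i x, hlt⟩, ?_⟩
      apply hz.inj
      · rw [(hf _).1]
        unfold cB
        simp only
        omega
      · rw [(hf _).2]
        unfold cA
        simp only
        omega
  exact ⟨Equiv.ofBijective f ⟨hinj, hsurj⟩, fun k => (hf k).1, fun k => (hf k).2⟩

theorem exists_sorted (S : Finset (ℕ × ℕ)) (N : ℕ) (hcard : S.card = N) :
    ∃ g : Fin N → ℕ × ℕ, Function.Injective g ∧ (∀ k, g k ∈ S) ∧ (∀ c ∈ S, ∃ k, g k = c) ∧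
      Monotone fun k => (g k).2 := by
  classical
  let e : ℕ × ℕ ↪ ℕ ×ₗ ℕ := ⟨fun c => toLex (c.2, c.1), fun a b h => by
    have h1 := congrArg ofLex h
    simp only [ofLex_toLex, Prod.mk.injEq] at h1
    exact Prod.ext h1.2 h1.1⟩
  have hc : (S.map e).card = N := by rw [Finset.card_map, hcard]
  let o := (S.map e).orderEmbOfFin hc
  refine ⟨fun k => ((ofLex (o k)).2, (ofLex (o k)).1), ?_, ?_, ?_, ?_⟩
  · intro a b h
    apply o.injective
    have h1 := congrArg Prod.fst h
    have h2 := congrArg Prod.snd h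
    simp only at h1 h2
    apply ofLex.injective
    exact Prod.ext h2 h1
  · intro k
    have h1 := Finset.orderEmbOfFin_mem (S.map e) hc k
    rw [Finset.mem_map] at h1
    obtain ⟨c, hcS, hce⟩ := h1
    have h2 : o k = toLex (c.2, c.1) := hce.symm
    simp only
    rw [h2]
    exact hcS
  · intro c hcS
    have h1 : e c ∈ S.map e := Finset.mem_map_of_mem e hcS
    have h2 : e c ∈ Set.range o := by
      rw [Finset.range_orderEmbOfFin]
      exact_mod_cast h1
    obtain ⟨k, hk⟩ := h2
    refine ⟨k, ?_⟩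
    have h3 : o k = toLex (c.2, c.1) := hk
    simp only
    rw [h3]
    rfl
  · intro a b hab
    have h1 : o a ≤ o b := o.monotone hab
    simp only
    rw [Prod.Lex.le_iff] at h1
    rcases h1 with h1 | h1
    · exact h1.le
    · exact h1.1.le

end Vale.Agent.P197.Quat

namespace Vale.Agent.P197

open Quat

/-- Evaluation of the generator of the top two levels against a skew shape with columns of
height at most four. -/
theorem exists_kernel {A : Type} [Fintype A] [DecidableEq A] {m : ℕ} (hm : 1 ≤ m)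
    {i j : A → ℕ} (hz : IsZig m i j) (S : Finset (ℕ × ℕ)) (hcard : S.card = 2 * m - 1)
    (hS : ∀ c ∈ S, ∀ c' ∈ S, c.2 = c'.2 → c.1 % 4 = c'.1 % 4 → c = c') :
    ∃ rl cl : A → ℕ, IsLabel S rl cl ∧ ∃ y : (A → ℕ) → (A → ℕ) → ℂ,
      (∀ ρ ∈ stab rl, ∀ u u' : A → ℕ, y (u ∘ ρ) (u' ∘ ρ) = y u u') ∧
      ∑ π ∈ stab cl, ((Perm.sign π : ℤ) : ℂ) *
        Fn (kform y) (e0 m i j) (e1 m i j) π ≠ 0 := by
  obtain ⟨n, rfl⟩ : ∃ n, m = n + 1 := ⟨m - 1, by omega⟩
  obtain ⟨p, hpi, hpj⟩ := exists_path hz
  obtain ⟨g, ginj, gmem, gsurj, gmono⟩ := exists_sorted S (2 * n + 1) (by omega)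
  refine ⟨fun x => (g (p.symm x)).1, fun x => (g (p.symm x)).2, ⟨?_, ?_, ?_⟩,
    fun u u' => ((∏ x, qn (g (p.symm x)).1 (u x) (u' x) : ℤ) : ℂ), ?_, ?_⟩
  · intro x
    exact gmem _
  · intro x y h1 h2
    apply p.symm.injective
    exact ginj (Prod.ext h1 h2)
  · intro c hc
    obtain ⟨k, hk⟩ := gsurj c hc
    refine ⟨p k, ?_, ?_⟩ <;> simp [hk]
  · intro ρ hρ u u'
    rw [mem_stab] at hρ
    have h0 : ∏ x, qn (g (p.symm x)).1 ((u ∘ ρ) x) ((u' ∘ ρ) x) =
        ∏ x, qn (g (p.symm x)).1 (u x) (u' x) := by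
      refine Fintype.prod_equiv ρ _ _ fun x => ?_
      simp only [Function.comp_apply]
      rw [hρ x]
    change ((∏ x, qn (g (p.symm x)).1 ((u ∘ ρ) x) ((u' ∘ ρ) x) : ℤ) : ℂ) = _
    rw [h0]
  · have hfin := fin_sum_ne n (fun k => (g k).1) (fun k => (g k).2) gmono (by
      intro a b h1 h2
      exact ginj (hS _ (gmem a) _ (gmem b) h1 h2))
    have hr0 : ∀ k, r0 (n + 1) i j (p k) = ((r2 k : Fin 2) : ℕ) := by
      intro k
      unfold r0
      rw [hpi, hpj]
      unfold r2 cA cB
      have := k.2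
      simp only
      omega
    have key : ∑ π ∈ stab (fun x => (g (p.symm x)).2), ((Perm.sign π : ℤ) : ℂ) *
        Fn (kform fun u u' => ((∏ x, qn (g (p.symm x)).1 (u x) (u' x) : ℤ) : ℂ))
          (e0 (n + 1) i j) (e1 (n + 1) i j) π =
        ((∑ π ∈ stab (fun k => (g k).2), ((Perm.sign π : ℤˣ) : ℤ) *
      ∑ σ ∈ stab (cA (N := 2 * n + 1)), ∑ τ ∈ stab (cB (N := 2 * n + 1)),
      ((Perm.sign σ : ℤˣ) : ℤ) * ((Perm.sign τ : ℤˣ) : ℤ) *
        ∏ k : Fin (2 * n + 1), qv (g (π k)).1 (r2 (σ⁻¹ k)) (r2 (τ⁻¹ k)) : ℤ) : ℂ) := by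
      rw [sum_stab_transport p (fun x => (g (p.symm x)).2) (fun k => (g k).2) (by
        intro a b
        simp)]
      push_cast
      refine Finset.sum_congr rfl fun π _ => ?_
      have hsg : ∀ σ : Perm (Fin (2 * n + 1)), Perm.sign (p.permCongr σ) = Perm.sign σ := fun σ =>
        Perm.sign_permCongr p σ
      rw [hsg]
      congr 1
      unfold e0 e1
      rw [Fn_kform]
      rw [sum_stab_transport p j cA (by
        intro a b
        rw [hpj, hpj]
        unfold cA
        have := a.2
        have := b.2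
        omega)]
      refine Finset.sum_congr rfl fun σ _ => ?_
      rw [sum_stab_transport p i cB (by
        intro a b
        rw [hpi, hpi])]
      refine Finset.sum_congr rfl fun τ _ => ?_
      rw [hsg, hsg]
      congr 1
      symm
      refine Fintype.prod_equiv (π.trans p) _ _ fun k => ?_
      have e1 : (π.trans p) k = p (π k) := rfl
      rw [e1, Equiv.symm_apply_apply]
      have e2 : ∀ σ : Perm (Fin (2 * n + 1)),
          (r0 (n + 1) i j ∘ ⇑((p.permCongr σ)⁻¹ : Perm A)) (((p.permCongr π)⁻¹ : Perm A) (p (π k)))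
            = ((r2 (σ⁻¹ k) : Fin 2) : ℕ) := by
        intro σ
        rw [← hr0]
        simp only [Function.comp_apply]
        congr 1
        have e3 : ((p.permCongr π)⁻¹ : Perm A) (p (π k)) = p k := by
          rw [Perm.inv_eq_iff_eq]
          simp [Equiv.permCongr_apply]
        rw [e3, Perm.inv_eq_iff_eq]
        simp [Equiv.permCongr_apply]
      simp only [Function.comp_apply] at e2 ⊢
      rw [e2, e2]
      have e4 : ∀ a b : Fin 2, qn (g (π k)).1 a b = qv (g (π k)).1 a b := by
        intro a b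
        unfold qn
        rw [dif_pos ⟨a.2, b.2⟩]
      rw [e4]
    rw [key]
    exact_mod_cast hfin

end Vale.Agent.P197
end
end

section

section

/-! Factorisation of the occurrence sum of a glued function (P197). -/

namespace Vale.Agent.P197

open Equiv Finset

noncomputable section

theorem glueFn_ne_zero {X : Type} [Fintype X] [DecidableEq X] (p : X → Prop) [DecidablePred p]
    (FA : Perm {x // p x} → ℂ) (FB : Perm {x // ¬ p x} → ℂ) (g : Perm X)
    (h : glueFn p FA FB g ≠ 0) : ∀ x, p (g x) ↔ p x := by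
  unfold glueFn at h
  by_contra H
  rw [dif_neg H] at h
  exact h rfl

theorem glueFn_subtypeCongr {X : Type} [Fintype X] [DecidableEq X] (p : X → Prop)
    [DecidablePred p] (FA : Perm {x // p x} → ℂ) (FB : Perm {x // ¬ p x} → ℂ)
    (a : Perm {x // p x}) (b : Perm {x // ¬ p x}) :
    glueFn p FA FB (Perm.subtypeCongr a b) = FA a * FB b := by
  unfold glueFn
  rw [dif_pos (subtypeCongr_preserve p a b)]
  congr 2
  · ext x
    simp
  · ext x
    simp only [Perm.subtypePerm_apply]
    rw [Perm.subtypeCongr.right_apply _ _ x.2]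

/-- Nonvanishing of the occurrence sum of a glued function. -/
theorem occ_glue {X : Type} [Fintype X] [DecidableEq X] (p : X → Prop) [DecidablePred p]
    (ν ν2 : YoungDiagram) (hle : ν2 ≤ ν) (rl cl : X → ℕ) (hl : IsLabel ν.cells rl cl)
    (hp : ∀ x, ¬ p x ↔ (rl x, cl x) ∈ ν2.cells)
    (FA : Perm {x // p x} → ℂ) (FB : Perm {x // ¬ p x} → ℂ)
    (hinv : ∀ ρ ∈ stab (resW p rl), ∀ g, FA (ρ * g) = FA g)
    (hA : ∑ π ∈ stab (resW p cl), ((Perm.sign π : ℤ) : ℂ) * FA π ≠ 0)
    (hB : occ (resW (fun x => ¬ p x) rl) (resW (fun x => ¬ p x) cl) FB ≠ 0) :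
    occ rl cl (glueFn p FA FB) ≠ 0 := by
  have _ := hle
  have _ := hl
  have key := occ_factor p rl cl (fun c => ν2.colLen c) (fun x => by
    rw [hp x, YoungDiagram.mem_cells, YoungDiagram.mem_iff_lt_colLen]) (glueFn p FA FB) FA FB
    (glueFn_ne_zero p FA FB) (glueFn_subtypeCongr p FA FB) 1 1 1 1
  have hone : (Perm.subtypeCongr (1 : Perm {x // p x}) (1 : Perm {x // ¬ p x})) = 1 := by
    ext x
    by_cases hx : p x
    · rw [Perm.subtypeCongr.left_apply _ _ hx]
      rfl
    · rw [Perm.subtypeCongr.right_apply _ _ hx]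
      rfl
  rw [hone] at key
  simp only [inv_one, one_mul, mul_one] at key
  have e1 : occ rl cl (glueFn p FA FB) = _ := key
  rw [e1]
  refine mul_ne_zero ?_ hB
  have e2 : ∀ ρ ∈ univ.filter (fun g : Perm {x // p x} => ∀ x, rl (g x) = rl x),
      ∑ π ∈ univ.filter (fun g : Perm {x // p x} => ∀ x, cl (g x) = cl x),
        ((Perm.sign π : ℤ) : ℂ) * FA (ρ * π) =
      ∑ π ∈ stab (resW p cl), ((Perm.sign π : ℤ) : ℂ) * FA π := by
    intro ρ hρ
    refine Finset.sum_congr rfl (fun π _ => ?_)
    rw [hinv ρ hρ]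
  rw [Finset.sum_congr rfl e2, Finset.sum_const, nsmul_eq_mul]
  refine mul_ne_zero ?_ hA
  rw [Nat.cast_ne_zero]
  refine Finset.card_ne_zero_of_mem (a := 1) ?_
  exact Finset.mem_filter.2 ⟨Finset.mem_univ _, fun x => rfl⟩

end

end Vale.Agent.P197
end
end

section

section

/-! Facts on the peeled bilinear form (P197). -/

namespace Vale.Agent.P197

open Equiv Finset

noncomputable section

variable {X : Type} [Fintype X] [DecidableEq X]

theorem wordRep_polyt_expand (g : Perm X) (c r : X → ℕ) :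
    wordRep X g (polyt c r) =
      ∑ π ∈ stab c, ((Perm.sign π : ℤ) : ℂ) •
        Finsupp.single (r ∘ ⇑((g * π)⁻¹ : Perm X)) (1 : ℂ) := by
  unfold polyt
  rw [map_sum]
  refine Finset.sum_congr rfl (fun π _ => ?_)
  rw [map_smul, wordRep_single, mul_inv_rev]
  rfl

theorem bilin_polyt (b : BF X) (g g' : Perm X) (c c' r r' : X → ℕ) :
    b (wordRep X g (polyt c r)) (wordRep X g' (polyt c' r')) =
      ∑ π ∈ stab c, ∑ π' ∈ stab c', ((Perm.sign π : ℤ) : ℂ) * (((Perm.sign π' : ℤ) : ℂ) *
        b (Finsupp.single (r ∘ ⇑((g * π)⁻¹ : Perm X)) (1 : ℂ))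
          (Finsupp.single (r' ∘ ⇑((g' * π')⁻¹ : Perm X)) (1 : ℂ))) := by
  rw [wordRep_polyt_expand g c r, map_sum, LinearMap.sum_apply]
  refine Finset.sum_congr rfl (fun π _ => ?_)
  rw [map_smul, LinearMap.smul_apply, wordRep_polyt_expand g' c' r', map_sum, smul_eq_mul,
    Finset.mul_sum]
  refine Finset.sum_congr rfl (fun π' _ => ?_)
  rw [map_smul, smul_eq_mul]

/-- (I2) the column stabiliser acts on a polytabloid by the sign. -/
theorem wordRep_mul_polyt (g π : Perm X) (c r : X → ℕ) (hπ : π ∈ stab c) :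
    wordRep X (g * π) (polyt c r) = ((Perm.sign π : ℤ) : ℂ) • wordRep X g (polyt c r) := by
  rw [wordRep_polyt_expand, wordRep_polyt_expand, Finset.smul_sum]
  rw [mem_stab] at hπ
  refine Finset.sum_bij' (fun σ _ => π * σ) (fun σ _ => π⁻¹ * σ) ?_ ?_ ?_ ?_ ?_
  · intro σ hσ
    rw [mem_stab] at hσ ⊢
    intro x
    rw [Perm.mul_apply, hπ, hσ]
  · intro σ hσ
    rw [mem_stab] at hσ ⊢
    intro x
    rw [Perm.mul_apply, ← hπ (π⁻¹ (σ x)), app_inv, hσ]
  · intro σ _
    simp
  · intro σ _
    simp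
  · intro σ _
    rw [smul_smul, mul_assoc g π σ, Perm.sign_mul]
    congr 1
    have h1 : ((Perm.sign π : ℤ) : ℂ) * ((Perm.sign π : ℤ) : ℂ) = 1 := by
      rcases Int.units_eq_one_or (Perm.sign π) with h | h <;> simp only [h, Units.val_neg, Units.val_one, Int.reduceNeg, Int.cast_neg, Int.cast_one, mul_neg, mul_one, neg_neg]
    push_cast
    rw [← mul_assoc, h1, one_mul]

/-- Block-preservation of a permutation. -/
def Pres (p : X → Prop) (g : Perm X) : Prop := ∀ x, p (g x) ↔ p x

omit [Fintype X] [DecidableEq X] in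
theorem Pres.inv {p : X → Prop} {g : Perm X} (h : Pres p g) : Pres p g⁻¹ := by
  intro x
  have := h (g⁻¹ x)
  rw [app_inv] at this
  exact this.symm

omit [Fintype X] [DecidableEq X] in
theorem Pres.mul {p : X → Prop} {g h : Perm X} (hg : Pres p g) (hh : Pres p h) :
    Pres p (g * h) := by
  intro x
  rw [Perm.mul_apply, hg, hh]

omit [Fintype X] [DecidableEq X] in
theorem pres_of_word {p : X → Prop} {r : X → ℕ} (hr : ∀ x, p x ↔ r x < 2) {g : Perm X}
    (h : ∀ x, p x ↔ (r ∘ ⇑(g⁻¹ : Perm X)) x < 2) : Pres p g := by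
  intro x
  rw [h (g x), hr x, Function.comp_apply, inv_app]

omit [DecidableEq X] in
theorem peelKer_eq_zero (p : X → Prop) [DecidablePred p]
    (y : ({x // p x} → ℕ) → ({x // p x} → ℕ) → ℂ) (b₂ : BF {x // ¬ p x}) (r r' : X → ℕ)
    (hr : ∀ x, p x ↔ r x < 2) (g : Perm X) (hg : ¬ Pres p g) :
    peelKer p y b₂ (r ∘ ⇑(g⁻¹ : Perm X)) r' = 0 ∧
      peelKer p y b₂ r' (r ∘ ⇑(g⁻¹ : Perm X)) = 0 := by
  constructor
  · unfold peelKer
    rw [if_neg]
    rintro ⟨h, -⟩
    exact hg (pres_of_word hr h)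
  · unfold peelKer
    rw [if_neg]
    rintro ⟨-, h⟩
    exact hg (pres_of_word hr h)

/-- (I1) if no `g π` preserves `p`, the translated polytabloid is in both kernels of the
peeled form. -/
theorem peel_polyt_eq_zero (p : X → Prop) [DecidablePred p]
    (y : ({x // p x} → ℕ) → ({x // p x} → ℕ) → ℂ) (b₂ : BF {x // ¬ p x}) (c r : X → ℕ)
    (hr : ∀ x, p x ↔ r x < 2) (g : Perm X)
    (hg : ∀ π ∈ stab c, ¬ ∀ x, p ((g * π) x) ↔ p x) (w : WM X) :
    kform (peelKer p y b₂) (wordRep X g (polyt c r)) w = 0 ∧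
      kform (peelKer p y b₂) w (wordRep X g (polyt c r)) = 0 := by
  constructor
  · induction w using Finsupp.induction_linear with
    | zero => simp only [map_zero]
    | add w w' h h' => rw [map_add, h, h', add_zero]
    | single u a =>
      rw [wordRep_polyt_expand, map_sum, LinearMap.sum_apply]
      refine Finset.sum_eq_zero (fun π hπ => ?_)
      rw [map_smul, LinearMap.smul_apply, kform_single,
        (peelKer_eq_zero p y b₂ r u hr (g * π) (hg π hπ)).1]
      simp
  · induction w using Finsupp.induction_linear with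
    | zero => simp only [map_zero, LinearMap.zero_apply]
    | add w w' h h' => rw [map_add, LinearMap.add_apply, h, h', add_zero]
    | single u a =>
      rw [wordRep_polyt_expand, map_sum]
      refine Finset.sum_eq_zero (fun π hπ => ?_)
      rw [map_smul, kform_single, (peelKer_eq_zero p y b₂ r u hr (g * π) (hg π hπ)).2]
      simp

/-- Sums over a label stabiliser of a function supported on block-preserving permutations. -/
theorem sum_stab_block {M : Type*} [AddCommMonoid M] (p : X → Prop) [DecidablePred p]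
    (c : X → ℕ) (F : Perm X → M) (hF : ∀ g, ¬ Pres p g → F g = 0) :
    ∑ g ∈ stab c, F g = ∑ a ∈ stab (resW p c), ∑ b ∈ stab (resW (fun x => ¬ p x) c),
      F (Perm.subtypeCongr a b) := by
  classical
  have h1 := sum_preserving p c F
  have h2 : ∑ g ∈ univ.filter (fun g : Perm X => (∀ x, c (g x) = c x) ∧ ∀ x, p (g x) ↔ p x),
      F g = ∑ g ∈ stab c, F g := by
    refine Finset.sum_subset ?_ ?_
    · intro g hg
      exact mem_stab.2 (Finset.mem_filter.1 hg).2.1
    · intro g hg hng
      refine hF g (fun hp => hng ?_)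
      exact Finset.mem_filter.2 ⟨Finset.mem_univ _, mem_stab.1 hg, hp⟩
  rw [← h2, h1]
  rfl

/-- (I3) the peeled form on block-preserving translates of polytabloids factorises. -/
theorem peel_factor (p : X → Prop) [DecidablePred p]
    (y : ({x // p x} → ℕ) → ({x // p x} → ℕ) → ℂ) (b₂ : BF {x // ¬ p x}) (c c' r : X → ℕ)
    (hr : ∀ x, p x ↔ r x < 2) (h h' : Perm X) (H : ∀ x, p (h x) ↔ p x)
    (H' : ∀ x, p (h' x) ↔ p x) :
    kform (peelKer p y b₂) (wordRep X h (polyt c r)) (wordRep X h' (polyt c' r)) =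
      kform y (wordRep _ (h.subtypePerm H) (polyt (resW p c) (resW p r)))
        (wordRep _ (h'.subtypePerm H') (polyt (resW p c') (resW p r))) *
      b₂ (wordRep _ (h.subtypePerm fun x => not_congr (H x))
          (polyt (resW (fun x => ¬ p x) c) (fun x => r x.1 - 2)))
        (wordRep _ (h'.subtypePerm fun x => not_congr (H' x))
          (polyt (resW (fun x => ¬ p x) c') (fun x => r x.1 - 2))) := by
  classical
  rw [bilin_polyt, bilin_polyt, bilin_polyt]
  rw [sum_stab_block p c]
  swap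
  · intro g hg
    refine Finset.sum_eq_zero (fun π' _ => ?_)
    have hng : ¬ Pres p (h * g) := by
      intro hh
      apply hg
      have := (Pres.inv H).mul hh
      rwa [inv_mul_cancel_left] at this
    rw [kform_single, (peelKer_eq_zero p y b₂ r _ hr (h * g) hng).1]
    simp
  have key : ∀ (a : Perm {x // p x}) (b : Perm {x // ¬ p x}),
      ∑ π' ∈ stab c', ((Perm.sign (Perm.subtypeCongr a b) : ℤ) : ℂ) *
        (((Perm.sign π' : ℤ) : ℂ) * kform (peelKer p y b₂)
          (Finsupp.single (r ∘ ⇑((h * Perm.subtypeCongr a b)⁻¹ : Perm X)) (1 : ℂ))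
          (Finsupp.single (r ∘ ⇑((h' * π')⁻¹ : Perm X)) (1 : ℂ))) =
      ∑ a' ∈ stab (resW p c'), ∑ b' ∈ stab (resW (fun x => ¬ p x) c'),
        ((Perm.sign (Perm.subtypeCongr a b) : ℤ) : ℂ) *
        (((Perm.sign (Perm.subtypeCongr a' b') : ℤ) : ℂ) * kform (peelKer p y b₂)
          (Finsupp.single (r ∘ ⇑((h * Perm.subtypeCongr a b)⁻¹ : Perm X)) (1 : ℂ))
          (Finsupp.single (r ∘ ⇑((h' * Perm.subtypeCongr a' b')⁻¹ : Perm X)) (1 : ℂ))) := by
    intro a b
    rw [sum_stab_block p c']
    intro g hg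
    have hng : ¬ Pres p (h' * g) := by
      intro hh
      apply hg
      have := (Pres.inv H').mul hh
      rwa [inv_mul_cancel_left] at this
    rw [kform_single, (peelKer_eq_zero p y b₂ r _ hr (h' * g) hng).2]
    simp
  have hword : ∀ (k : Perm X) (K : ∀ x, p (k x) ↔ p x) (a : Perm {x // p x})
      (b : Perm {x // ¬ p x}),
      (∀ x, p x ↔ (r ∘ ⇑((k * Perm.subtypeCongr a b)⁻¹ : Perm X)) x < 2) ∧
      resW p (r ∘ ⇑((k * Perm.subtypeCongr a b)⁻¹ : Perm X)) =
        resW p r ∘ ⇑((k.subtypePerm K * a)⁻¹ : Perm {x // p x}) ∧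
      (fun x : {x // ¬ p x} => (r ∘ ⇑((k * Perm.subtypeCongr a b)⁻¹ : Perm X)) x.1 - 2) =
        (fun x : {x // ¬ p x} => r x.1 - 2) ∘
          ⇑((k.subtypePerm (fun x => not_congr (K x)) * b)⁻¹ : Perm {x // ¬ p x}) := by
    intro k K a b
    have hk : k = Perm.subtypeCongr (k.subtypePerm K)
        (k.subtypePerm fun x => not_congr (K x)) := by
      ext x
      by_cases hx : p x
      · rw [Perm.subtypeCongr.left_apply _ _ hx]
        rfl
      · rw [Perm.subtypeCongr.right_apply _ _ hx]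
        rfl
    have hkk : (k * Perm.subtypeCongr a b)⁻¹ =
        Perm.subtypeCongr (k.subtypePerm K * a)⁻¹
          (k.subtypePerm (fun x => not_congr (K x)) * b)⁻¹ := by
      rw [← subtypeCongr_inv, subtypeCongr_mul, ← hk]
    refine ⟨?_, ?_, ?_⟩
    · intro x
      rw [Function.comp_apply, ← hr, hkk, subtypeCongr_preserve p]
    · funext x
      unfold resW
      rw [Function.comp_apply, hkk, Perm.subtypeCongr.left_apply _ _ x.2]
      rfl
    · funext x
      rw [Function.comp_apply, Function.comp_apply, hkk, Perm.subtypeCongr.right_apply _ _ x.2]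
  rw [Finset.sum_congr rfl (fun a _ => Finset.sum_congr rfl (fun b _ => key a b))]
  rw [Finset.sum_mul_sum]
  refine Finset.sum_congr rfl (fun a _ => ?_)
  refine Finset.sum_congr rfl (fun b _ => ?_)
  rw [Finset.sum_mul_sum]
  refine Finset.sum_congr rfl (fun a' _ => ?_)
  refine Finset.sum_congr rfl (fun b' _ => ?_)
  obtain ⟨w1, w2, w3⟩ := hword h H a b
  obtain ⟨w1', w2', w3'⟩ := hword h' H' a' b'
  rw [kform_single, kform_single]
  unfold peelKer
  rw [if_pos ⟨w1, w1'⟩, w2, w2', w3, w3', Perm.sign_subtypeCongr, Perm.sign_subtypeCongr]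
  push_cast
  ring

/-- (I4) if `g π` and `g ρ` preserve the top two levels, so does `g`. -/
theorem pres_of_stab {m : ℕ} {i j : X → ℕ} (p : X → Prop)
    (hp : ∀ x, p x ↔ m ≤ i x + j x + 2) (g π ρ : Perm X) (hπ : π ∈ stab j) (hρ : ρ ∈ stab i)
    (h1 : ∀ x, p ((g * π) x) ↔ p x) (h2 : ∀ x, p ((g * ρ) x) ↔ p x) :
    ∀ x, p (g x) ↔ p x := by
  classical
  rw [mem_stab] at hπ hρ
  set A : Finset X := univ.filter (fun x => p x) with hA
  have hmemA : ∀ x, x ∈ A ↔ p x := fun x => by simp only [hA, mem_filter, mem_univ, true_and]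
  set A' : Finset X := univ.filter (fun x => p (g x)) with hA'
  have hmemA' : ∀ x, x ∈ A' ↔ p (g x) := fun x => by simp only [hA', mem_filter, mem_univ, true_and]
  have e1 : A' = A.image π := by
    ext x
    rw [hmemA', Finset.mem_image]
    constructor
    · intro hx
      refine ⟨π⁻¹ x, ?_, app_inv π x⟩
      rw [hmemA, ← h1 (π⁻¹ x), Perm.mul_apply, app_inv]
      exact hx
    · rintro ⟨z, hz, rfl⟩
      rw [hmemA] at hz
      exact (h1 z).2 hz
  have e2 : A' = A.image ρ := by
    ext x
    rw [hmemA', Finset.mem_image]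
    constructor
    · intro hx
      refine ⟨ρ⁻¹ x, ?_, app_inv ρ x⟩
      rw [hmemA, ← h2 (ρ⁻¹ x), Perm.mul_apply, app_inv]
      exact hx
    · rintro ⟨z, hz, rfl⟩
      rw [hmemA] at hz
      exact (h2 z).2 hz
  have key : A' = A := by
    refine eq_of_sum_eq A A' (fun x => (m : ℤ) - 3 - ((i x : ℤ) + j x)) ?_ ?_ ?_ ?_
    · intro x hx
      have := (hp x).1 ((hmemA x).1 hx)
      have h' : (m : ℤ) ≤ i x + j x + 2 := by exact_mod_cast this
      linarith
    · intro x hx
      have : ¬ m ≤ i x + j x + 2 := fun hle => hx ((hmemA x).2 ((hp x).2 hle))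
      have h' : ((i x : ℤ) + j x + 2) + 1 ≤ m := by exact_mod_cast not_le.1 this
      linarith only [this]
    · rw [e1]
      exact Finset.card_image_of_injective _ π.injective
    · have s1 : ∑ x ∈ A', (j x : ℤ) = ∑ x ∈ A, (j x : ℤ) := by
        rw [e1, Finset.sum_image (fun a _ b _ hab => π.injective hab)]
        exact Finset.sum_congr rfl (fun x _ => by rw [hπ x])
      have s2 : ∑ x ∈ A', (i x : ℤ) = ∑ x ∈ A, (i x : ℤ) := by
        rw [e2, Finset.sum_image (fun a _ b _ hab => ρ.injective hab)]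
        exact Finset.sum_congr rfl (fun x _ => by rw [hρ x])
      have s3 : A'.card = A.card := by
        rw [e1]
        exact Finset.card_image_of_injective _ π.injective
      simp only [sum_sub_distrib, sum_const, s3, sum_add_distrib, s2, s1]
  intro x
  rw [← hmemA', ← hmemA, key]

theorem peel_I1 (p : X → Prop) [DecidablePred p]
    (y : ({x // p x} → ℕ) → ({x // p x} → ℕ) → ℂ) (b₂ : BF {x // ¬ p x}) (c r : X → ℕ)
    (hr : ∀ x, p x ↔ r x < 2) (g : Perm X)
    (hg : ∀ π ∈ stab c, ¬ ∀ x, p ((g * π) x) ↔ p x) (w : WM X) :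
    kform (peelKer p y b₂) (wordRep X g (polyt c r)) w = 0 ∧
      kform (peelKer p y b₂) w (wordRep X g (polyt c r)) = 0 :=
  peel_polyt_eq_zero p y b₂ c r hr g hg w

theorem peel_I2 (g π : Perm X) (c r : X → ℕ) (hπ : π ∈ stab c) :
    wordRep X (g * π) (polyt c r) = ((Perm.sign π : ℤ) : ℂ) • wordRep X g (polyt c r) :=
  wordRep_mul_polyt g π c r hπ

theorem peel_I3 (p : X → Prop) [DecidablePred p]
    (y : ({x // p x} → ℕ) → ({x // p x} → ℕ) → ℂ) (b₂ : BF {x // ¬ p x}) (c c' r : X → ℕ)
    (hr : ∀ x, p x ↔ r x < 2) (h h' : Perm X) (H : ∀ x, p (h x) ↔ p x)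
    (H' : ∀ x, p (h' x) ↔ p x) :
    kform (peelKer p y b₂) (wordRep X h (polyt c r)) (wordRep X h' (polyt c' r)) =
      kform y (wordRep _ (h.subtypePerm H) (polyt (resW p c) (resW p r)))
        (wordRep _ (h'.subtypePerm H') (polyt (resW p c') (resW p r))) *
      b₂ (wordRep _ (h.subtypePerm fun x => not_congr (H x))
          (polyt (resW (fun x => ¬ p x) c) (fun x => r x.1 - 2)))
        (wordRep _ (h'.subtypePerm fun x => not_congr (H' x))
          (polyt (resW (fun x => ¬ p x) c') (fun x => r x.1 - 2))) :=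
  peel_factor p y b₂ c c' r hr h h' H H'

theorem peel_I4 {m : ℕ} {i j : X → ℕ} (_hs : IsStair m i j) (p : X → Prop)
    (hp : ∀ x, p x ↔ m ≤ i x + j x + 2) (g π ρ : Perm X) (hπ : π ∈ stab j) (hρ : ρ ∈ stab i)
    (h1 : ∀ x, p ((g * π) x) ↔ p x) (h2 : ∀ x, p ((g * ρ) x) ↔ p x) :
    ∀ x, p (g x) ↔ p x :=
  pres_of_stab p hp g π ρ hπ hρ h1 h2

end

end Vale.Agent.P197
end
end

section

section

/-!
# P197 (Saxl), module M4: instantiation of the generation lemma on the zigzag
-/

namespace Vale.Agent.P197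

open Equiv Finset
open scoped TensorProduct

set_option linter.unusedSectionVars false

noncomputable section

namespace Zig

open Kappa

variable {A : Type} {m : ℕ} {i j : A → ℕ}

theorem swapZig (hz : IsZig m i j) : IsZig m j i where
  lt x := by have := hz.lt x; omega
  le x := by have := hz.le x; omega
  inj x y h1 h2 := hz.inj x y h2 h1
  surj a b h1 h2 := by
    obtain ⟨x, hx1, hx2⟩ := hz.surj b a (by omega) (by omega)
    exact ⟨x, hx2, hx1⟩

/-- the matching of the columns `j` -/
theorem exists_match (hz : IsZig m i j) :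
    ∃ μ : Perm A, (∀ x, μ (μ x) = x) ∧ ∀ x, j (μ x) = j x ∧ (j x + 1 = m → μ x = x) ∧
      (j x + 1 < m → i (μ x) + i x + 2 * j x + 3 = 2 * m) := by
  have hex : ∀ x, ∃ y, j y = j x ∧ (j x + 1 = m → y = x) ∧
      (j x + 1 < m → i y + i x + 2 * j x + 3 = 2 * m) := by
    intro x
    have h1 := hz.lt x
    have h2 := hz.le x
    by_cases hj : j x + 1 = m
    · exact ⟨x, rfl, fun _ => rfl, fun h => by omega⟩
    · obtain ⟨y, hy1, hy2⟩ := hz.surj (2 * m - 3 - 2 * j x - i x) (j x) (by omega) (by (clear * - h1 h2; omega))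
      exact ⟨y, hy2, fun h => absurd h hj, fun _ => by omega⟩
  choose f hf1 hf2 hf3 using hex
  have hinv : ∀ x, f (f x) = x := by
    intro x
    have hlt := hz.lt x
    by_cases hj : j x + 1 = m
    · rw [hf2 x hj, hf2 x hj]
    · apply hz.inj
      · have h1 := hf3 x (by omega)
        have h2 := hf3 (f x) (by rw [hf1 x]; omega)
        rw [hf1 x] at h2
        omega
      · rw [hf1, hf1]
  exact ⟨⟨f, f, hinv, hinv⟩, hinv, fun x => ⟨hf1 x, hf2 x, hf3 x⟩⟩

variable [Fintype A] [DecidableEq A]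

theorem colGroup_eq (hz : IsZig m i j) {μ : Perm A}
    (hμ : ∀ x, j (μ x) = j x ∧ (j x + 1 = m → μ x = x) ∧
      (j x + 1 < m → i (μ x) + i x + 2 * j x + 3 = 2 * m)) :
    colGroup μ = stab j := by
  ext π
  rw [mem_colGroup, mem_stab]
  constructor
  · intro h x
    rcases h x with h | h
    · rw [h]
    · rw [h, (hμ x).1]
  · intro h x
    have h1 := hz.lt x
    have h2 := hz.le x
    have h3 := hz.lt (π x)
    have h4 := hz.le (π x)
    have h5 := h x
    by_cases hi : i (π x) = i x
    · left; exact hz.inj _ _ hi h5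
    · right
      apply hz.inj
      · have := (hμ x).2.2 (by omega)
        (clear * - h1 h2 h3 h4 h5 hi this; omega)
      · rw [h5, (hμ x).1]

theorem sep (hz : IsZig m i j) {μ : Perm A} (hinv : ∀ x, μ (μ x) = x)
    (hμ : ∀ x, j (μ x) = j x ∧ (j x + 1 = m → μ x = x) ∧
      (j x + 1 < m → i (μ x) + i x + 2 * j x + 3 = 2 * m)) {v : A}
    (hv : j v + 1 = m) : Sep μ v (r0 m i j) where
  near := by
    refine ⟨hinv, fun x => ⟨fun hx => ?_, fun hx => ?_⟩⟩
    · have h1 := hz.lt x
      have h3 := hz.lt v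
      have hjx : j x + 1 = m := by
        by_contra hc
        have := (hμ x).2.2 (by omega)
        rw [hx] at this
        omega
      apply hz.inj <;> omega
    · subst hx
      exact (hμ x).2.1 hv
  le x := by
    have h1 := hz.lt x
    have h2 := hz.le x
    simp only [r0]
    omega
  ne x hx := by
    have h1 := hz.lt x
    have h2 := hz.le x
    have h3 := hz.lt v
    have hjx : j x + 1 ≠ m := by
      intro hc
      apply hx
      apply hz.inj <;> omega
    have h4 := (hμ x).2.2 (by omega)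
    have h5 := (hμ x).1
    simp only [r0]
    omega
  zero := by
    have h3 := hz.lt v
    simp only [r0]
    omega

theorem r0_swap : r0 m i j = r0 m j i := by
  funext x
  simp only [r0]
  omega

theorem trans (hz : IsZig m i j) {μ μ' : Perm A} {v v' : A}
    (h : NearMatching μ v) (h' : NearMatching μ' v')
    (hμ : ∀ x, j (μ x) = j x ∧ (j x + 1 = m → μ x = x) ∧
      (j x + 1 < m → i (μ x) + i x + 2 * j x + 3 = 2 * m))
    (hμ' : ∀ x, i (μ' x) = i x ∧ (i x + 1 = m → μ' x = x) ∧
      (i x + 1 < m → j (μ' x) + j x + 2 * i x + 3 = 2 * m))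
    (hv' : i v' + 1 = m) : ∀ x, Orb μ μ' v' x := by
  have key : ∀ k x, j x = k → Orb μ μ' v' x := by
    intro k
    induction k with
    | zero =>
      intro x hx
      have h1 := hz.lt x
      have h2 := hz.le x
      have h3 := hz.lt v'
      by_cases hi : i x + 1 = m
      · have : x = v' := by apply hz.inj <;> omega
        rw [this]; exact Orb.base _ _ _
      · have h4 := (hμ v').2.2 (by omega)
        have h5 := (hμ v').1
        have : x = μ v' := by apply hz.inj <;> omega
        rw [this]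
        exact Orb.closed h h' (Orb.base _ _ _)
    | succ k ih =>
      intro x hx
      have h1 := hz.lt x
      have h2 := hz.le x
      -- the cell `(m - 2 - k, k + 1)`
      have top : ∀ y, j y = k + 1 → i y + j y + 1 = m → Orb μ μ' v' y := by
        intro y hy1 hy2
        have h6 := (hμ' y).1
        have h7 := (hμ' y).2.2 (by omega)
        have h8 : Orb μ μ' v' (μ' y) := ih _ (by omega)
        have := Orb.closed' h h' h8
        rwa [h'.invol] at this
      by_cases hi : i x + j x + 1 = m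
      · exact top x hx hi
      · have h4 := (hμ x).2.2 (by omega)
        have h5 := (hμ x).1
        have h8 := top (μ x) (by omega) (by omega)
        have := Orb.closed h h' h8
        rwa [h.invol] at this
  intro x
  exact key _ x rfl

/-- the permutation representation over `ℤ` -/
def repZ (A : Type) : Representation ℤ (Perm A) (WM A) where
  toFun g := (wordRep A g).restrictScalars ℤ
  map_one' := by
    refine LinearMap.ext fun v => ?_
    rw [map_one]
    rfl
  map_mul' g h := by
    refine LinearMap.ext fun v => ?_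
    rw [map_mul]
    rfl

theorem repZ_apply (g : Perm A) (v : WM A) : repZ A g v = wordRep A g v := rfl

/-- the tensor product as a bilinear map over `ℤ` -/
def tens (A : Type) : WM A →ₗ[ℤ] WM A →ₗ[ℤ] (WM A ⊗[ℂ] WM A) :=
  LinearMap.mk₂ ℤ (fun v w => v ⊗ₜ[ℂ] w) (fun a b c => TensorProduct.add_tmul a b c)
    (fun n a b => by
      rw [← Int.cast_smul_eq_zsmul ℂ n a, ← Int.cast_smul_eq_zsmul ℂ n (a ⊗ₜ[ℂ] b)]
      rfl)
    (fun a b c => TensorProduct.tmul_add a b c)
    (fun n a b => by
      rw [← Int.cast_smul_eq_zsmul ℂ n b, ← Int.cast_smul_eq_zsmul ℂ n (a ⊗ₜ[ℂ] b),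
        TensorProduct.tmul_smul])

theorem ee_eq {μ : Perm A} {c r : A → ℕ} (h : colGroup μ = stab c) :
    ee (repZ A) μ (Finsupp.single r 1) = polyt c r := by
  unfold ee polyt
  rw [h]
  refine Finset.sum_congr rfl (fun π _ => ?_)
  rw [repZ_apply, wordRep_single, ← Int.cast_smul_eq_zsmul ℂ]

end Zig

open Zig Kappa

/-- The generation lemma on the zigzag, for an arbitrary bilinear map. -/
theorem zig_gen_bilin {A : Type} [Fintype A] [DecidableEq A] {m : ℕ} {i j : A → ℕ}
    (hz : IsZig m i j) {N : Type*} [AddCommMonoid N] [Module ℤ N]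
    (B : WM A →ₗ[ℤ] WM A →ₗ[ℤ] N) (a a' : Perm A) :
    B (wordRep A a (e0 m i j)) (wordRep A a' (e0 m i j)) ∈
      Submodule.span ℤ (Set.range fun g : Perm A =>
        B (wordRep A g (e0 m i j)) (wordRep A g (e1 m i j))) := by
  rcases Nat.eq_zero_or_pos m with hm | hm
  · subst hm
    have hemp : IsEmpty A := ⟨fun x => by have := hz.lt x; omega⟩
    have h1 : ∀ g : Perm A, g = 1 := fun g => Subsingleton.elim _ _
    have h2 : i = j := Subsingleton.elim _ _
    rw [h1 a, h1 a']
    refine Submodule.subset_span ⟨1, ?_⟩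
    simp only [e0, e1, h2]
  · obtain ⟨μ, hinv, hμ⟩ := exists_match hz
    obtain ⟨μ', hinv', hμ'⟩ := exists_match (swapZig hz)
    obtain ⟨v, hv1, hv2⟩ := hz.surj 0 (m - 1) (by omega) (by omega)
    obtain ⟨v', hv1', hv2'⟩ := hz.surj (m - 1) 0 (by omega) (by omega)
    have hs := sep hz hinv hμ (v := v) (by omega)
    have hs' := sep (swapZig hz) hinv' hμ' (v := v') (by omega)
    rw [← r0_swap] at hs'
    have ht := trans hz hs.near hs'.near hμ hμ' (by omega)
    have hw : ∀ g : Perm A, r0 m i j ∘ g = r0 m i j →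
        repZ A g (Finsupp.single (r0 m i j) 1) = Finsupp.single (r0 m i j) 1 := by
      intro g hg
      rw [repZ_apply, wordRep_single]
      congr 1
      conv_lhs => rw [← hg]
      funext x
      simp
    have := gen (repZ A) hs hs' hw ht B a a'
    rw [ee_eq (colGroup_eq hz hμ), ee_eq (colGroup_eq (swapZig hz) hμ')] at this
    exact this

/-- The generation lemma on the zigzag, tensor form. -/
theorem zig_gen {A : Type} [Fintype A] [DecidableEq A] {m : ℕ} {i j : A → ℕ}
    (hz : IsZig m i j) (a a' : Perm A) :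
    (wordRep A a (e0 m i j)) ⊗ₜ[ℂ] (wordRep A a' (e0 m i j)) ∈
      Submodule.span ℤ (Set.range fun g : Perm A =>
        (wordRep A g (e0 m i j)) ⊗ₜ[ℂ] (wordRep A g (e1 m i j))) := by
  exact zig_gen_bilin hz (tens A) a a'

end

end Vale.Agent.P197
end
end

section

section

/-!
# The peeling step: goodness of the peeled form
-/

namespace Vale.Agent.P197

open Equiv Finset
open scoped TensorProduct

noncomputable section

variable {X : Type} [Fintype X] [DecidableEq X]

/-- `glueFn` is additive in the second function; packaged as a linear map. -/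
def glueL (p : X → Prop) [DecidablePred p] (FA : Perm {x // p x} → ℂ) (k : Perm X) :
    (Perm {x // ¬ p x} → ℂ) →ₗ[ℤ] (Perm X → ℂ) where
  toFun FB := fun h => glueFn p FA FB (h * k)
  map_add' F G := by
    funext h
    simp only [glueFn, Pi.add_apply]
    split_ifs
    · ring
    · ring
  map_smul' c F := by
    funext h
    simp only [glueFn, Pi.smul_apply, RingHom.id_apply, zsmul_eq_mul]
    split_ifs
    · ring
    · ring

/-- `glueFn` is additive in the first function; packaged as a linear map. -/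
def glueR (p : X → Prop) [DecidablePred p] (FB : Perm {x // ¬ p x} → ℂ) (k : Perm X) :
    (Perm {x // p x} → ℂ) →ₗ[ℤ] (Perm X → ℂ) where
  toFun FA := fun h => glueFn p FA FB (h * k)
  map_add' F G := by
    funext h
    simp only [glueFn, Pi.add_apply]
    split_ifs
    · ring
    · ring
  map_smul' c F := by
    funext h
    simp only [glueFn, Pi.smul_apply, RingHom.id_apply, zsmul_eq_mul]
    split_ifs
    · ring
    · ring

/-- The function on `Perm X` attached to a bilinear form and a tensor. -/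
def FnT (b : BF X) : WM X ⊗[ℂ] WM X →ₗ[ℤ] (Perm X → ℂ) where
  toFun t := fun h => TensorProduct.lift (b.compl₁₂ (wordRep X h) (wordRep X h)) t
  map_add' s t := by
    funext h
    simp
  map_smul' c t := by
    funext h
    simp only [RingHom.id_apply, Pi.smul_apply]
    exact map_zsmul _ c t

omit [Fintype X] [DecidableEq X] in
theorem FnT_tmul (b : BF X) (v w : WM X) : FnT b (v ⊗ₜ[ℂ] w) = Fn b v w := by
  funext h
  simp only [FnT, LinearMap.coe_mk, AddHom.coe_mk, TensorProduct.lift.tmul, LinearMap.compl₁₂_apply, Fn]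

omit [Fintype X] [DecidableEq X] in
theorem Fn_mul (b : BF X) (v w : WM X) (h k : Perm X) :
    Fn b v w (h * k) = Fn b (wordRep X k v) (wordRep X k w) h := by
  simp only [Fn, map_mul, Module.End.mul_apply]

omit [Fintype X] [DecidableEq X] in
theorem Fn_smul (b : BF X) (v w : WM X) (a a' : ℂ) (h : Perm X) :
    Fn b (a • v) (a' • w) h = a * a' * Fn b v w h := by
  simp only [Fn, map_smul, LinearMap.smul_apply, smul_eq_mul]
  ring

/-- The module of functions attached to the peeled form. -/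
def peelQ (p : X → Prop) [DecidablePred p] (m : ℕ) (i j : X → ℕ)
    (y : ({x // p x} → ℕ) → ({x // p x} → ℕ) → ℂ)
    (Q₂ : Submodule ℤ (Perm {x // ¬ p x} → ℂ)) : Submodule ℤ (Perm X → ℂ) :=
  ⨆ t : Perm {x // p x} × Perm {x // p x} × Perm X,
    Q₂.map (glueL p (Fn (kform y) (wordRep _ t.1 (e0 m (resW p i) (resW p j)))
      (wordRep _ t.2.1 (e0 m (resW p i) (resW p j)))) t.2.2)

theorem mem_peelQ (p : X → Prop) [DecidablePred p] (m : ℕ) (i j : X → ℕ)
    (y : ({x // p x} → ℕ) → ({x // p x} → ℕ) → ℂ)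
    (Q₂ : Submodule ℤ (Perm {x // ¬ p x} → ℂ)) (a a' : Perm {x // p x}) (k : Perm X)
    {F₂ : Perm {x // ¬ p x} → ℂ} (hF : F₂ ∈ Q₂) :
    (fun h => glueFn p (Fn (kform y) (wordRep _ a (e0 m (resW p i) (resW p j)))
      (wordRep _ a' (e0 m (resW p i) (resW p j)))) F₂ (h * k)) ∈ peelQ p m i j y Q₂ := by
  have h1 : glueL p (Fn (kform y) (wordRep _ a (e0 m (resW p i) (resW p j)))
      (wordRep _ a' (e0 m (resW p i) (resW p j)))) k F₂ ∈
      Q₂.map (glueL p (Fn (kform y) (wordRep _ a (e0 m (resW p i) (resW p j)))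
      (wordRep _ a' (e0 m (resW p i) (resW p j)))) k) := Submodule.mem_map_of_mem hF
  exact (le_iSup (fun t : Perm {x // p x} × Perm {x // p x} × Perm X =>
    Q₂.map (glueL p (Fn (kform y) (wordRep _ t.1 (e0 m (resW p i) (resW p j)))
      (wordRep _ t.2.1 (e0 m (resW p i) (resW p j)))) t.2.2)) (a, a', k)) h1

theorem peelQ_fg (p : X → Prop) [DecidablePred p] (m : ℕ) (i j : X → ℕ)
    (y : ({x // p x} → ℕ) → ({x // p x} → ℕ) → ℂ)
    (Q₂ : Submodule ℤ (Perm {x // ¬ p x} → ℂ)) (hfg : Q₂.FG) :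
    (peelQ p m i j y Q₂).FG :=
  Submodule.fg_iSup _ (fun _ => hfg.map _)

/-- Right translation as a linear map. -/
def transL (g : Perm X) : (Perm X → ℂ) →ₗ[ℤ] (Perm X → ℂ) where
  toFun F := fun h => F (h * g)
  map_add' _ _ := rfl
  map_smul' _ _ := rfl

theorem peelQ_stable (p : X → Prop) [DecidablePred p] (m : ℕ) (i j : X → ℕ)
    (y : ({x // p x} → ℕ) → ({x // p x} → ℕ) → ℂ)
    (Q₂ : Submodule ℤ (Perm {x // ¬ p x} → ℂ)) (g : Perm X) (F : Perm X → ℂ)
    (hF : F ∈ peelQ p m i j y Q₂) : (fun h => F (h * g)) ∈ peelQ p m i j y Q₂ := by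
  have hle : peelQ p m i j y Q₂ ≤ (peelQ p m i j y Q₂).comap (transL g) := by
    refine iSup_le ?_
    rintro ⟨a, a', k⟩
    rw [Submodule.map_le_iff_le_comap]
    intro F₂ hF₂
    have h1 := mem_peelQ p m i j y Q₂ a a' (g * k) hF₂
    simp only [← mul_assoc] at h1
    exact h1
  exact hle hF

omit [Fintype X] [DecidableEq X] in
theorem pres_mul {p : X → Prop} {g h : Perm X} (hg : ∀ x, p (g x) ↔ p x)
    (hh : ∀ x, p (h x) ↔ p x) : ∀ x, p ((g * h) x) ↔ p x :=
  fun x => (hg (h x)).trans (hh x)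

omit [Fintype X] [DecidableEq X] in
theorem pres_inv {p : X → Prop} {g : Perm X} (hg : ∀ x, p (g x) ↔ p x) :
    ∀ x, p (g⁻¹ x) ↔ p x := by
  intro x
  have := hg (g⁻¹ x)
  simpa using this.symm

/-- The peeled form on permutations preserving `p`. -/
theorem Fn_pres (p : X → Prop) [DecidablePred p]
    (y : ({x // p x} → ℕ) → ({x // p x} → ℕ) → ℂ) (b₂ : BF {x // ¬ p x}) (c c' r : X → ℕ)
    (hr : ∀ x, p x ↔ r x < 2) (u u' : Perm X) (U : ∀ x, p (u x) ↔ p x)
    (U' : ∀ x, p (u' x) ↔ p x) (h : Perm X) (H : ∀ x, p (h x) ↔ p x) :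
    Fn (kform (peelKer p y b₂)) (wordRep X u (polyt c r)) (wordRep X u' (polyt c' r)) h =
      glueFn p
        (Fn (kform y) (wordRep _ (u.subtypePerm U) (polyt (resW p c) (resW p r)))
          (wordRep _ (u'.subtypePerm U') (polyt (resW p c') (resW p r))))
        (Fn b₂ (wordRep _ (u.subtypePerm fun x => not_congr (U x))
            (polyt (resW (fun x => ¬ p x) c) (fun x => r x.1 - 2)))
          (wordRep _ (u'.subtypePerm fun x => not_congr (U' x))
            (polyt (resW (fun x => ¬ p x) c') (fun x => r x.1 - 2)))) h := by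
  unfold glueFn
  rw [dif_pos H]
  unfold Fn
  rw [← Module.End.mul_apply, ← Module.End.mul_apply, ← Module.End.mul_apply,
    ← Module.End.mul_apply, ← Module.End.mul_apply, ← Module.End.mul_apply,
    ← map_mul, ← map_mul, ← map_mul, ← map_mul, ← map_mul, ← map_mul,
    Perm.subtypePerm_mul, Perm.subtypePerm_mul, Perm.subtypePerm_mul, Perm.subtypePerm_mul]
  exact peel_I3 p y b₂ c c' r hr (h * u) (h * u') (pres_mul H U) (pres_mul H U')

theorem e0_restrict_right (p : X → Prop) [DecidablePred p] {m : ℕ} (i j : X → ℕ) :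
    polyt (resW (fun x => ¬ p x) j) (fun x : {x // ¬ p x} => r0 m i j x.1 - 2) =
      e0 (m - 2) (resW (fun x => ¬ p x) i) (resW (fun x => ¬ p x) j) := by
  unfold e0
  congr 1
  funext x
  simp only [r0, resW]
  omega

theorem e1_restrict_right (p : X → Prop) [DecidablePred p] {m : ℕ} (i j : X → ℕ) :
    polyt (resW (fun x => ¬ p x) i) (fun x : {x // ¬ p x} => r0 m i j x.1 - 2) =
      e1 (m - 2) (resW (fun x => ¬ p x) i) (resW (fun x => ¬ p x) j) := by
  unfold e1
  congr 1
  funext x
  simp only [r0, resW]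
  omega

omit [Fintype X] [DecidableEq X] in
theorem hr_of_stair (p : X → Prop) {m : ℕ} {i j : X → ℕ} (hs : IsStair m i j)
    (hp : ∀ x, p x ↔ m ≤ i x + j x + 2) (x : X) : p x ↔ r0 m i j x < 2 := by
  rw [hp x]
  have := hs.lt x
  simp only [r0]
  omega

theorem peelQ_mem (p : X → Prop) [DecidablePred p] {m : ℕ} {i j : X → ℕ}
    (hs : IsStair m i j) (hp : ∀ x, p x ↔ m ≤ i x + j x + 2)
    (y : ({x // p x} → ℕ) → ({x // p x} → ℕ) → ℂ) (b₂ : BF {x // ¬ p x})
    (Q₂ : Submodule ℤ (Perm {x // ¬ p x} → ℂ))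
    (h₂ : Good (m - 2) (resW (fun x => ¬ p x) i) (resW (fun x => ¬ p x) j) b₂ Q₂)
    (g g' : Perm X) :
    Fn (kform (peelKer p y b₂)) (wordRep X g (e0 m i j)) (wordRep X g' (e0 m i j)) ∈
      peelQ p m i j y Q₂ := by
  classical
  have hr := hr_of_stair p hs hp
  set F := Fn (kform (peelKer p y b₂)) (wordRep X g (e0 m i j)) (wordRep X g' (e0 m i j)) with hF
  -- decomposition over cosets
  have hsum : F = ∑ S : Finset X, fun h : Perm X =>
      if Finset.univ.filter (fun x => p (h x)) = S then F h else 0 := by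
    funext h
    rw [Finset.sum_apply]
    simp only [sum_ite_eq, mem_univ, ↓reduceIte]
  rw [hsum]
  refine Submodule.sum_mem _ (fun S _ => ?_)
  by_cases hS : ∃ k : Perm X, Finset.univ.filter (fun x => p (k x)) = S
  swap
  · have h0 : (fun h : Perm X =>
        if Finset.univ.filter (fun x => p (h x)) = S then F h else 0) = 0 := by
      funext h
      rw [if_neg (fun hh => hS ⟨h, hh⟩)]
      rfl
    rw [h0]
    exact Submodule.zero_mem _
  obtain ⟨k, rfl⟩ := hS
  have hcos : ∀ h : Perm X, (Finset.univ.filter (fun x => p (h x)) =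
      Finset.univ.filter (fun x => p (k x))) ↔ ∀ x, p ((h * k⁻¹) x) ↔ p x := by
    intro h
    rw [Finset.ext_iff]
    simp only [Finset.mem_filter, Finset.mem_univ, true_and]
    constructor
    · intro hh x
      have := hh (k⁻¹ x)
      simpa only [Perm.coe_mul, Perm.coe_inv, Function.comp_apply, apply_symm_apply] using this
    · intro hh x
      have := hh (k x)
      simpa only [Perm.coe_mul, Perm.coe_inv, Function.comp_apply, symm_apply_apply] using this
  -- the two cases for each argument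
  by_cases h1 : ∀ π ∈ stab j, ¬ ∀ x, p ((k * g * π) x) ↔ p x
  · have h0 : (fun h : Perm X => if Finset.univ.filter (fun x => p (h x)) =
        Finset.univ.filter (fun x => p (k x)) then F h else 0) = 0 := by
      funext h
      by_cases hh : Finset.univ.filter (fun x => p (h x)) =
        Finset.univ.filter (fun x => p (k x))
      · rw [if_pos hh]
        rw [hcos] at hh
        have h3 : ∀ π ∈ stab j, ¬ ∀ x, p ((h * g * π) x) ↔ p x := by
          intro π hπ hcon
          apply h1 π hπ
          have := pres_mul (pres_inv hh) hcon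
          have e : (h * k⁻¹)⁻¹ * (h * g * π) = k * g * π := by group
          rw [e] at this
          exact this
        have h4 := (peel_I1 p y b₂ j (r0 m i j) hr (h * g) h3
          (wordRep X h (wordRep X g' (e0 m i j)))).1
        rw [map_mul, Module.End.mul_apply] at h4
        exact h4
      · rw [if_neg hh]
        rfl
    rw [h0]
    exact Submodule.zero_mem _
  by_cases h2 : ∀ π ∈ stab j, ¬ ∀ x, p ((k * g' * π) x) ↔ p x
  · have h0 : (fun h : Perm X => if Finset.univ.filter (fun x => p (h x)) =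
        Finset.univ.filter (fun x => p (k x)) then F h else 0) = 0 := by
      funext h
      by_cases hh : Finset.univ.filter (fun x => p (h x)) =
        Finset.univ.filter (fun x => p (k x))
      · rw [if_pos hh]
        rw [hcos] at hh
        have h3 : ∀ π ∈ stab j, ¬ ∀ x, p ((h * g' * π) x) ↔ p x := by
          intro π hπ hcon
          apply h2 π hπ
          have := pres_mul (pres_inv hh) hcon
          have e : (h * k⁻¹)⁻¹ * (h * g' * π) = k * g' * π := by group
          rw [e] at this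
          exact this
        have h4 := (peel_I1 p y b₂ j (r0 m i j) hr (h * g') h3
          (wordRep X h (wordRep X g (e0 m i j)))).2
        rw [map_mul, Module.End.mul_apply] at h4
        exact h4
      · rw [if_neg hh]
        rfl
    rw [h0]
    exact Submodule.zero_mem _
  push Not at h1 h2
  obtain ⟨π, hπ, U⟩ := h1
  obtain ⟨π', hπ', U'⟩ := h2
  have hF₂ := h₂.mem ((k * g * π).subtypePerm fun x => not_congr (U x))
    ((k * g' * π').subtypePerm fun x => not_congr (U' x))
  have hmem := mem_peelQ p m i j y Q₂ ((k * g * π).subtypePerm U)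
    ((k * g' * π').subtypePerm U') k⁻¹ hF₂
  have hmem' := Submodule.smul_mem (peelQ p m i j y Q₂)
    ((Perm.sign π : ℤ) * (Perm.sign π' : ℤ)) hmem
  convert hmem' using 1
  funext h
  rw [Pi.smul_apply, zsmul_eq_mul]
  by_cases hh : Finset.univ.filter (fun x => p (h x)) =
      Finset.univ.filter (fun x => p (k x))
  · rw [if_pos hh]
    rw [hcos] at hh
    have e1 := Fn_pres p y b₂ j j (r0 m i j) hr (k * g * π) (k * g' * π') U U' (h * k⁻¹) hh
    rw [e0_restrict_right p i j] at e1
    have e2 : glueFn p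
        (Fn (kform y) (wordRep _ ((k * g * π).subtypePerm U) (e0 m (resW p i) (resW p j)))
          (wordRep _ ((k * g' * π').subtypePerm U') (e0 m (resW p i) (resW p j))))
        (Fn b₂ (wordRep _ ((k * g * π).subtypePerm fun x => not_congr (U x))
          (e0 (m - 2) (resW (fun x => ¬ p x) i) (resW (fun x => ¬ p x) j)))
          (wordRep _ ((k * g' * π').subtypePerm fun x => not_congr (U' x))
          (e0 (m - 2) (resW (fun x => ¬ p x) i) (resW (fun x => ¬ p x) j)))) (h * k⁻¹) =
        Fn (kform (peelKer p y b₂)) (wordRep X (k * g * π) (polyt j (r0 m i j)))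
          (wordRep X (k * g' * π') (polyt j (r0 m i j))) (h * k⁻¹) := e1.symm
    rw [e2, peel_I2 (k * g) π j (r0 m i j) hπ, peel_I2 (k * g') π' j (r0 m i j) hπ', Fn_smul]
    have e3 : Fn (kform (peelKer p y b₂)) (wordRep X (k * g) (polyt j (r0 m i j)))
        (wordRep X (k * g') (polyt j (r0 m i j))) (h * k⁻¹) = F h := by
      rw [hF]
      unfold Fn
      rw [← Module.End.mul_apply, ← Module.End.mul_apply, ← Module.End.mul_apply,
        ← Module.End.mul_apply, ← map_mul, ← map_mul, ← map_mul, ← map_mul]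
      have a1 : h * k⁻¹ * (k * g) = h * g := by group
      have a2 : h * k⁻¹ * (k * g') = h * g' := by group
      rw [a1, a2]
      rfl
    rw [e3]
    have s1 : ((Perm.sign π : ℤ) : ℂ) * ((Perm.sign π : ℤ) : ℂ) = 1 := by
      rw [← Int.cast_mul, ← Units.val_mul, Int.units_mul_self]
      simp
    have s2 : ((Perm.sign π' : ℤ) : ℂ) * ((Perm.sign π' : ℤ) : ℂ) = 1 := by
      rw [← Int.cast_mul, ← Units.val_mul, Int.units_mul_self]
      simp
    push_cast
    linear_combination (-(F h)) * s1 + (-(F h)) * ((Perm.sign π : ℤ) : ℂ) *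
      ((Perm.sign π : ℤ) : ℂ) * s2
  · rw [if_neg hh]
    rw [hcos] at hh
    unfold glueFn
    rw [dif_neg hh, mul_zero]

/-- The peeled form on the translates of `e0 ⊗ e1` by permutations preserving `p`. -/
theorem glue_eq (p : X → Prop) [DecidablePred p] {m : ℕ} {i j : X → ℕ}
    (hs : IsStair m i j) (hp : ∀ x, p x ↔ m ≤ i x + j x + 2)
    (y : ({x // p x} → ℕ) → ({x // p x} → ℕ) → ℂ) (b₂ : BF {x // ¬ p x})
    (a : Perm {x // p x}) (κ : Perm {x // ¬ p x}) (h : Perm X) :
    glueFn p (Fn (kform y) (wordRep _ a (e0 m (resW p i) (resW p j)))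
      (wordRep _ a (e1 m (resW p i) (resW p j))))
      (Fn b₂ (wordRep _ κ (e0 (m - 2) (resW (fun x => ¬ p x) i) (resW (fun x => ¬ p x) j)))
        (wordRep _ κ (e1 (m - 2) (resW (fun x => ¬ p x) i) (resW (fun x => ¬ p x) j)))) h =
    Fn (kform (peelKer p y b₂)) (wordRep X (Perm.subtypeCongr a κ) (e0 m i j))
      (wordRep X (Perm.subtypeCongr a κ) (e1 m i j)) h := by
  have hr := hr_of_stair p hs hp
  have C := subtypeCongr_preserve p a κ
  by_cases H : ∀ x, p (h x) ↔ p x
  · have e1' := Fn_pres p y b₂ j i (r0 m i j) hr (Perm.subtypeCongr a κ)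
      (Perm.subtypeCongr a κ) C C h H
    rw [e0_restrict_right p i j, e1_restrict_right p i j] at e1'
    have hA : (Perm.subtypeCongr a κ).subtypePerm C = a := by
      ext x
      simp
    have hB : ((Perm.subtypeCongr a κ).subtypePerm fun x => not_congr (C x)) = κ := by
      ext x
      simp only [Perm.subtypePerm_apply]
      rw [Perm.subtypeCongr.right_apply _ _ x.2]
    rw [hA, hB] at e1'
    exact e1'.symm
  · have hz : glueFn p (Fn (kform y) (wordRep _ a (e0 m (resW p i) (resW p j)))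
      (wordRep _ a (e1 m (resW p i) (resW p j))))
      (Fn b₂ (wordRep _ κ (e0 (m - 2) (resW (fun x => ¬ p x) i) (resW (fun x => ¬ p x) j)))
        (wordRep _ κ (e1 (m - 2) (resW (fun x => ¬ p x) i) (resW (fun x => ¬ p x) j)))) h =
        0 := by
      unfold glueFn
      rw [dif_neg H]
    rw [hz]
    symm
    unfold Fn
    rw [← Module.End.mul_apply, ← Module.End.mul_apply, ← map_mul]
    by_cases h1 : ∀ π ∈ stab j, ¬ ∀ x, p ((h * Perm.subtypeCongr a κ * π) x) ↔ p x
    · exact (peel_I1 p y b₂ j (r0 m i j) hr _ h1 _).1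
    by_cases h2 : ∀ π ∈ stab i, ¬ ∀ x, p ((h * Perm.subtypeCongr a κ * π) x) ↔ p x
    · exact (peel_I1 p y b₂ i (r0 m i j) hr _ h2 _).2
    exfalso
    push Not at h1 h2
    obtain ⟨π, hπ, U⟩ := h1
    obtain ⟨ρ, hρ, U'⟩ := h2
    apply H
    have h3 := peel_I4 hs p hp (h * Perm.subtypeCongr a κ) π ρ hπ hρ U U'
    have h4 := pres_mul h3 (pres_inv C)
    rw [mul_inv_cancel_right] at h4
    exact h4

omit [Fintype X] [DecidableEq X] in
theorem isZig_of_stair (p : X → Prop) [DecidablePred p] {m : ℕ} {i j : X → ℕ}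
    (hs : IsStair m i j) (hp : ∀ x, p x ↔ m ≤ i x + j x + 2) :
    IsZig m (resW p i) (resW p j) where
  lt x := hs.lt x.1
  le x := (hp x.1).mp x.2
  inj x x' h1 h2 := Subtype.ext (hs.inj x.1 x'.1 h1 h2)
  surj a b h1 h2 := by
    obtain ⟨x, hx1, hx2⟩ := hs.surj a b h1
    exact ⟨⟨x, (hp x).mpr (by omega)⟩, hx1, hx2⟩

theorem peelQ_gen (p : X → Prop) [DecidablePred p] {m : ℕ} {i j : X → ℕ}
    (hs : IsStair m i j) (hp : ∀ x, p x ↔ m ≤ i x + j x + 2)
    (y : ({x // p x} → ℕ) → ({x // p x} → ℕ) → ℂ) (b₂ : BF {x // ¬ p x})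
    (Q₂ : Submodule ℤ (Perm {x // ¬ p x} → ℂ))
    (h₂ : Good (m - 2) (resW (fun x => ¬ p x) i) (resW (fun x => ¬ p x) j) b₂ Q₂)
    (F : Perm X → ℂ) (hF : F ∈ peelQ p m i j y Q₂) :
    ∃ F' ∈ Submodule.span ℤ (Set.range fun k : Perm X =>
      Fn (kform (peelKer p y b₂)) (wordRep X k (e0 m i j)) (wordRep X k (e1 m i j))),
      ∃ F'' ∈ peelQ p m i j y Q₂, F = F' + (2 : ℤ) • F'' := by
  set N := Submodule.span ℤ (Set.range fun k : Perm X =>
      Fn (kform (peelKer p y b₂)) (wordRep X k (e0 m i j)) (wordRep X k (e1 m i j))) with hN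
  have hzig := isZig_of_stair p hs hp
  -- generators
  have key1 : ∀ (k : Perm X) (a : Perm {x // p x}) (κ : Perm {x // ¬ p x}),
      (fun h => glueFn p (Fn (kform y) (wordRep _ a (e0 m (resW p i) (resW p j)))
      (wordRep _ a (e1 m (resW p i) (resW p j))))
      (Fn b₂ (wordRep _ κ (e0 (m - 2) (resW (fun x => ¬ p x) i) (resW (fun x => ¬ p x) j)))
        (wordRep _ κ (e1 (m - 2) (resW (fun x => ¬ p x) i) (resW (fun x => ¬ p x) j))))
        (h * k)) ∈ N := by
    intro k a κ
    refine Submodule.subset_span ⟨k * Perm.subtypeCongr a κ, ?_⟩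
    funext h
    rw [glue_eq p hs hp y b₂ a κ (h * k), Fn_mul]
    simp only [map_mul, Module.End.mul_apply]
  have key2 : ∀ (k : Perm X) (a a' : Perm {x // p x}) (κ : Perm {x // ¬ p x}),
      (fun h => glueFn p (Fn (kform y) (wordRep _ a (e0 m (resW p i) (resW p j)))
      (wordRep _ a' (e0 m (resW p i) (resW p j))))
      (Fn b₂ (wordRep _ κ (e0 (m - 2) (resW (fun x => ¬ p x) i) (resW (fun x => ¬ p x) j)))
        (wordRep _ κ (e1 (m - 2) (resW (fun x => ¬ p x) i) (resW (fun x => ¬ p x) j))))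
        (h * k)) ∈ N := by
    intro k a a' κ
    have hle : Submodule.span ℤ (Set.range fun g : Perm {x // p x} =>
        (wordRep _ g (e0 m (resW p i) (resW p j))) ⊗ₜ[ℂ]
          (wordRep _ g (e1 m (resW p i) (resW p j)))) ≤
        N.comap ((glueR p (Fn b₂
          (wordRep _ κ (e0 (m - 2) (resW (fun x => ¬ p x) i) (resW (fun x => ¬ p x) j)))
          (wordRep _ κ (e1 (m - 2) (resW (fun x => ¬ p x) i) (resW (fun x => ¬ p x) j)))) k).comp
          (FnT (kform y))) := by
      rw [Submodule.span_le]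
      rintro _ ⟨g, rfl⟩
      change glueR p _ k (FnT (kform y) _) ∈ N
      rw [FnT_tmul]
      exact key1 k g κ
    have h1 := hle (zig_gen hzig a a')
    change glueR p _ k (FnT (kform y) _) ∈ N at h1
    rw [FnT_tmul] at h1
    exact h1
  have key3 : ∀ (k : Perm X) (a a' : Perm {x // p x}), ∀ F₂ ∈
      Submodule.span ℤ (Set.range fun κ : Perm {x // ¬ p x} =>
      Fn b₂ (wordRep _ κ (e0 (m - 2) (resW (fun x => ¬ p x) i) (resW (fun x => ¬ p x) j)))
        (wordRep _ κ (e1 (m - 2) (resW (fun x => ¬ p x) i) (resW (fun x => ¬ p x) j)))),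
      glueL p (Fn (kform y) (wordRep _ a (e0 m (resW p i) (resW p j)))
        (wordRep _ a' (e0 m (resW p i) (resW p j)))) k F₂ ∈ N := by
    intro k a a' F₂ hF₂
    have hle : Submodule.span ℤ (Set.range fun κ : Perm {x // ¬ p x} =>
      Fn b₂ (wordRep _ κ (e0 (m - 2) (resW (fun x => ¬ p x) i) (resW (fun x => ¬ p x) j)))
        (wordRep _ κ (e1 (m - 2) (resW (fun x => ¬ p x) i) (resW (fun x => ¬ p x) j)))) ≤
        N.comap (glueL p (Fn (kform y) (wordRep _ a (e0 m (resW p i) (resW p j)))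
        (wordRep _ a' (e0 m (resW p i) (resW p j)))) k) := by
      rw [Submodule.span_le]
      rintro _ ⟨κ, rfl⟩
      exact key2 k a a' κ
    exact hle hF₂
  have hle : peelQ p m i j y Q₂ ≤ N ⊔ (peelQ p m i j y Q₂).map ((2 : ℤ) • LinearMap.id) := by
    refine iSup_le ?_
    rintro ⟨a, a', k⟩
    rw [Submodule.map_le_iff_le_comap]
    intro F₂ hF₂
    obtain ⟨F₂', hF₂', F₂'', hF₂'', rfl⟩ := h₂.gen F₂ hF₂
    rw [Submodule.mem_comap, map_add, map_smul]
    refine Submodule.add_mem_sup (key3 k a a' F₂' hF₂') ?_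
    exact ⟨_, mem_peelQ p m i j y Q₂ a a' k hF₂'', rfl⟩
  obtain ⟨F', hF', G, hG, hsum⟩ := Submodule.mem_sup.mp (hle hF)
  obtain ⟨F'', hF'', rfl⟩ := hG
  exact ⟨F', hF', F'', hF'', hsum.symm⟩

/-- The swap of the two coordinates of the top band. -/
theorem exists_swap {A : Type} [Fintype A] [DecidableEq A] {m : ℕ} {i j : A → ℕ}
    (hz : IsZig m i j) : ∃ τ : Perm A, wordRep A τ (e0 m i j) = e1 m i j := by
  have hex : ∀ x : A, ∃ x' : A, i x' = j x ∧ j x' = i x := by
    intro x
    have h1 := hz.lt x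
    have h2 := hz.le x
    exact hz.surj (j x) (i x) (by omega) (by omega)
  choose f hf1 hf2 using hex
  have hinj : ∀ x, f (f x) = x := by
    intro x
    apply hz.inj
    · rw [hf1, hf2]
    · rw [hf2, hf1]
  let τ : Perm A := ⟨f, f, hinj, hinj⟩
  refine ⟨τ, ?_⟩
  unfold e0 e1
  rw [wordRep_polyt]
  have hτ : (⇑(τ⁻¹ : Perm A)) = f := rfl
  rw [hτ]
  congr 1
  · funext x
    exact hf2 x
  · funext x
    simp only [Function.comp, r0]
    rw [hf1, hf2]
    omega

/-- **Peeling step.** -/
theorem peel_good {m : ℕ} {i j : X → ℕ}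
    (hm : 2 ≤ m) (hs : IsStair m i j) (p : X → Prop) [DecidablePred p]
    (hp : ∀ x, p x ↔ m ≤ i x + j x + 2)
    (y : ({x // p x} → ℕ) → ({x // p x} → ℕ) → ℂ) (b₂ : BF {x // ¬ p x})
    (Q₂ : Submodule ℤ (Perm {x // ¬ p x} → ℂ))
    (h₂ : Good (m - 2) (resW (fun x => ¬ p x) i) (resW (fun x => ¬ p x) j) b₂ Q₂) :
    ∃ Q : Submodule ℤ (Perm X → ℂ), Good m i j (kform (peelKer p y b₂)) Q ∧
      ∀ F₂ ∈ Q₂, glueFn p (Fn (kform y) (e0 m (resW p i) (resW p j))
        (e1 m (resW p i) (resW p j))) F₂ ∈ Q := by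
  have _ := hm
  refine ⟨peelQ p m i j y Q₂, ⟨peelQ_fg p m i j y Q₂ h₂.fg, ?_, ?_, ?_⟩, ?_⟩
  · exact fun g F hF => peelQ_stable p m i j y Q₂ g F hF
  · exact fun g g' => peelQ_mem p hs hp y b₂ Q₂ h₂ g g'
  · exact fun F hF => peelQ_gen p hs hp y b₂ Q₂ h₂ F hF
  · intro F₂ hF₂
    obtain ⟨τ, hτ⟩ := exists_swap (isZig_of_stair p hs hp)
    have h1 := mem_peelQ p m i j y Q₂ 1 τ 1 hF₂
    rw [hτ, map_one] at h1
    simp only [mul_one] at h1
    exact h1

end

end Vale.Agent.P197
end
end

section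

section

/-!
# Flip lemma

For a right-translation stable set of functions on `Perm X`, if the composite of the row
symmetrizer and the column antisymmetrizer is nonzero somewhere, then so is the composite in the
other order (after relabelling).
-/

namespace Vale.Agent.P197

open Equiv Finset

noncomputable section

variable {X : Type} [Fintype X] [DecidableEq X]

/-- Weighted sum of right translates over a stabilizer. -/
def rsum (f : X → ℕ) (s : Perm X → ℤ) (F : Perm X → ℂ) : Perm X → ℂ :=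
  fun h => ∑ π ∈ stab f, (s π : ℂ) * F (h * π)

theorem inv_mem_stab' {f : X → ℕ} {π : Perm X} (h : π ∈ stab f) : π⁻¹ ∈ stab f := by
  rw [mem_stab] at h ⊢
  intro x
  have := h (π⁻¹ x)
  simpa using this.symm

theorem rsum_mem (Q : Submodule ℤ (Perm X → ℂ))
    (hQ : ∀ (g : Perm X), ∀ F ∈ Q, (fun h => F (h * g)) ∈ Q) (f : X → ℕ) (s : Perm X → ℤ)
    {F : Perm X → ℂ} (hF : F ∈ Q) : rsum f s F ∈ Q := by
  have h1 : rsum f s F = ∑ π ∈ stab f, s π • (fun h => F (h * π)) := by
    funext h
    simp only [rsum, zsmul_eq_mul, Finset.sum_apply, Pi.mul_apply, Pi.intCast_apply]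
  rw [h1]
  exact Submodule.sum_mem _ (fun π _ => Submodule.smul_mem _ _ (hQ π F hF))

/-- The standard hermitian form on functions. -/
def ip (F G : Perm X → ℂ) : ℂ := ∑ h : Perm X, F h * star (G h)

theorem ip_rsum (f : X → ℕ) (s : Perm X → ℤ) (hs : ∀ π, s π⁻¹ = s π) (F G : Perm X → ℂ) :
    ip (rsum f s F) G = ip F (rsum f s G) := by
  unfold ip rsum
  simp only [sum_mul, star_sum, mul_sum]
  rw [Finset.sum_comm]
  rw [Finset.sum_comm (s := Finset.univ) (t := stab f)]
  refine Finset.sum_bij' (fun π _ => π⁻¹) (fun π _ => π⁻¹) ?_ ?_ ?_ ?_ ?_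
  · intro π hπ
    exact inv_mem_stab' hπ
  · intro π hπ
    exact inv_mem_stab' hπ
  · intro π _
    simp
  · intro π _
    simp
  · intro π _
    refine Fintype.sum_equiv (Equiv.mulRight π) _ _ (fun h => ?_)
    simp only [Equiv.coe_mulRight, mul_inv_cancel_right, star_mul', hs]
    have : star ((s π : ℤ) : ℂ) = ((s π : ℤ) : ℂ) := by simp
    rw [this]
    ring

theorem eq_zero_of_ip (F : Perm X → ℂ) (h : ip F F = 0) : F = 0 := by
  have h1 : ip F F = ((∑ h : Perm X, Complex.normSq (F h) : ℝ) : ℂ) := by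
    unfold ip
    push_cast
    refine Finset.sum_congr rfl (fun g _ => ?_)
    rw [Complex.normSq_eq_conj_mul_self, mul_comm]
    rfl
  rw [h1] at h
  have h2 : (∑ h : Perm X, Complex.normSq (F h) : ℝ) = 0 := by exact_mod_cast h
  funext g
  have h3 := (Finset.sum_eq_zero_iff_of_nonneg (fun g _ => Complex.normSq_nonneg (F g))).mp h2 g
    (Finset.mem_univ _)
  simpa using Complex.normSq_eq_zero.mp h3

theorem mem_stab_conj {f : X → ℕ} {g π : Perm X} :
    π ∈ stab (f ∘ g) ↔ g * π * g⁻¹ ∈ stab f := by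
  rw [mem_stab, mem_stab]
  constructor
  · intro h x
    have := h (g⁻¹ x)
    simpa only [Perm.coe_mul, Perm.coe_inv, Function.comp_apply, apply_symm_apply] using this
  · intro h x
    have := h (g x)
    simpa only [Function.comp_apply, Perm.coe_mul, Perm.coe_inv, symm_apply_apply] using this

/-- **Flip lemma.** -/
theorem occ_flip (Q : Submodule ℤ (Perm X → ℂ))
    (hQ : ∀ (g : Perm X), ∀ F ∈ Q, (fun h => F (h * g)) ∈ Q) (rl cl : X → ℕ)
    (h : ∃ F ∈ Q, occ rl cl F ≠ 0) :
    ∃ g : Perm X, ∃ F ∈ Q, ∑ ρ ∈ stab (rl ∘ g), ∑ π ∈ stab (cl ∘ g),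
      ((Perm.sign π : ℤ) : ℂ) * F (π * ρ) ≠ 0 := by
  classical
  by_contra hcon
  push Not at hcon
  obtain ⟨F, hF, hocc⟩ := h
  apply hocc
  let a : (Perm X → ℂ) → (Perm X → ℂ) := rsum rl (fun _ => 1)
  let b : (Perm X → ℂ) → (Perm X → ℂ) := rsum cl (fun π => (Perm.sign π : ℤ))
  -- `b a G = 0` for all `G ∈ Q`
  have hba : ∀ G ∈ Q, b (a G) = 0 := by
    intro G hG
    funext k
    have h1 := hcon k⁻¹ (fun h => G (h * k)) (hQ k G hG)
    have h2 : b (a G) k = ∑ π ∈ stab cl, ∑ ρ ∈ stab rl,
        ((Perm.sign π : ℤ) : ℂ) * G (k * π * ρ) := by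
      simp only [b, a, rsum]
      refine Finset.sum_congr rfl (fun π _ => ?_)
      rw [Finset.mul_sum]
      refine Finset.sum_congr rfl (fun ρ _ => ?_)
      simp
    rw [h2, Pi.zero_apply, ← h1, Finset.sum_comm]
    refine Finset.sum_bij' (fun ρ _ => k * ρ * k⁻¹) (fun ρ _ => k⁻¹ * ρ * k) ?_ ?_ ?_ ?_ ?_
    · intro ρ hρ
      rw [mem_stab_conj]
      simpa only [mul_assoc, inv_mul_cancel_left, inv_inv, inv_mul_cancel, mul_one] using hρ
    · intro ρ hρ
      rw [mem_stab_conj] at hρ
      simpa only [mul_assoc, inv_inv] using hρ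
    · intro ρ _
      group
    · intro ρ _
      group
    · intro ρ _
      refine Finset.sum_bij' (fun π _ => k * π * k⁻¹) (fun π _ => k⁻¹ * π * k) ?_ ?_ ?_ ?_ ?_
      · intro π hπ
        rw [mem_stab_conj]
        simpa only [mul_assoc, inv_mul_cancel_left, inv_inv, inv_mul_cancel, mul_one] using hπ
      · intro π hπ
        rw [mem_stab_conj] at hπ
        simpa only [mul_assoc, inv_inv] using hπ
      · intro π _
        group
      · intro π _
        group
      · intro π _
        have e1 : Perm.sign (k * π * k⁻¹) = Perm.sign π := by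
          rw [Perm.sign_mul, Perm.sign_mul, Perm.sign_inv, mul_comm (Perm.sign k), mul_assoc,
            Int.units_mul_self, mul_one]
        have e2 : k * π * k⁻¹ * (k * ρ * k⁻¹) * k = k * π * ρ := by group
        rw [e1, e2]
  have hsign : ∀ π : Perm X, ((Perm.sign π⁻¹ : ℤˣ) : ℤ) = (Perm.sign π : ℤ) := by
    intro π
    simp only [Perm.sign_inv]
  have hy : a (b F) = 0 := by
    apply eq_zero_of_ip
    have e1 : ip (a (b F)) (a (b F)) = ip (b F) (a (a (b F))) :=
      ip_rsum rl (fun _ => 1) (fun _ => rfl) (b F) (a (b F))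
    have e2 : ip (b F) (a (a (b F))) = ip F (b (a (a (b F)))) :=
      ip_rsum cl (fun π => (Perm.sign π : ℤ)) hsign F (a (a (b F)))
    have hmem : a (b F) ∈ Q := rsum_mem Q hQ _ _ (rsum_mem Q hQ _ _ hF)
    rw [e1, e2, hba _ hmem]
    unfold ip
    simp only [Pi.zero_apply, star_zero, mul_zero, sum_const_zero]
  have h3 := congrFun hy 1
  simp only [a, b, rsum, Int.cast_one, one_mul, Pi.zero_apply] at h3
  exact h3

end

end Vale.Agent.P197
end
end

section

section

/-!
The conjugation step of the proof of Saxl's conjecture (P197): from `ν` to its transpose.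
-/

namespace Vale.Agent.P197.Conj

open Equiv Finset

noncomputable section

/-! ### Uniqueness of the common tabloid -/

theorem eq_r0 {X : Type} {m : ℕ} {i j : X → ℕ} (hs : IsStair m i j) (f : X → ℕ)
    (hle : ∀ x, f x + i x < m) (hrow : ∀ x y, i x = i y → f x = f y → x = y)
    (hcol : ∀ x y, j x = j y → f x = f y → x = y) : ∀ x, f x = r0 m i j x := by
  have key : ∀ n d : ℕ, ∀ x, j x = n → r0 m i j x = d → f x = d := by
    intro n
    induction n using Nat.strong_induction_on with
    | _ n ihn =>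
      intro d
      induction d using Nat.strong_induction_on with
      | _ d ihd =>
        intro x hj hr
        have hlt := hs.lt x
        have hfx := hle x
        unfold r0 at hr
        rcases lt_trichotomy (f x) d with h | h | h
        · obtain ⟨y, hy1, hy2⟩ := hs.surj (i x + (d - f x)) n (by (clear * - hj hr hlt h; omega))
          have hy3 : f y = f x := ihd (f x) h y hy2 (by unfold r0; omega)
          have hxy := hcol x y (by omega) hy3.symm
          rw [← hxy] at hy1
          omega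
        · exact h
        · obtain ⟨y, hy1, hy2⟩ := hs.surj (i x) (d + n - f x) (by omega)
          have hy3 : f y = f x := ihn (d + n - f x) (by omega) (f x) y hy2 (by unfold r0; omega)
          have hxy := hrow x y hy1.symm hy3.symm
          rw [← hxy] at hy2
          omega
  intro x
  exact key (j x) (r0 m i j x) x rfl rfl

theorem r0_add {X : Type} {m : ℕ} {i j : X → ℕ} (hs : IsStair m i j) (x : X) :
    r0 m i j x + i x + j x + 1 = m := by
  have := hs.lt x
  unfold r0
  omega

/-- Two labellings by the same set of cells differ by a permutation. -/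
theorem exists_perm {X : Type} [Fintype X] {m : ℕ} {i j i' j' : X → ℕ}
    (hs : IsStair m i j) (hs' : IsStair m i' j') :
    ∃ σ : Perm X, (∀ x, i' (σ x) = i x) ∧ ∀ x, j' (σ x) = j x := by
  choose f hf1 hf2 using fun x => hs'.surj (i x) (j x) (hs.lt x)
  have hinj : Function.Injective f := by
    intro x y hxy
    refine hs.inj x y ?_ ?_
    · rw [← hf1 x, ← hf1 y, hxy]
    · rw [← hf2 x, ← hf2 y, hxy]
  exact ⟨Equiv.ofBijective f (Finite.injective_iff_bijective.1 hinj), hf1, hf2⟩

theorem stair_swap {X : Type} {m : ℕ} {i j : X → ℕ} (hs : IsStair m i j) : IsStair m j i where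
  lt x := by have := hs.lt x; omega
  inj x y h1 h2 := hs.inj x y h2 h1
  surj a b h := by
    obtain ⟨x, h1, h2⟩ := hs.surj b a (by omega)
    exact ⟨x, h2, h1⟩

theorem stair_rev {X : Type} {m : ℕ} {i j : X → ℕ} (hs : IsStair m i j) :
    IsStair m (r0 m i j) j where
  lt x := by
    have := r0_add hs x
    omega
  inj x y h1 h2 := by
    have := r0_add hs x
    have := r0_add hs y
    exact hs.inj x y (by omega) h2
  surj a b h := by
    obtain ⟨x, h1, h2⟩ := hs.surj (m - 1 - a - b) b (by omega)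
    have := r0_add hs x
    exact ⟨x, by omega, h2⟩

/-! ### Signed sums -/

section Perms

variable {X : Type} [Fintype X] [DecidableEq X]

theorem one_mem_stab (f : X → ℕ) : (1 : Perm X) ∈ stab f := by simp only [stab, mem_filter, mem_univ, Perm.coe_one, id_eq, implies_true, and_self]

theorem inv_mem_stab {f : X → ℕ} {π : Perm X} (h : π ∈ stab f) : π⁻¹ ∈ stab f := by
  rw [mem_stab] at h ⊢
  intro x
  have := h (π⁻¹ x)
  simpa using this.symm

theorem mul_mem_stab {f : X → ℕ} {π σ : Perm X} (h : π ∈ stab f) (h' : σ ∈ stab f) :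
    π * σ ∈ stab f := by
  rw [mem_stab] at h h' ⊢
  intro x
  rw [Perm.mul_apply, h, h']

theorem sgn_mul (g h : Perm X) : ((Perm.sign (g * h) : ℤ) : ℂ)
    = ((Perm.sign g : ℤ) : ℂ) * ((Perm.sign h : ℤ) : ℂ) := by
  rw [Perm.sign_mul]
  push_cast
  rfl

theorem sgn_sq (g : Perm X) : ((Perm.sign g : ℤ) : ℂ) * ((Perm.sign g : ℤ) : ℂ) = 1 := by
  rw [← sgn_mul, Perm.sign_mul, Int.units_mul_self]
  simp

theorem sgn_inv (g : Perm X) : ((Perm.sign g⁻¹ : ℤ) : ℂ) = ((Perm.sign g : ℤ) : ℂ) := by
  rw [Perm.sign_inv]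

/-- Signed sums over a column stabilizer kill words with a repetition in a column. -/
theorem sum_stab_eq_zero (c w : X → ℕ) (x y : X) (hxy : x ≠ y) (hc : c x = c y)
    (hw : w x = w y) :
    ∑ π ∈ stab c, ((Perm.sign π : ℤ) : ℂ) • Finsupp.single (w ∘ ⇑(π⁻¹ : Perm X)) (1 : ℂ) = 0 := by
  have hmem : Equiv.swap x y ∈ stab c := by
    rw [mem_stab]
    intro z
    by_cases hz : z = x
    · rw [hz, Equiv.swap_apply_left, hc]
    · by_cases hz' : z = y
      · rw [hz', Equiv.swap_apply_right, hc]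
      · rw [Equiv.swap_apply_of_ne_of_ne hz hz']
  refine Finset.sum_involution (fun π _ => π * Equiv.swap x y) ?_ ?_ ?_ ?_
  · intro π _
    have h1 : w ∘ ⇑((π * Equiv.swap x y)⁻¹ : Perm X) = w ∘ ⇑(π⁻¹ : Perm X) := by
      funext z
      simp only [mul_inv_rev, Equiv.swap_inv, Function.comp_apply, Perm.mul_apply]
      by_cases hz : π⁻¹ z = x
      · rw [hz, Equiv.swap_apply_left, hw]
      · by_cases hz' : π⁻¹ z = y
        · rw [hz', Equiv.swap_apply_right, hw]
        · rw [Equiv.swap_apply_of_ne_of_ne hz hz']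
    rw [h1, sgn_mul, Equiv.Perm.sign_swap hxy]
    simp only [Perm.coe_inv, Finsupp.smul_single, smul_eq_mul, mul_one, Units.val_neg, Units.val_one, Int.reduceNeg, Int.cast_neg, Int.cast_one, mul_neg, neg_smul, add_neg_cancel]
  · intro π _ _ h
    have : Equiv.swap x y = 1 := by simpa using h
    rw [Equiv.swap_eq_one_iff] at this
    exact hxy this
  · intro π hπ
    exact mul_mem_stab hπ hmem
  · intro π _
    simp only [mul_assoc, swap_mul_self, mul_one]

/-- The signed sum of the translates of `e1` is `e0`. -/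
theorem sum_sgn_e1 {m : ℕ} {i j : X → ℕ} (hs : IsStair m i j) :
    ∑ π ∈ stab j, ((Perm.sign π : ℤ) : ℂ) • wordRep X π (e1 m i j) = e0 m i j := by
  have h1 : ∑ π ∈ stab j, ((Perm.sign π : ℤ) : ℂ) • wordRep X π (e1 m i j)
      = ∑ ρ ∈ stab i, ((Perm.sign ρ : ℤ) : ℂ) • ∑ π ∈ stab j, ((Perm.sign π : ℤ) : ℂ) •
        Finsupp.single ((r0 m i j ∘ ⇑(ρ⁻¹ : Perm X)) ∘ ⇑(π⁻¹ : Perm X)) (1 : ℂ) := by
    simp only [e1, polyt, map_sum, map_smul, wordRep_single, Finset.smul_sum]
    rw [Finset.sum_comm]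
    refine Finset.sum_congr rfl fun ρ _ => Finset.sum_congr rfl fun π _ => ?_
    rw [smul_comm]
  rw [h1, Finset.sum_eq_single (1 : Perm X)]
  · simp only [Perm.sign_one, Units.val_one, Int.cast_one, one_smul, inv_one, Perm.coe_one,
      Function.comp_id]
    rfl
  · intro ρ hρ hne
    rw [mem_stab] at hρ
    have hρ' : ∀ x, i (ρ⁻¹ x) = i x := by
      intro x
      have := hρ (ρ⁻¹ x)
      simpa using this.symm
    by_cases hcol : ∀ x y, j x = j y → r0 m i j (ρ⁻¹ x) = r0 m i j (ρ⁻¹ y) → x = y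
    · exfalso
      apply hne
      have key := eq_r0 hs (fun x => r0 m i j (ρ⁻¹ x)) ?_ ?_ hcol
      · ext x
        have h2 := key (ρ x)
        have h2' : ρ⁻¹ (ρ x) = x := ρ.symm_apply_apply x
        simp only [h2'] at h2
        have h3 := r0_add hs x
        have h4 := r0_add hs (ρ x)
        have h5 := hρ x
        have h6 : ρ x = x := hs.inj _ _ h5 (by omega)
        rw [h6, Perm.one_apply]
      · intro x
        have := r0_add hs (ρ⁻¹ x)
        have := hρ' x
        change r0 m i j (ρ⁻¹ x) + i x < m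
        omega
      · intro x y hxy hr
        have h2 := r0_add hs (ρ⁻¹ x)
        have h3 := r0_add hs (ρ⁻¹ y)
        have h4 := hρ' x
        have h5 := hρ' y
        have h6 : ρ⁻¹ x = ρ⁻¹ y := hs.inj _ _ (by omega) (by omega)
        exact ρ⁻¹.injective h6
    · push Not at hcol
      obtain ⟨x, y, hj, hr, hxy⟩ := hcol
      rw [sum_stab_eq_zero j _ x y hxy hj hr, smul_zero]
  · intro h
    exact absurd (one_mem_stab i) h

/-! ### The map theta -/

/-- The sign-twisted equivariant map. -/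
def theta (m : ℕ) (i j : X → ℕ) : WM X →ₗ[ℂ] WM X :=
  Finsupp.linearCombination ℂ fun u => ∑ g ∈ Finset.univ.filter
    (fun g : Perm X => i ∘ ⇑(g⁻¹ : Perm X) = u),
    ((Perm.sign g : ℤ) : ℂ) • Finsupp.single (r0 m i j ∘ ⇑(g⁻¹ : Perm X)) (1 : ℂ)

theorem theta_single (m : ℕ) (i j : X → ℕ) (u : X → ℕ) :
    theta m i j (Finsupp.single u 1) = ∑ g ∈ Finset.univ.filter
      (fun g : Perm X => i ∘ ⇑(g⁻¹ : Perm X) = u),
      ((Perm.sign g : ℤ) : ℂ) • Finsupp.single (r0 m i j ∘ ⇑(g⁻¹ : Perm X)) (1 : ℂ) := by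
  simp only [theta, Perm.coe_inv, Finsupp.smul_single, smul_eq_mul, mul_one, Finsupp.linearCombination_single, one_smul]

theorem theta_equiv (m : ℕ) (i j : X → ℕ) (g : Perm X) (v : WM X) :
    theta m i j (wordRep X g v) = ((Perm.sign g : ℤ) : ℂ) • wordRep X g (theta m i j v) := by
  have h : (theta m i j).comp (wordRep X g)
      = ((Perm.sign g : ℤ) : ℂ) • (wordRep X g).comp (theta m i j) := by
    ext1 u
    refine LinearMap.ext_ring ?_
    simp only [LinearMap.comp_apply, LinearMap.smul_apply, Finsupp.lsingle_apply, wordRep_single,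
      theta_single, map_sum, map_smul, Finset.smul_sum, smul_smul]
    refine Finset.sum_nbij' (fun k => g⁻¹ * k) (fun k => g * k) ?_ ?_ ?_ ?_ ?_
    · intro k hk
      simp only [mem_filter, mem_univ, true_and] at hk ⊢
      funext x
      have := congrFun hk (g x)
      simpa only [mul_inv_rev, inv_inv, Perm.coe_mul, Perm.coe_inv, Function.comp_apply, symm_apply_apply] using     this
    · intro k hk
      simp only [mem_filter, mem_univ, true_and] at hk ⊢
      funext x
      have := congrFun hk (g⁻¹ x)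
      simpa only [mul_inv_rev, Perm.coe_mul, Perm.coe_inv, Function.comp_apply] using this
    · intro k _
      simp
    · intro k _
      simp
    · intro k _
      have h1 : (r0 m i j ∘ ⇑((g⁻¹ * k)⁻¹ : Perm X)) ∘ ⇑(g⁻¹ : Perm X)
          = r0 m i j ∘ ⇑(k⁻¹ : Perm X) := by
        funext x
        simp only [mul_inv_rev, inv_inv, Perm.coe_mul, Perm.coe_inv, Function.comp_apply, apply_symm_apply]
      rw [h1, sgn_mul, sgn_inv, ← mul_assoc, sgn_sq, one_mul]
  exact LinearMap.congr_fun h v

theorem theta_base (m : ℕ) (i j : X → ℕ) :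
    theta m i j (Finsupp.single i 1) = e1 m i j := by
  rw [theta_single]
  unfold e1 polyt
  refine Finset.sum_congr ?_ fun _ _ => rfl
  ext π
  rw [mem_stab]
  simp only [mem_filter, mem_univ, true_and]
  constructor
  · intro h x
    have := congrFun h (π x)
    simpa using this.symm
  · intro h
    funext x
    have := h (π⁻¹ x)
    simpa using this.symm

/-- `theta e0 = s (e0 + 2 v)` with `s` a sign and `v` a sum of translates of `e1`. -/
theorem theta_e0 {m : ℕ} {i j : X → ℕ} (hs : IsStair m i j) :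
    ∃ κ : Perm X, theta m i j (e0 m i j) = ((Perm.sign κ : ℤ) : ℂ) •
      (e0 m i j + (2 : ℂ) • ∑ π ∈ (stab j).filter (fun π => Perm.sign π = -1),
        wordRep X π (e1 m i j)) := by
  obtain ⟨κ, hκ1, hκ2⟩ := exists_perm (stair_rev hs) hs
  refine ⟨κ, ?_⟩
  have hκ : κ ∈ stab j := by
    rw [mem_stab]
    exact hκ2
  have hbase : (Finsupp.single (r0 m i j) (1 : ℂ)) =
      wordRep X κ⁻¹ (Finsupp.single i (1 : ℂ)) := by
    rw [wordRep_single]
    congr 1
    funext x
    simp [hκ1]
  have h1 : theta m i j (e0 m i j)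
      = ∑ π ∈ stab j, ((Perm.sign κ : ℤ) : ℂ) • wordRep X (π * κ⁻¹) (e1 m i j) := by
    unfold e0 polyt
    rw [map_sum]
    refine Finset.sum_congr rfl fun π _ => ?_
    rw [← wordRep_single, hbase, ← Module.End.mul_apply, ← map_mul, map_smul, theta_equiv,
      theta_base, smul_smul, sgn_mul, ← mul_assoc, sgn_sq, one_mul, sgn_inv]
  have h2 : ∑ π ∈ stab j, wordRep X (π * κ⁻¹) (e1 m i j)
      = ∑ π ∈ stab j, wordRep X π (e1 m i j) := by
    refine Finset.sum_nbij' (fun π => π * κ⁻¹) (fun π => π * κ) ?_ ?_ ?_ ?_ ?_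
    · intro π hπ
      exact mul_mem_stab hπ (inv_mem_stab hκ)
    · intro π hπ
      exact mul_mem_stab hπ hκ
    · intro π _
      simp
    · intro π _
      simp
    · intro π _
      rfl
  have h3 : ∑ π ∈ stab j, wordRep X π (e1 m i j)
      = e0 m i j + (2 : ℂ) • ∑ π ∈ (stab j).filter (fun π => Perm.sign π = -1),
        wordRep X π (e1 m i j) := by
    rw [← sum_sgn_e1 hs, Finset.sum_filter, Finset.smul_sum, ← Finset.sum_add_distrib]
    refine Finset.sum_congr rfl fun π _ => ?_
    rcases Int.units_eq_one_or (Perm.sign π) with h | h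
    · rw [h]
      norm_num
    · rw [h]
      simp only [Units.val_neg, Units.val_one, Int.cast_neg, Int.cast_one, if_true]
      rw [← add_smul]
      norm_num
  rw [h1, ← Finset.smul_sum, h2, h3]

/-! ### The twisted form -/

/-- Multiplication by the sign. -/
def sgnMul : (Perm X → ℂ) →ₗ[ℤ] (Perm X → ℂ) where
  toFun F := fun h => ((Perm.sign h : ℤ) : ℂ) * F h
  map_add' F F' := by
    funext h
    simp [mul_add]
  map_smul' a F := by
    funext h
    simp only [Pi.smul_apply, zsmul_eq_mul, RingHom.id_apply]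
    ring

theorem sgnMul_apply (F : Perm X → ℂ) (h : Perm X) :
    sgnMul F h = ((Perm.sign h : ℤ) : ℂ) * F h := rfl

theorem Fn_theta (m : ℕ) (i j : X → ℕ) (b : BF X) (v w : WM X) :
    Fn (b.comp (theta m i j)) v w = sgnMul (Fn b (theta m i j v) w) := by
  funext h
  simp only [Fn, LinearMap.comp_apply, sgnMul_apply, theta_equiv, map_smul, LinearMap.smul_apply,
    smul_eq_mul]

theorem Fn_sgn_smul (b : BF X) (g : Perm X) (v w : WM X) :
    Fn b (((Perm.sign g : ℤ) : ℂ) • v) w = (Perm.sign g : ℤ) • Fn b v w := by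
  funext h
  simp only [Fn, map_smul, LinearMap.smul_apply, smul_eq_mul, Pi.smul_apply, zsmul_eq_mul]

omit [Fintype X] [DecidableEq X] in
theorem Fn_sum {ι : Type*} (b : BF X) (s : Finset ι) (v : ι → WM X) (w : WM X) :
    Fn b (∑ k ∈ s, v k) w = ∑ k ∈ s, Fn b (v k) w := by
  funext h
  simp only [Fn, map_sum, LinearMap.sum_apply, Finset.sum_apply]

omit [Fintype X] [DecidableEq X] in
theorem Fn_add (b : BF X) (v v' w : WM X) : Fn b (v + v') w = Fn b v w + Fn b v' w := by
  funext h
  simp only [Fn, map_add, LinearMap.add_apply, Pi.add_apply]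

omit [Fintype X] [DecidableEq X] in
theorem Fn_two (b : BF X) (v w : WM X) : Fn b ((2 : ℂ) • v) w = (2 : ℤ) • Fn b v w := by
  funext h
  simp only [Fn, map_smul, LinearMap.smul_apply, smul_eq_mul, Pi.smul_apply, zsmul_eq_mul]
  norm_num

/-- The swap of the two labels turns `e0` into `e1`. -/
theorem exists_swap {m : ℕ} {i j : X → ℕ} (hs : IsStair m i j) :
    ∃ τ : Perm X, e1 m i j = wordRep X τ (e0 m i j) := by
  obtain ⟨σ, h1, h2⟩ := exists_perm hs (stair_swap hs)
  refine ⟨σ⁻¹, ?_⟩
  unfold e0 e1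
  rw [wordRep_polyt, inv_inv]
  congr 1
  · funext x
    exact (h1 x).symm
  · funext x
    have := r0_add hs x
    have := r0_add hs (σ x)
    have := h1 x
    have := h2 x
    simp only [Function.comp_apply]
    omega

omit [Fintype X] [DecidableEq X] in
theorem wordRep_mul (g h : Perm X) (v : WM X) :
    wordRep X g (wordRep X h v) = wordRep X (g * h) v := by
  rw [map_mul]
  rfl

theorem Fn_e1_mem {m : ℕ} {i j : X → ℕ} (hs : IsStair m i j) {b : BF X}
    {Q : Submodule ℤ (Perm X → ℂ)} (hQ : Good m i j b Q) (g g' : Perm X) :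
    Fn b (wordRep X g (e1 m i j)) (wordRep X g' (e0 m i j)) ∈ Q ∧
    Fn b (wordRep X g (e1 m i j)) (wordRep X g' (e1 m i j)) ∈ Q := by
  obtain ⟨τ, hτ⟩ := exists_swap hs
  rw [hτ, wordRep_mul, wordRep_mul]
  exact ⟨hQ.mem _ _, hQ.mem _ _⟩

theorem good_theta {m : ℕ} {i j : X → ℕ} (hs : IsStair m i j) {b : BF X}
    {Q : Submodule ℤ (Perm X → ℂ)} (hQ : Good m i j b Q) :
    Good m i j (b.comp (theta m i j)) (Q.map sgnMul) := by
  obtain ⟨κ, hκ⟩ := theta_e0 hs
  -- the twisted generators
  have hgen : ∀ g : Perm X, ∀ w : WM X,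
      Fn (b.comp (theta m i j)) (wordRep X g (e0 m i j)) w =
        sgnMul ((Perm.sign g : ℤ) • (Perm.sign κ : ℤ) • (Fn b (wordRep X g (e0 m i j)) w
          + (2 : ℤ) • ∑ π ∈ (stab j).filter (fun π => Perm.sign π = -1),
            Fn b (wordRep X (g * π) (e1 m i j)) w)) := by
    intro g w
    rw [Fn_theta]
    congr 1
    rw [theta_equiv, Fn_sgn_smul, hκ, map_smul, Fn_sgn_smul, map_add, Fn_add, map_smul,
      Fn_two, map_sum, Fn_sum]
    simp only [wordRep_mul]
  refine ⟨hQ.fg.map _, ?_, ?_, ?_⟩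
  · rintro g _ ⟨F, hF, rfl⟩
    refine ⟨(Perm.sign g : ℤ) • (fun h => F (h * g)), Q.smul_mem _ (hQ.stable g F hF), ?_⟩
    funext h
    rw [sgnMul_apply, sgnMul_apply, Pi.smul_apply, zsmul_eq_mul, sgn_mul]
    ring
  · intro g g'
    rw [hgen]
    refine Submodule.mem_map_of_mem (Q.smul_mem _ (Q.smul_mem _ (Q.add_mem (hQ.mem _ _)
      (Q.smul_mem _ (Q.sum_mem fun π _ => (Fn_e1_mem hs hQ _ _).1)))))
  · rintro _ ⟨F, hF, rfl⟩
    obtain ⟨F', hF', F'', hF'', rfl⟩ := hQ.gen F hF
    -- it suffices to treat each generator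
    have key : ∀ G ∈ Submodule.span ℤ (Set.range fun k : Perm X =>
        Fn b (wordRep X k (e0 m i j)) (wordRep X k (e1 m i j))),
        ∃ G' ∈ Submodule.span ℤ (Set.range fun k : Perm X =>
          Fn (b.comp (theta m i j)) (wordRep X k (e0 m i j)) (wordRep X k (e1 m i j))),
        ∃ G'' ∈ Q.map sgnMul, sgnMul G = G' + (2 : ℤ) • G'' := by
      intro G hG
      induction hG using Submodule.span_induction with
      | mem x hx =>
        obtain ⟨k, rfl⟩ := hx
        refine ⟨(Perm.sign κ : ℤ) • (Perm.sign k : ℤ) • Fn (b.comp (theta m i j))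
          (wordRep X k (e0 m i j)) (wordRep X k (e1 m i j)),
          Submodule.smul_mem _ _ (Submodule.smul_mem _ _ (Submodule.subset_span ⟨k, rfl⟩)),
          sgnMul (-∑ π ∈ (stab j).filter (fun π => Perm.sign π = -1),
            Fn b (wordRep X (k * π) (e1 m i j)) (wordRep X k (e1 m i j))),
          Submodule.mem_map_of_mem (Q.neg_mem (Q.sum_mem fun π _ => (Fn_e1_mem hs hQ _ _).2)), ?_⟩
        rw [hgen]
        simp only [map_smul, map_add, map_neg]
        have h1 : ∀ (g : Perm X) (v : Perm X → ℂ),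
            (Perm.sign g : ℤ) • (Perm.sign g : ℤ) • v = v := by
          intro g v
          rw [smul_smul, ← Units.val_mul, Int.units_mul_self, Units.val_one, one_smul]
        rw [h1, h1]
        rw [smul_neg, add_neg_cancel_right]
      | zero =>
        exact ⟨0, Submodule.zero_mem _, 0, Submodule.zero_mem _, by simp⟩
      | add x y _ _ hx hy =>
        obtain ⟨a, ha, b', hb, h1⟩ := hx
        obtain ⟨c, hc, d, hd, h2⟩ := hy
        refine ⟨a + c, Submodule.add_mem _ ha hc, b' + d, Submodule.add_mem _ hb hd, ?_⟩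
        rw [map_add, h1, h2, smul_add]
        abel
      | smul a x _ hx =>
        obtain ⟨c, hc, d, hd, h⟩ := hx
        refine ⟨a • c, Submodule.smul_mem _ _ hc, a • d, Submodule.smul_mem _ _ hd, ?_⟩
        rw [map_smul, h, smul_add, smul_comm a (2 : ℤ) d]
    obtain ⟨G', hG', G'', hG'', h⟩ := key F' hF'
    refine ⟨G', hG', G'' + sgnMul F'', Submodule.add_mem _ hG'' (Submodule.mem_map_of_mem hF''), ?_⟩
    rw [map_add, h, map_smul, smul_add]
    abel

theorem label_swap {ν : YoungDiagram} {rl cl : X → ℕ} (h : IsLabel ν.cells rl cl) :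
    IsLabel ν.transpose.cells cl rl where
  mem x := by
    rw [YoungDiagram.mem_cells, YoungDiagram.mem_transpose]
    exact (YoungDiagram.mem_cells _).1 (h.mem x)
  inj x y h1 h2 := h.inj x y h2 h1
  surj c hc := by
    rw [YoungDiagram.mem_cells, YoungDiagram.mem_transpose] at hc
    obtain ⟨x, h1, h2⟩ := h.surj c.swap ((YoungDiagram.mem_cells _).2 hc)
    exact ⟨x, h2, h1⟩

theorem label_comp {S : Finset (ℕ × ℕ)} {rl cl : X → ℕ} (h : IsLabel S rl cl) (g : Perm X) :
    IsLabel S (rl ∘ g) (cl ∘ g) where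
  mem x := h.mem (g x)
  inj x y h1 h2 := g.injective (h.inj _ _ h1 h2)
  surj c hc := by
    obtain ⟨x, h1, h2⟩ := h.surj c hc
    exact ⟨g⁻¹ x, by simp [h1], by simp [h2]⟩

end Perms

end

end Vale.Agent.P197.Conj

namespace Vale.Agent.P197

open Equiv Finset Conj

/-- The conjugation step. -/
theorem T_transpose {X : Type} [Fintype X] [DecidableEq X] {m : ℕ} {i j : X → ℕ}
    (hs : IsStair m i j) {ν : YoungDiagram} (h : T m i j ν) : T m i j ν.transpose := by
  obtain ⟨b, Q, hQ, rl, cl, hl, hF⟩ := h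
  obtain ⟨g, F, hF1, hF2⟩ := occ_flip Q hQ.stable rl cl hF
  refine ⟨b.comp (theta m i j), Q.map sgnMul, good_theta hs hQ, cl ∘ g, rl ∘ g,
    label_comp (label_swap hl) g, sgnMul F, Submodule.mem_map_of_mem hF1, ?_⟩
  have e : occ (cl ∘ g) (rl ∘ g) (sgnMul F)
      = ∑ ρ ∈ stab (rl ∘ g), ∑ π ∈ stab (cl ∘ g), ((Perm.sign π : ℤ) : ℂ) * F (π * ρ) := by
    unfold occ
    rw [Finset.sum_comm]
    refine Finset.sum_congr rfl fun ρ _ => Finset.sum_congr rfl fun π _ => ?_
    rw [sgnMul_apply, sgn_mul]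
    linear_combination (((Perm.sign π : ℤ) : ℂ) * F (π * ρ)) * sgn_sq ρ
  rw [e]
  exact hF2

end Vale.Agent.P197
end
end

section

section

/-!
# From a nonzero Young symmetrizer to a positive Kronecker coefficient
-/

namespace Vale.Agent.P197

open Equiv Finset TensorProduct

noncomputable section

section General

variable {n : ℕ} {U : Type*} [AddCommGroup U] [Module ℂ U]

/-- The map from words to `U` given by a vector `u`: the word `r ∘ g⁻¹` is sent to
the sum of all `g u`. -/
def wordVal (σ : Representation ℂ (Perm (Fin n)) U) (r : Fin n → ℕ) (u : U) (f : Fin n → ℕ) : U :=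
  ∑ g ∈ Finset.univ.filter (fun g : Perm (Fin n) => r ∘ ⇑(g⁻¹ : Perm (Fin n)) = f), σ g u

theorem wordVal_equivariant (σ : Representation ℂ (Perm (Fin n)) U) (r : Fin n → ℕ) (u : U)
    (h : Perm (Fin n)) (f : Fin n → ℕ) :
    wordVal σ r u (f ∘ ⇑(h⁻¹ : Perm (Fin n))) = σ h (wordVal σ r u f) := by
  unfold wordVal
  rw [map_sum]
  refine Finset.sum_bij' (fun g _ => h⁻¹ * g) (fun g _ => h * g) ?_ ?_ ?_ ?_ ?_
  · intro g hg
    simp only [Finset.mem_filter, Finset.mem_univ, true_and] at hg ⊢
    funext x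
    have := congrFun hg (h x)
    simpa only [mul_inv_rev, inv_inv, Perm.coe_mul, Perm.coe_inv, Function.comp_apply, symm_apply_apply] using     this
  · intro g hg
    simp only [Finset.mem_filter, Finset.mem_univ, true_and] at hg ⊢
    funext x
    have := congrFun hg (h⁻¹ x)
    simpa only [mul_inv_rev, Perm.coe_mul, Perm.coe_inv, Function.comp_apply] using this
  · intro g _
    simp
  · intro g _
    simp
  · intro g _
    rw [← Module.End.mul_apply, ← map_mul]
    simp

/-- The linear extension of `wordVal`. -/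
def wordLin (σ : Representation ℂ (Perm (Fin n)) U) (r : Fin n → ℕ) (u : U) :
    ((Fin n → ℕ) →₀ ℂ) →ₗ[ℂ] U :=
  Finsupp.linearCombination ℂ (wordVal σ r u)

theorem wordLin_single (σ : Representation ℂ (Perm (Fin n)) U) (r : Fin n → ℕ) (u : U)
    (f : Fin n → ℕ) (a : ℂ) :
    wordLin σ r u (Finsupp.single f a) = a • wordVal σ r u f := by
  unfold wordLin
  rw [Finsupp.linearCombination_single]

theorem wordLin_equivariant (σ : Representation ℂ (Perm (Fin n)) U) (r : Fin n → ℕ) (u : U)
    (h : Perm (Fin n)) (v : (Fin n → ℕ) →₀ ℂ) :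
    wordLin σ r u (wordRep (Fin n) h v) = σ h (wordLin σ r u v) := by
  induction v using Finsupp.induction_linear with
  | zero => simp only [map_zero]
  | add v w hv hw => rw [map_add, map_add, hv, hw, map_add, map_add]
  | single f a =>
    rw [wordRep_single, wordLin_single, wordLin_single, wordVal_equivariant, map_smul]

theorem wordVal_self (σ : Representation ℂ (Perm (Fin n)) U) (r : Fin n → ℕ) (u : U) :
    wordVal σ r u r = ∑ g ∈ stab r, σ g u := by
  unfold wordVal
  refine Finset.sum_congr ?_ (fun _ _ => rfl)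
  ext g
  simp only [Finset.mem_filter, Finset.mem_univ, true_and, mem_stab]
  constructor
  · intro h x
    have := congrFun h (g x)
    simpa using this.symm
  · intro h
    funext x
    have := h (g⁻¹ x)
    simpa using this.symm

theorem wordLin_polyt (σ : Representation ℂ (Perm (Fin n)) U) (c r : Fin n → ℕ) (u : U) :
    wordLin σ r u (polyt c r) =
      ∑ π ∈ stab c, ((Perm.sign π : ℤ) : ℂ) • σ π (∑ g ∈ stab r, σ g u) := by
  unfold polyt
  rw [map_sum]
  refine Finset.sum_congr rfl (fun π _ => ?_)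
  rw [map_smul, wordLin_single, one_smul, wordVal_equivariant, wordVal_self]

theorem polyt_mem {ν : YoungDiagram} (t : Fin n ≃ ν.cells) :
    polyt (fun x => (t x).1.2) (fun x => (t x).1.1) ∈ spechtSub n ν :=
  Submodule.subset_span ⟨t, rfl⟩

/-- A vector which is not killed by the Young symmetrizer `C⁻ R⁺` gives a nonzero equivariant
map from the Specht module. -/
theorem exists_intertwining (σ : Representation ℂ (Perm (Fin n)) U) {ν : YoungDiagram}
    (t : Fin n ≃ ν.cells) (u : U)
    (hu : ∑ π ∈ stab (fun x => (t x).1.2), ((Perm.sign π : ℤ) : ℂ) •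
      σ π (∑ g ∈ stab (fun x => (t x).1.1), σ g u) ≠ 0) :
    ∃ f : Representation.IntertwiningMap (specht n ν) σ, f ≠ 0 := by
  let r : Fin n → ℕ := fun x => (t x).1.1
  let L : spechtSub n ν →ₗ[ℂ] U := (wordLin σ r u).comp (spechtSub n ν).subtype
  refine ⟨LinearMap.intertwiningMap_of_isIntertwiningMap (specht n ν) σ L ?_, ?_⟩
  · intro g v
    exact wordLin_equivariant σ r u g v.1
  · intro h
    apply hu
    have h1 := congrArg
      (fun f : Representation.IntertwiningMap (specht n ν) σ => f ⟨_, polyt_mem t⟩) h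
    rw [← wordLin_polyt]
    exact h1

instance spechtSub_finite (n : ℕ) (ν : YoungDiagram) : Module.Finite ℂ (spechtSub n ν) := by
  unfold spechtSub
  rw [Module.Finite.iff_fg]
  apply Submodule.fg_span
  have : {v | ∃ t : Fin n ≃ ν.cells, v = polyt (fun x => (t x).1.2) (fun x => (t x).1.1)} =
      Set.range (fun t : Fin n ≃ ν.cells => polyt (fun x => (t x).1.2) (fun x => (t x).1.1)) := by
    ext v
    simp [eq_comm]
  rw [this]
  exact Set.finite_range _

theorem finrank_intertwining_pos {V : Type*} [AddCommGroup V] [Module ℂ V] [Module.Finite ℂ V]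
    [Module.Finite ℂ U] (τ : Representation ℂ (Perm (Fin n)) V)
    (σ : Representation ℂ (Perm (Fin n)) U)
    (h : ∃ f : Representation.IntertwiningMap τ σ, f ≠ 0) :
    0 < Module.finrank ℂ (Representation.IntertwiningMap τ σ) := by
  have : Module.Finite ℂ (Representation.IntertwiningMap τ σ) :=
    Module.Finite.equiv (Representation.invariantsEquivIntertwiningMap τ σ)
  obtain ⟨f, hf⟩ := h
  have : Nontrivial (Representation.IntertwiningMap τ σ) := ⟨f, 0, hf⟩
  exact Module.finrank_pos

/-- The averaged hermitian form attached to a basis. -/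
def hform {G ι : Type*} [Group G] [Fintype G] [Fintype ι] (σ : Representation ℂ G U)
    (B : Module.Basis ι ℂ U) (v w : U) : ℂ :=
  ∑ g : G, ∑ i : ι, star (B.repr (σ g v) i) * B.repr (σ g w) i

section Form

variable {G ι : Type*} [Group G] [Fintype G] [Fintype ι] (σ : Representation ℂ G U)
    (B : Module.Basis ι ℂ U)

theorem hform_star (v w : U) : star (hform σ B v w) = hform σ B w v := by
  unfold hform
  rw [star_sum]
  refine Finset.sum_congr rfl (fun g _ => ?_)
  rw [star_sum]
  refine Finset.sum_congr rfl (fun i _ => ?_)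
  rw [star_mul, star_star]

theorem hform_add_right (v w w' : U) :
    hform σ B v (w + w') = hform σ B v w + hform σ B v w' := by
  unfold hform
  rw [← Finset.sum_add_distrib]
  refine Finset.sum_congr rfl (fun g _ => ?_)
  rw [← Finset.sum_add_distrib]
  refine Finset.sum_congr rfl (fun i _ => ?_)
  rw [map_add, map_add, Finsupp.add_apply, mul_add]

theorem hform_smul_right (v w : U) (a : ℂ) :
    hform σ B v (a • w) = a * hform σ B v w := by
  unfold hform
  rw [Finset.mul_sum]
  refine Finset.sum_congr rfl (fun g _ => ?_)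
  rw [Finset.mul_sum]
  refine Finset.sum_congr rfl (fun i _ => ?_)
  rw [map_smul, map_smul, Finsupp.smul_apply, smul_eq_mul]
  ring

theorem hform_zero_right (v : U) : hform σ B v 0 = 0 := by
  have := hform_smul_right σ B v 0 0
  simpa using this

theorem hform_sum_right {κ : Type*} (s : Finset κ) (v : U) (w : κ → U) :
    hform σ B v (∑ k ∈ s, w k) = ∑ k ∈ s, hform σ B v (w k) := by
  classical
  induction s using Finset.induction_on with
  | empty => simp [hform_zero_right]
  | insert a s ha ih => rw [Finset.sum_insert ha, hform_add_right, ih, Finset.sum_insert ha]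

theorem hform_smul_left (v w : U) (a : ℂ) :
    hform σ B (a • v) w = star a * hform σ B v w := by
  rw [← hform_star, hform_smul_right, star_mul, hform_star, mul_comm]

theorem hform_sum_left {κ : Type*} (s : Finset κ) (v : κ → U) (w : U) :
    hform σ B (∑ k ∈ s, v k) w = ∑ k ∈ s, hform σ B (v k) w := by
  rw [← hform_star, hform_sum_right, star_sum]
  exact Finset.sum_congr rfl (fun k _ => hform_star σ B w (v k))

theorem hform_inv (h : G) (v w : U) : hform σ B (σ h v) (σ h w) = hform σ B v w := by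
  unfold hform
  refine Fintype.sum_equiv (Equiv.mulRight h) _ _ (fun g => ?_)
  refine Finset.sum_congr rfl (fun i _ => ?_)
  simp only [Equiv.coe_mulRight, map_mul, Module.End.mul_apply]

theorem hform_move (h : G) (v w : U) : hform σ B v (σ h w) = hform σ B (σ h⁻¹ v) w := by
  rw [← hform_inv σ B h⁻¹ v (σ h w), ← Module.End.mul_apply, ← map_mul]
  simp only [inv_mul_cancel, map_one, Module.End.one_apply]

theorem eq_zero_of_hform (v : U) (h : hform σ B v v = 0) : v = 0 := by
  have h1 : hform σ B v v =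
      ((∑ g : G, ∑ i : ι, Complex.normSq (B.repr (σ g v) i) : ℝ) : ℂ) := by
    unfold hform
    push_cast
    refine Finset.sum_congr rfl (fun g _ => ?_)
    refine Finset.sum_congr rfl (fun i _ => ?_)
    rw [Complex.normSq_eq_conj_mul_self]
    rfl
  rw [h1] at h
  have h2 : (∑ g : G, ∑ i : ι, Complex.normSq (B.repr (σ g v) i) : ℝ) = 0 := by
    exact_mod_cast h
  have h3 := (Finset.sum_eq_zero_iff_of_nonneg (fun g _ =>
    Finset.sum_nonneg (fun i _ => Complex.normSq_nonneg _))).mp h2 1 (Finset.mem_univ _)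
  have h4 := (Finset.sum_eq_zero_iff_of_nonneg (fun i _ => Complex.normSq_nonneg _)).mp h3
  apply B.repr.injective
  rw [map_zero]
  ext i
  have h5 := Complex.normSq_eq_zero.mp (h4 i (Finset.mem_univ _))
  simpa only [Finsupp.coe_zero, Pi.zero_apply, map_one, Module.End.one_apply] using h5

end Form

theorem inv_mem_stab {f : Fin n → ℕ} {π : Perm (Fin n)} (h : π ∈ stab f) : π⁻¹ ∈ stab f := by
  rw [mem_stab] at h ⊢
  intro x
  have := h (π⁻¹ x)
  simpa using this.symm

/-- Moving the signed or unsigned sum over a stabilizer to the other side of the form. -/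
theorem hform_stab {ι : Type*} [Fintype ι] (σ : Representation ℂ (Perm (Fin n)) U)
    (B : Module.Basis ι ℂ U) (f : Fin n → ℕ) (s : Perm (Fin n) → ℂ)
    (hs : ∀ π, s π⁻¹ = s π) (hs' : ∀ π, star (s π) = s π) (v w : U) :
    hform σ B v (∑ π ∈ stab f, s π • σ π w) = hform σ B (∑ π ∈ stab f, s π • σ π v) w := by
  rw [hform_sum_right, hform_sum_left]
  refine Finset.sum_bij' (fun π _ => π⁻¹) (fun π _ => π⁻¹) ?_ ?_ ?_ ?_ ?_
  · intro π hπ
    exact inv_mem_stab hπ
  · intro π hπ
    exact inv_mem_stab hπ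
  · intro π _
    simp
  · intro π _
    simp
  · intro π _
    rw [hform_smul_right, hform_smul_left, hform_move, hs, hs']

/-- Flip lemma: if `R⁺ C⁻` is nonzero on `U`, so is `C⁻ R⁺`. -/
theorem exists_flip [Module.Finite ℂ U] (σ : Representation ℂ (Perm (Fin n)) U)
    (c r : Fin n → ℕ) (u : U)
    (hu : ∑ g ∈ stab r, σ g (∑ π ∈ stab c, ((Perm.sign π : ℤ) : ℂ) • σ π u) ≠ 0) :
    ∃ u' : U, ∑ π ∈ stab c, ((Perm.sign π : ℤ) : ℂ) • σ π (∑ g ∈ stab r, σ g u') ≠ 0 := by
  by_contra hcon
  push Not at hcon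
  apply hu
  let B := Module.finBasis ℂ U
  apply eq_zero_of_hform σ B
  set y := ∑ π ∈ stab c, ((Perm.sign π : ℤ) : ℂ) • σ π u with hy
  have h1 : ∀ v : U, ∑ g ∈ stab r, σ g v = ∑ g ∈ stab r, (1 : ℂ) • σ g v := by
    intro v
    simp only [one_smul]
  have e1 : hform σ B (∑ g ∈ stab r, σ g y) (∑ g ∈ stab r, σ g y) =
      hform σ B y (∑ g ∈ stab r, σ g (∑ g ∈ stab r, σ g y)) := by
    rw [h1 (∑ g ∈ stab r, σ g y)]
    rw [hform_stab σ B r (fun _ => 1) (by simp) (by simp)]
    simp only [one_smul]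
  rw [e1]
  have e2 : hform σ B y (∑ g ∈ stab r, σ g (∑ g ∈ stab r, σ g y)) =
      hform σ B u (∑ π ∈ stab c, ((Perm.sign π : ℤ) : ℂ) •
        σ π (∑ g ∈ stab r, σ g (∑ g ∈ stab r, σ g y))) := by
    rw [hform_stab σ B c (fun π => ((Perm.sign π : ℤ) : ℂ)) (by simp only [Perm.sign_inv, implies_true]) ?_]
    intro π
    simp
  rw [e2, hcon, hform_zero_right]

end General

set_option maxSynthPendingDepth 3 in
/-- Positivity of a Kronecker coefficient from a vector not killed by `R⁺ C⁻`. -/
theorem kron_pos_of_ne_zero (n : ℕ) (lam mu nu : YoungDiagram) (t : Fin n ≃ nu.cells)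
    (u : spechtSub n lam ⊗[ℂ] spechtSub n mu)
    (hu : ∑ g ∈ stab (fun x => (t x).1.1), ((specht n lam).tprod (specht n mu)) g
      (∑ π ∈ stab (fun x => (t x).1.2), ((Perm.sign π : ℤ) : ℂ) •
        ((specht n lam).tprod (specht n mu)) π u) ≠ 0) :
    0 < kron n lam mu nu := by
  obtain ⟨u', hu'⟩ := exists_flip ((specht n lam).tprod (specht n mu))
    (fun x => (t x).1.2) (fun x => (t x).1.1) u hu
  exact finrank_intertwining_pos _ _ (exists_intertwining _ t u' hu')

end

end Vale.Agent.P197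
end
end

section

section

/-!
# From the inductive statement `T` to positivity of the Kronecker coefficient
-/

namespace Vale.Agent.P197

open Equiv Finset
open scoped TensorProduct

noncomputable section

/-- Nakayama over the integers at the prime two. -/
theorem odd_smul_mem {M : Type*} [AddCommGroup M] (N Q : Submodule ℤ M) (hfg : Q.FG)
    (hgen : ∀ F ∈ Q, ∃ F' ∈ N, ∃ F'' ∈ Q, F = F' + (2 : ℤ) • F'') :
    ∃ c : ℤ, Odd c ∧ ∀ F ∈ Q, c • F ∈ N := by
  have hfg' : (Q.map N.mkQ).FG := hfg.map _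
  have hle : Q.map N.mkQ ≤ Ideal.span {(2 : ℤ)} • Q.map N.mkQ := by
    rintro _ ⟨F, hF, rfl⟩
    obtain ⟨F', hF', F'', hF'', rfl⟩ := hgen F hF
    have h0 : N.mkQ F' = 0 := by
      rw [Submodule.mkQ_apply, Submodule.Quotient.mk_eq_zero]
      exact hF'
    rw [map_add, h0, zero_add, map_smul]
    exact Submodule.smul_mem_smul (Ideal.mem_span_singleton_self 2)
      (Submodule.mem_map_of_mem hF'')
  obtain ⟨r, hr, hr'⟩ :=
    Submodule.exists_sub_one_mem_and_smul_eq_zero_of_fg_of_le_smul _ _ hfg' hle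
  rw [Ideal.mem_span_singleton] at hr
  obtain ⟨k, hk⟩ := hr
  refine ⟨r, ⟨k, by linarith only [hk]⟩, fun F hF => ?_⟩
  have h1 := hr' _ (Submodule.mem_map_of_mem hF)
  rw [← map_smul, Submodule.mkQ_apply, Submodule.Quotient.mk_eq_zero] at h1
  exact h1

section Occ

variable {X : Type} [Fintype X] [DecidableEq X]

/-- `occ` as a `ℤ`-linear map. -/
def occL (rl cl : X → ℕ) : (Perm X → ℂ) →ₗ[ℤ] ℂ where
  toFun := occ rl cl
  map_add' F G := by
    simp only [occ, Pi.add_apply, mul_add, Finset.sum_add_distrib]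
  map_smul' c F := by
    simp only [occ, Pi.smul_apply, RingHom.id_apply, Finset.smul_sum, zsmul_eq_mul]
    refine Finset.sum_congr rfl (fun ρ _ => Finset.sum_congr rfl (fun π _ => ?_))
    ring

/-- If some element of `Q` has nonzero `occ`, so does one of the generators. -/
theorem exists_gen_of_occ {m : ℕ} {i j : X → ℕ} {b : BF X} {Q : Submodule ℤ (Perm X → ℂ)}
    (hg : Good m i j b Q) (rl cl : X → ℕ) (h : ∃ F ∈ Q, occ rl cl F ≠ 0) :
    ∃ k : Perm X, occ rl cl
      (Fn b (wordRep X k (e0 m i j)) (wordRep X k (e1 m i j))) ≠ 0 := by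
  by_contra hcon
  push Not at hcon
  obtain ⟨F, hF, hne⟩ := h
  obtain ⟨c, hc, hcQ⟩ := odd_smul_mem _ Q hg.fg hg.gen
  have h1 := hcQ F hF
  have h2 : ∀ G ∈ Submodule.span ℤ (Set.range fun k : Perm X =>
      Fn b (wordRep X k (e0 m i j)) (wordRep X k (e1 m i j))), occL rl cl G = 0 := by
    intro G hG
    have hle : Submodule.span ℤ (Set.range fun k : Perm X =>
      Fn b (wordRep X k (e0 m i j)) (wordRep X k (e1 m i j))) ≤
        LinearMap.ker (occL rl cl) := by
      rw [Submodule.span_le]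
      rintro _ ⟨k, rfl⟩
      exact hcon k
    exact hle hG
  have h3 := h2 _ h1
  rw [map_smul, zsmul_eq_mul] at h3
  rcases mul_eq_zero.mp h3 with h4 | h4
  · have : c = 0 := by exact_mod_cast h4
    subst this
    simp at hc
  · exact hne h4

end Occ

theorem r0_mem {X : Type} {m : ℕ} {i j : X → ℕ} (hs : IsStair m i j) (x : X) :
    (r0 m i j x, j x) ∈ (staircase m).cells := by
  rw [YoungDiagram.mem_cells, mem_staircase]
  have := hs.lt x
  change m - 1 - i x - j x + j x < m
  omega

theorem e0_mem {n m : ℕ} {i j : Fin n → ℕ} (hs : IsStair m i j) :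
    e0 m i j ∈ spechtSub n (staircase m) := by
  have hbij : Function.Bijective
      (fun x : Fin n => (⟨(r0 m i j x, j x), r0_mem hs x⟩ : (staircase m).cells)) := by
    constructor
    · intro x y hxy
      have h1 : r0 m i j x = r0 m i j y ∧ j x = j y := by simpa using hxy
      have hx := hs.lt x
      have hy := hs.lt y
      refine hs.inj x y ?_ h1.2
      have := h1.1
      simp only [r0] at this
      (clear * - h1 hx hy this; omega)
    · rintro ⟨⟨a, b⟩, hab⟩
      rw [YoungDiagram.mem_cells, mem_staircase] at hab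
      obtain ⟨x, hx1, hx2⟩ := hs.surj (m - 1 - a - b) b (by simp only at hab; omega)
      refine ⟨x, ?_⟩
      simp only [Subtype.mk.injEq, Prod.mk.injEq, r0]
      simp only at hab
      omega
  exact Submodule.subset_span ⟨Equiv.ofBijective _ hbij, rfl⟩

theorem IsStair.swap {X : Type} {m : ℕ} {i j : X → ℕ} (hs : IsStair m i j) : IsStair m j i where
  lt x := by
    have := hs.lt x
    omega
  inj x y h1 h2 := hs.inj x y h2 h1
  surj a b hab := by
    obtain ⟨x, h1, h2⟩ := hs.surj b a (by omega)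
    exact ⟨x, h2, h1⟩

theorem r0_swap {X : Type} (m : ℕ) (i j : X → ℕ) : r0 m j i = r0 m i j := by
  funext x
  simp only [r0]
  omega

theorem e1_mem {n m : ℕ} {i j : Fin n → ℕ} (hs : IsStair m i j) :
    e1 m i j ∈ spechtSub n (staircase m) := by
  have := e0_mem hs.swap
  unfold e0 at this
  rw [r0_swap] at this
  exact this

/-- The linear functional on the tensor product given by a bilinear form. -/
def tensorForm {n : ℕ} (lam mu : YoungDiagram) (b : BF (Fin n)) :
    spechtSub n lam ⊗[ℂ] spechtSub n mu →ₗ[ℂ] ℂ :=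
  TensorProduct.lift (b.compl₁₂ (spechtSub n lam).subtype (spechtSub n mu).subtype)

theorem tensorForm_tmul {n : ℕ} (lam mu : YoungDiagram) (b : BF (Fin n))
    (v : spechtSub n lam) (w : spechtSub n mu) :
    tensorForm lam mu b (v ⊗ₜ[ℂ] w) = b v.1 w.1 := by
  simp only [tensorForm, TensorProduct.lift.tmul, LinearMap.compl₁₂_apply, Submodule.subtype_apply]

/-- **Final step**: the inductive statement implies positivity of the Kronecker coefficient. -/
theorem kron_pos_of_T_aux {n m : ℕ} {i j : Fin n → ℕ} (hs : IsStair m i j)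
    {ν : YoungDiagram} (h : T m i j ν) :
    0 < kron n (staircase m) (staircase m) ν := by
  classical
  obtain ⟨b, Q, hg, rl, cl, hl, hF⟩ := h
  obtain ⟨k, hk⟩ := exists_gen_of_occ hg rl cl hF
  have hbij : Function.Bijective
      (fun x : Fin n => (⟨(rl x, cl x), hl.mem x⟩ : ν.cells)) := by
    constructor
    · intro x y hxy
      have h1 : rl x = rl y ∧ cl x = cl y := by simpa using hxy
      exact hl.inj x y h1.1 h1.2
    · rintro ⟨⟨a, b⟩, hab⟩
      obtain ⟨x, hx1, hx2⟩ := hl.surj (a, b) hab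
      refine ⟨x, ?_⟩
      simp only [Subtype.mk.injEq, Prod.mk.injEq]
      exact ⟨hx1, hx2⟩
  let v0 : spechtSub n (staircase m) := ⟨e0 m i j, e0_mem hs⟩
  let v1 : spechtSub n (staircase m) := ⟨e1 m i j, e1_mem hs⟩
  refine kron_pos_of_ne_zero n (staircase m) (staircase m) ν (Equiv.ofBijective _ hbij)
    ((specht n (staircase m) k v0) ⊗ₜ[ℂ] (specht n (staircase m) k v1)) ?_
  intro hzero
  apply hk
  have h2 := congrArg (tensorForm (staircase m) (staircase m) b) hzero
  rw [map_zero] at h2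
  rw [← h2]
  have hr : (fun x => ((Equiv.ofBijective _ hbij : Fin n ≃ ν.cells) x).1.1) = rl := rfl
  have hc : (fun x => ((Equiv.ofBijective _ hbij : Fin n ≃ ν.cells) x).1.2) = cl := rfl
  rw [hr, hc, map_sum]
  unfold occ
  refine Finset.sum_congr rfl (fun ρ _ => ?_)
  rw [map_sum, map_sum]
  refine Finset.sum_congr rfl (fun π _ => ?_)
  rw [map_smul, map_smul, smul_eq_mul]
  congr 1
  unfold Fn
  rw [Representation.tprod_apply, Representation.tprod_apply, TensorProduct.map_tmul,
    TensorProduct.map_tmul, tensorForm_tmul]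
  have e : ∀ v : spechtSub n (staircase m),
      ((specht n (staircase m) ρ (specht n (staircase m) π (specht n (staircase m) k v))).1) =
        wordRep (Fin n) (ρ * π) (wordRep (Fin n) k v.1) := by
    intro v
    rw [map_mul]
    rfl
  rw [e, e]

/-- **Final step**: the inductive statement implies positivity of the Kronecker coefficient. -/
theorem kron_pos_of_T {m : ℕ} {i j : Fin (m * (m + 1) / 2) → ℕ} (hs : IsStair m i j)
    {ν : YoungDiagram} (h : T m i j ν) :
    0 < kron (m * (m + 1) / 2) (staircase m) (staircase m) ν :=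
  kron_pos_of_T_aux hs h

end

end Vale.Agent.P197
end
end

section

section

/-!
# Saxl's conjecture: the induction

The inductive statement `T m i j ν` is proved for all diagrams `ν` with `m (m + 1) / 2` cells by
removing the two top levels of the staircase (`T_peel`), possibly after transposing `ν`.
-/

namespace Vale.Agent.P197

open Equiv Finset

noncomputable section

theorem card_staircase (m : ℕ) : (staircase m).card = m * (m + 1) / 2 := by
  have h : (staircase m).cells = (Finset.range m).biUnion fun k => Finset.HasAntidiagonal.antidiagonal k := by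
    ext ⟨a, b⟩
    simp only [YoungDiagram.mem_cells, mem_staircase, Finset.mem_biUnion, Finset.mem_range,
      Finset.HasAntidiagonal.mem_antidiagonal]
    constructor
    · intro h
      exact ⟨a + b, h, rfl⟩
    · rintro ⟨k, hk, rfl⟩
      exact hk
  rw [YoungDiagram.card, h, Finset.card_biUnion]
  · simp only [Finset.Nat.card_antidiagonal]
    rw [Finset.sum_add_distrib, Finset.sum_range_id]
    simp only [Finset.sum_const, Finset.card_range, smul_eq_mul, mul_one]
    have h2 : m * (m + 1) = m * (m - 1) + 2 * m := by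
      cases m with
      | zero => rfl
      | succ k => simp only [add_tsub_cancel_right]; ring
    rw [h2, Nat.add_mul_div_left _ _ (by norm_num)]
  · intro k _ l _ hkl
    rw [Function.onFun, Finset.disjoint_left]
    intro c hc hc'
    rw [Finset.HasAntidiagonal.mem_antidiagonal] at hc hc'
    exact hkl (hc.symm.trans hc')

/-- The staircase labels restricted to the lower levels form a smaller staircase. -/
theorem IsStair.low {X : Type} {m : ℕ} {i j : X → ℕ} (hs : IsStair m i j) (p : X → Prop)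
    (hp : ∀ x, p x ↔ m ≤ i x + j x + 2) :
    IsStair (m - 2) (resW (fun x => ¬ p x) i) (resW (fun x => ¬ p x) j) where
  lt := by
    rintro ⟨x, hx⟩
    have h := hx
    rw [hp] at h
    simp only [resW]
    omega
  inj := by
    rintro ⟨x, hx⟩ ⟨y, hy⟩ h1 h2
    exact Subtype.ext (hs.inj x y h1 h2)
  surj := by
    intro a b hab
    obtain ⟨x, hx1, hx2⟩ := hs.surj a b (by omega)
    refine ⟨⟨x, ?_⟩, hx1, hx2⟩
    rw [hp]
    omega

/-- The top two levels form a zigzag. -/
theorem IsStair.top {X : Type} {m : ℕ} {i j : X → ℕ} (hs : IsStair m i j) (p : X → Prop)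
    (hp : ∀ x, p x ↔ m ≤ i x + j x + 2) :
    IsZig m (resW p i) (resW p j) where
  lt := fun x => hs.lt x.1
  le := fun x => (hp x.1).mp x.2
  inj := by
    rintro ⟨x, hx⟩ ⟨y, hy⟩ h1 h2
    exact Subtype.ext (hs.inj x y h1 h2)
  surj := by
    intro a b hab hab'
    obtain ⟨x, hx1, hx2⟩ := hs.surj a b hab
    refine ⟨⟨x, ?_⟩, hx1, hx2⟩
    rw [hp]
    omega

theorem kform_invariant {X : Type} (y : (X → ℕ) → (X → ℕ) → ℂ) (ρ : Perm X)
    (hy : ∀ u u' : X → ℕ, y (u ∘ ρ) (u' ∘ ρ) = y u u') (v w : WM X) :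
    kform y (wordRep X ρ v) (wordRep X ρ w) = kform y v w := by
  induction v using Finsupp.induction_linear with
  | zero => simp only [map_zero, LinearMap.zero_apply]
  | add v v' h h' => simp only [map_add, LinearMap.add_apply, h, h']
  | single u a =>
    induction w using Finsupp.induction_linear with
    | zero => simp only [map_zero]
    | add w w' h h' => simp only [map_add, h, h']
    | single u' a' =>
      rw [wordRep_single, wordRep_single, kform_single, kform_single]
      have h := hy (u ∘ ⇑(ρ⁻¹ : Perm X)) (u' ∘ ⇑(ρ⁻¹ : Perm X))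
      rw [← h]
      congr 3
      · funext x
        simp
      · funext x
        simp

/-- Base case. -/
theorem T_base {X : Type} [Fintype X] [DecidableEq X] {m : ℕ} (hm : m ≤ 1) {i j : X → ℕ}
    (hs : IsStair m i j) (ν : YoungDiagram) (hν : ν.card = m * (m + 1) / 2) : T m i j ν := by
  have hi : ∀ x, i x = 0 := fun x => by have := hs.lt x; omega
  have hj : ∀ x, j x = 0 := fun x => by have := hs.lt x; omega
  have hX : Subsingleton X := ⟨fun x y => hs.inj x y (by rw [hi, hi]) (by rw [hj, hj])⟩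
  have hstab : ∀ f : X → ℕ, stab f = {1} := by
    intro f
    ext π
    rw [mem_stab, Finset.mem_singleton]
    constructor
    · intro _
      exact Subsingleton.elim _ _
    · rintro rfl x
      rfl
  have hp : ∀ c r : X → ℕ, polyt c r = Finsupp.single r 1 := by
    intro c r
    rw [polyt, hstab, Finset.sum_singleton, Perm.sign_one, inv_one, Perm.coe_one,
      Function.comp_id]
    simp
  have hg : ∀ (g : Perm X) (v : WM X), wordRep X g v = v := by
    intro g v
    rw [Subsingleton.elim g 1, map_one]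
    rfl
  set b : BF X := kform fun _ _ => 1 with hb
  have hF : ∀ g g' : Perm X, Fn b (wordRep X g (e0 m i j)) (wordRep X g' (e0 m i j)) =
      fun _ => 1 := by
    intro g g'
    funext h
    simp only [Fn, e0, hp, hg, hb, kform_single]
    norm_num
  have hF1 : ∀ g : Perm X, Fn b (wordRep X g (e0 m i j)) (wordRep X g (e1 m i j)) =
      fun _ => 1 := by
    intro g
    funext h
    simp only [Fn, e0, e1, hp, hg, hb, kform_single]
    norm_num
  refine ⟨b, Submodule.span ℤ {fun _ => 1}, ⟨?_, ?_, ?_, ?_⟩, ?_⟩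
  · exact Submodule.fg_span (Set.finite_singleton _)
  · intro g F hF
    have : (fun h => F (h * g)) = F := by
      funext h
      rw [Subsingleton.elim (h * g) h]
    rw [this]
    exact hF
  · intro g g'
    rw [hF]
    exact Submodule.subset_span rfl
  · intro F hF
    refine ⟨F, ?_, 0, Submodule.zero_mem _, by simp⟩
    have : (Set.range fun k : Perm X => Fn b (wordRep X k (e0 m i j))
        (wordRep X k (e1 m i j))) = {fun _ => 1} := by
      ext F
      simp only [hF1, Set.range_const]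
    rw [this]
    exact hF
  · have hocc : ∀ rl cl : X → ℕ, occ rl cl (fun _ => (1 : ℂ)) ≠ 0 := by
      intro rl cl
      rw [occ, hstab, hstab]
      simp only [mul_one, sum_singleton, Perm.sign_one, Units.val_one, Int.cast_one, sum_const, card_singleton, one_smul, ne_eq, one_ne_zero, not_false_eq_true]
    have hlab : ∃ rl cl : X → ℕ, IsLabel ν.cells rl cl := by
      interval_cases m
      · have hempty : ν.cells = ∅ := by
          rw [← Finset.card_eq_zero]
          simpa using hν
        refine ⟨fun _ => 0, fun _ => 0, ⟨?_, ?_, ?_⟩⟩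
        · intro x
          exact absurd (hs.lt x) (by omega)
        · intro x
          exact absurd (hs.lt x) (by omega)
        · intro c hc
          rw [hempty] at hc
          exact absurd hc (by simp)
      · obtain ⟨x0, -, -⟩ := hs.surj 0 0 (by omega)
        have hone : ν.cells.card = 1 := by simpa only [Nat.reduceAdd, one_mul, Order.lt_two_iff, zero_le, Nat.div_self] using hν
        obtain ⟨c, hc⟩ := Finset.card_eq_one.mp hone
        refine ⟨fun _ => c.1, fun _ => c.2, ⟨?_, ?_, ?_⟩⟩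
        · intro x
          rw [hc]
          simp
        · intro x y _ _
          exact Subsingleton.elim _ _
        · intro d hd
          rw [hc, Finset.mem_singleton] at hd
          exact ⟨x0, by rw [hd], by rw [hd]⟩
    obtain ⟨rl, cl, hl⟩ := hlab
    exact ⟨rl, cl, hl, _, Submodule.subset_span rfl, hocc rl cl⟩

/-- Peeling step. -/
theorem T_peel {X : Type} [Fintype X] [DecidableEq X] {m : ℕ} (hm : 2 ≤ m) {i j : X → ℕ}
    (hs : IsStair m i j)
    (ih : ∀ (Y : Type) [Fintype Y] [DecidableEq Y] (i' j' : Y → ℕ), IsStair (m - 2) i' j' →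
      ∀ ν' : YoungDiagram, ν'.card = (m - 2) * (m - 2 + 1) / 2 → T (m - 2) i' j' ν')
    (ν ν2 : YoungDiagram) (hν : ν.card = m * (m + 1) / 2) (hle : ν2 ≤ ν)
    (hν2 : ν2.card = (m - 2) * (m - 1) / 2) (hcol : ∀ k, ν.colLen k ≤ ν2.colLen k + 4) :
    T m i j ν := by
  classical
  let p : X → Prop := fun x => m ≤ i x + j x + 2
  have hp : ∀ x, p x ↔ m ≤ i x + j x + 2 := fun x => Iff.rfl
  obtain ⟨b₂, Q₂, hgood, rl₂, cl₂, hlab₂, F₂, hF₂, hocc₂⟩ :=
    ih {x // ¬ p x} _ _ (hs.low p hp) ν2 (by
      have : m - 2 + 1 = m - 1 := by omega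
      rw [this]; exact hν2)
  set S : Finset (ℕ × ℕ) := ν.cells \ ν2.cells with hSdef
  have hScard : S.card = 2 * m - 1 := by
    rw [hSdef, Finset.card_sdiff_of_subset hle]
    change ν.card - ν2.card = _
    rw [hν, hν2]
    obtain ⟨k, rfl⟩ := Nat.exists_eq_add_of_le hm
    have h1 : (2 + k) * (2 + k + 1) = (2 + k - 2) * (2 + k - 1) + 2 * (2 * k + 3) := by
      simp only [Nat.add_sub_cancel_left]
      have : 2 + k - 1 = k + 1 := by omega
      rw [this]
      ring
    rw [h1, Nat.add_mul_div_left _ _ (by norm_num)]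
    (clear * - hm; omega)
  have hSmem : ∀ c : ℕ × ℕ, c ∈ S ↔ c.1 < ν.colLen c.2 ∧ ν2.colLen c.2 ≤ c.1 := by
    intro c
    rw [hSdef, Finset.mem_sdiff, YoungDiagram.mem_cells, YoungDiagram.mem_cells,
      ← YoungDiagram.mem_iff_lt_colLen, ← not_lt, ← YoungDiagram.mem_iff_lt_colLen]
  have hS : ∀ c ∈ S, ∀ c' ∈ S, c.2 = c'.2 → c.1 % 4 = c'.1 % 4 → c = c' := by
    intro c hc c' hc' h2 h4
    rw [hSmem] at hc hc'
    have h := hcol c.2
    rw [← h2] at hc'
    refine Prod.ext ?_ h2
    omega
  obtain ⟨rlA, clA, hlabA, y, hy, hyne⟩ := exists_kernel (m := m) (by omega) (hs.top p hp) S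
    hScard hS
  obtain ⟨Q, hQ, hmemQ⟩ := peel_good hm hs p hp y b₂ Q₂ hgood
  refine ⟨_, Q, hQ, ?_⟩
  set rl : X → ℕ := fun x => if h : p x then rlA ⟨x, h⟩ else rl₂ ⟨x, h⟩ with hrl
  set cl : X → ℕ := fun x => if h : p x then clA ⟨x, h⟩ else cl₂ ⟨x, h⟩ with hcl
  have hrlA : ∀ (x : X) (h : p x), rl x = rlA ⟨x, h⟩ := fun x h => by rw [hrl]; exact dif_pos h
  have hclA : ∀ (x : X) (h : p x), cl x = clA ⟨x, h⟩ := fun x h => by rw [hcl]; exact dif_pos h
  have hrl2 : ∀ (x : X) (h : ¬ p x), rl x = rl₂ ⟨x, h⟩ := fun x h => by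
    rw [hrl]; exact dif_neg h
  have hcl2 : ∀ (x : X) (h : ¬ p x), cl x = cl₂ ⟨x, h⟩ := fun x h => by
    rw [hcl]; exact dif_neg h
  have hresA : resW p rl = rlA := by
    funext x
    exact hrlA x.1 x.2
  have hresA' : resW p cl = clA := by
    funext x
    exact hclA x.1 x.2
  have hresB : resW (fun x => ¬ p x) rl = rl₂ := by
    funext x
    exact hrl2 x.1 x.2
  have hresB' : resW (fun x => ¬ p x) cl = cl₂ := by
    funext x
    exact hcl2 x.1 x.2
  have hin : ∀ x, p x → (rl x, cl x) ∈ S := by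
    intro x hx
    rw [hrlA x hx, hclA x hx]
    exact hlabA.mem _
  have hout : ∀ x, ¬ p x → (rl x, cl x) ∈ ν2.cells := by
    intro x hx
    rw [hrl2 x hx, hcl2 x hx]
    exact hlab₂.mem _
  have hlab : IsLabel ν.cells rl cl := by
    refine ⟨?_, ?_, ?_⟩
    · intro x
      by_cases hx : p x
      · exact (Finset.mem_sdiff.mp (hin x hx)).1
      · exact hle (hout x hx)
    · intro x x' h1 h2
      by_cases hx : p x
      · by_cases hx' : p x'
        · have := hlabA.inj ⟨x, hx⟩ ⟨x', hx'⟩ (by rw [← hrlA, ← hrlA, h1])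
            (by rw [← hclA, ← hclA, h2])
          exact congrArg Subtype.val this
        · have h3 := (Finset.mem_sdiff.mp (hin x hx)).2
          have h4 := hout x' hx'
          rw [h1, h2] at h3
          exact absurd h4 h3
      · by_cases hx' : p x'
        · have h3 := (Finset.mem_sdiff.mp (hin x' hx')).2
          have h4 := hout x hx
          rw [← h1, ← h2] at h3
          exact absurd h4 h3
        · have := hlab₂.inj ⟨x, hx⟩ ⟨x', hx'⟩ (by rw [← hrl2, ← hrl2, h1])
            (by rw [← hcl2, ← hcl2, h2])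
          exact congrArg Subtype.val this
    · intro c hc
      by_cases hc2 : c ∈ ν2.cells
      · obtain ⟨x, h1, h2⟩ := hlab₂.surj c hc2
        exact ⟨x.1, by rw [hrl2 x.1 x.2, ← h1], by rw [hcl2 x.1 x.2, ← h2]⟩
      · obtain ⟨x, h1, h2⟩ := hlabA.surj c (Finset.mem_sdiff.mpr ⟨hc, hc2⟩)
        exact ⟨x.1, by rw [hrlA x.1 x.2, ← h1], by rw [hclA x.1 x.2, ← h2]⟩
  refine ⟨rl, cl, hlab, _, hmemQ F₂ hF₂, ?_⟩
  refine occ_glue p ν ν2 hle rl cl hlab ?_ _ _ ?_ ?_ ?_
  · intro x
    constructor
    · exact hout x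
    · intro h hx
      exact (Finset.mem_sdiff.mp (hin x hx)).2 h
  · intro ρ hρ g
    rw [hresA] at hρ
    simp only [Fn, map_mul, Module.End.mul_apply]
    exact kform_invariant y ρ (hy ρ hρ) _ _
  · rw [hresA']
    exact hyne
  · rw [hresB, hresB']
    exact hocc₂

/-- The inductive statement holds for all diagrams of the right size. -/
theorem T_all (m : ℕ) : ∀ (X : Type) [Fintype X] [DecidableEq X] (i j : X → ℕ),
    IsStair m i j → ∀ ν : YoungDiagram, ν.card = m * (m + 1) / 2 → T m i j ν := by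
  induction m using Nat.strong_induction_on with
  | _ m ih =>
    intro X _ _ i j hs ν hν
    rcases Nat.lt_or_ge m 2 with hm | hm
    · exact T_base (by omega) hs ν hν
    · have ih' := ih (m - 2) (by omega)
      rcases Saxl.exists_sub m hm ν hν with ⟨ν2, h1, h2, h3⟩ | ⟨ν2, h1, h2, h3⟩
      · exact T_peel hm hs ih' ν ν2 hν h1 h2 h3
      · have hν' : ν.transpose.card = m * (m + 1) / 2 := by
          rw [← hν]
          exact Saxl.card_transpose ν
        have := T_transpose hs (T_peel hm hs ih' ν.transpose ν2 hν' h1 h2 h3)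
        rwa [YoungDiagram.transpose_transpose] at this

theorem saxl (m : ℕ) (ν : YoungDiagram) (hν : ν.card = m * (m + 1) / 2) :
    0 < kron (m * (m + 1) / 2) (staircase m) (staircase m) ν := by
  have hcard : Fintype.card (staircase m).cells = m * (m + 1) / 2 := by
    rw [Fintype.card_coe]
    exact card_staircase m
  let t : (staircase m).cells ≃ Fin (m * (m + 1) / 2) := Fintype.equivFinOfCardEq hcard
  have hs : IsStair m (fun x => (t.symm x).1.1) (fun x => (t.symm x).1.2) := by
    refine ⟨?_, ?_, ?_⟩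
    · intro x
      exact mem_staircase.mp ((YoungDiagram.mem_cells _).mp (t.symm x).2)
    · intro x x' h1 h2
      exact t.symm.injective (Subtype.ext (Prod.ext h1 h2))
    · intro a b hab
      refine ⟨t ⟨(a, b), (YoungDiagram.mem_cells _).mpr (mem_staircase.mpr hab)⟩, ?_, ?_⟩
      · simp
      · simp
  exact kron_pos_of_T hs (T_all m _ _ _ hs ν hν)

end

end Vale.Agent.P197
end
end
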